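import Vale.Agent.P165.Geo2

open Classical
open scoped ENNReal

namespace Vale.Agent.P165

open Vale.Agent.P151

universe u

variable {V : Type*} {α : Type*} [DecidableEq α]

variable {Γ : SimpleGraph V} {π : V → FreeGroup α} {τ : Set (FreeGroup α) → V → V → ℝ≥0∞}
  {L Δ : ℕ} {K : ℕ → ℝ≥0∞}

lemma absA_tsum {ι : Type*} {P : ι → Prop} {Q : Prop} (h1 : ∀ i j, P i → P j → i = j)
    (h2 : ∀ i, P i → Q) : ∑' i, ii (P i) ≤ ii Q := by
  by_cases h : ∃ i, P i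
  · obtain ⟨i, hi⟩ := h
    rw [tsum_eq_single i fun j hj => ii_false fun hP => hj (h1 j i hP hi)]
    exact ii_mono (h2 i)
  · have : ∀ i, ii (P i) = 0 := fun i => ii_false fun hP => h ⟨i, hP⟩
    simp [this]

lemma absA_sum {ι : Type*} (s : Finset ι) {P : ι → Prop} {Q : Prop}
    (h1 : ∀ i ∈ s, ∀ j ∈ s, P i → P j → i = j) (h2 : ∀ i ∈ s, P i → Q) :
    ∑ i ∈ s, ii (P i) ≤ ii Q := by
  by_cases h : ∃ i ∈ s, P i
  · obtain ⟨i, hs, hi⟩ := h
    rw [Finset.sum_eq_single_of_mem i hs fun j hj hne => ii_false fun hP =>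
      hne (h1 j hj i hs hP hi)]
    exact ii_mono (h2 i hs)
  · rw [Finset.sum_eq_zero fun i hi => ii_false fun hP => h ⟨i, hi, hP⟩]
    exact zero_le

/-- entering a cone -/
lemma Ker.cross (h : Ker Γ π τ L Δ K) {x : V} {u : FreeGroup α} (hu : π x ≠ u)
    {R : Set (FreeGroup α)} (hR : (cone (π x) u)ᶜ ⊆ R) (f : V → ℝ≥0∞) {M : ℝ≥0∞}
    (hM : ∀ b, π b ∈ cone (π x) u → π b ∈ R → dd u (π b) ≤ L → ∑' y, f y * τ R b y ≤ M) :
    ∑' y, f y * τ R x y ≤ ∑' y, f y * τ (cone (π x) u)ᶜ x y + Δ * ee π τ L x u * M := by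
  have hx : π x ∈ (cone (π x) u)ᶜ := root_not_mem_cone hu
  refine (ENNReal.tsum_le_tsum fun y => mul_le_mul_right (h.up _ R x y hR hx) (f y)).trans ?_
  simp only [mul_add]
  rw [ENNReal.tsum_add]
  refine add_le_add le_rfl ?_
  simp only [← ENNReal.tsum_mul_left]
  rw [ENNReal.tsum_comm]
  have key : ∀ a, ∑' y, ∑' b, f y * (ii (Γ.Adj a b ∧ π a ∈ (cone (π x) u)ᶜ ∧
      π b ∉ (cone (π x) u)ᶜ ∧ π b ∈ R) * (τ (cone (π x) u)ᶜ x a * τ R b y)) ≤
      Δ * (ii (dd (π a) u ≤ L) * τ (cone (π x) u)ᶜ x a) * M := by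
    intro a
    rw [ENNReal.tsum_comm]
    have k2 : ∀ b, ∑' y, f y * (ii (Γ.Adj a b ∧ π a ∈ (cone (π x) u)ᶜ ∧
        π b ∉ (cone (π x) u)ᶜ ∧ π b ∈ R) * (τ (cone (π x) u)ᶜ x a * τ R b y)) ≤
        ii (Γ.Adj a b) * ((ii (dd (π a) u ≤ L) * τ (cone (π x) u)ᶜ x a) * M) := by
      intro b
      by_cases hc : Γ.Adj a b ∧ π a ∈ (cone (π x) u)ᶜ ∧ π b ∉ (cone (π x) u)ᶜ ∧ π b ∈ R
      · obtain ⟨c1, c2, c3, c4⟩ := id hc
        have c3' : π b ∈ cone (π x) u := not_not.1 c3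
        have e := cone_cut c2 c3'
        have l := h.lip a b c1
        rw [ii_true hc, ii_true c1, ii_true (show dd (π a) u ≤ L by omega)]
        simp only [one_mul, mul_left_comm (f _)]
        rw [ENNReal.tsum_mul_left]
        exact mul_le_mul_right (hM b c3' c4 (by omega)) _
      · rw [ii_false hc]; simp
    refine (ENNReal.tsum_le_tsum k2).trans ?_
    rw [ENNReal.tsum_mul_right, mul_assoc (Δ : ℝ≥0∞)]
    exact mul_le_mul_left (h.deg a) _
  refine (ENNReal.tsum_le_tsum key).trans ?_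
  rw [ENNReal.tsum_mul_right, ENNReal.tsum_mul_left, ee]

/-- disjoint cones inside a cone -/
lemma nu_sum {ι : Type*} (s : Finset ι) (x : V) (u : FreeGroup α) (c : ι → FreeGroup α)
    (h1 : ∀ i ∈ s, cone (π x) (c i) ⊆ cone (π x) u)
    (h2 : ∀ i ∈ s, ∀ j ∈ s, i ≠ j → Disjoint (cone (π x) (c i)) (cone (π x) (c j))) :
    ∑ i ∈ s, nu π τ x (c i) ≤ nu π τ x u := by
  unfold nu
  rw [← Summable.tsum_finsetSum fun _ _ => ENNReal.summable]
  refine ENNReal.tsum_le_tsum fun y => ?_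
  rw [← Finset.sum_mul]
  refine mul_le_mul_left (absA_sum s (fun i hi j hj a b => ?_) fun i hi a => h1 i hi a) _
  by_contra hne
  exact Set.disjoint_left.1 (h2 i hi j hj hne) a b

lemma nu_sphere (x : V) (u : FreeGroup α) (n : ℕ) :
    ∑' v, ii (v ∈ cone (π x) u ∧ dd (π x) v = n) * nu π τ x v ≤ nu π τ x u := by
  unfold nu
  simp only [← ENNReal.tsum_mul_left]
  rw [ENNReal.tsum_comm]
  refine ENNReal.tsum_le_tsum fun y => ?_
  simp only [← mul_assoc, ← ii_and]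
  rw [ENNReal.tsum_mul_right]
  exact mul_le_mul_left (absA_tsum (fun v v' a b => cone_uniq a.2 b.2 (a.1.2.trans b.1.2.symm))
    fun v a => cone_trans a.1.1 a.2) _

lemma nu_le (x : V) (u : FreeGroup α) : nu π τ x u ≤ ⨆ x, ∑' y, τ Set.univ x y := by
  refine le_trans ?_ (le_iSup (fun x => ∑' y, τ Set.univ x y) x)
  refine ENNReal.tsum_le_tsum fun y => ?_
  exact (mul_le_mul_left (ii_le_one _) _).trans (one_mul _).le

lemma Ker.nu_le_ee (h : Ker Γ π τ L Δ K) {x : V} {u : FreeGroup α} (hu : π x ≠ u) :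
    nu π τ x u ≤ Δ * ee π τ L x u * ⨆ x, ∑' y, τ Set.univ x y := by
  have := h.cross hu (R := Set.univ) (Set.subset_univ _) (fun y => ii (π y ∈ cone (π x) u))
    (M := ⨆ x, ∑' y, τ Set.univ x y) fun b _ _ _ => by
      refine le_trans ?_ (le_iSup (fun x => ∑' y, τ Set.univ x y) b)
      exact ENNReal.tsum_le_tsum fun y => (mul_le_mul_left (ii_le_one _) _).trans (one_mul _).le
  have z : ∀ y, ii (π y ∈ cone (π x) u) * τ (cone (π x) u)ᶜ x y = 0 := fun y => by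
    by_cases hy : π y ∈ cone (π x) u
    · rw [h.supp _ x y (root_not_mem_cone hu) (not_not.2 hy), mul_zero]
    · rw [ii_false hy, zero_mul]
  simp only [z, tsum_zero, zero_add] at this
  exact this

end Vale.Agent.P165
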