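import Vale.Agent.P165.Tau

open Classical
open scoped ENNReal

namespace Vale.Agent.P165

open Vale.Agent.P151

universe u

variable {V : Type*} {α : Type*} [DecidableEq α]

variable {Γ : SimpleGraph V} {G : Type u} [Group G] [MulAction G V]

lemma iv_map_mem_inE (hG : Geom Γ G) (S : Set V) (g : G) (e : Sym2 V) :
    e.map (g • ·) ∈ inE Γ S ↔ e ∈ inE Γ {v | g • v ∈ S} := by
  induction e using Sym2.ind with
  | _ a b => rw [Sym2.map_mk, mk_mem_inE, mk_mem_inE, hG.adj]; rfl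

lemma iv_conn_map (g : G) {ω η : Set (Sym2 V)} (h : ∀ e ∈ ω, e.map (g • ·) ∈ η) {x y : V}
    (hc : Conn ω x y) : Conn η (g • x) (g • y) := by
  induction hc with
  | refl => exact Conn.refl _ _
  | tail _ h2 ih => exact ih.tail (h _ h2)

lemma iv_map_inv_map (g : G) (e : Sym2 V) : (e.map (g • ·)).map (g⁻¹ • ·) = e := by
  induction e using Sym2.ind with
  | _ a b => simp

lemma iv_map_map_inv (g : G) (e : Sym2 V) : (e.map (g⁻¹ • ·)).map (g • ·) = e := by
  induction e using Sym2.ind with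
  | _ a b => simp

lemma iv_ball_smul (hG : Geom Γ G) (g : G) {x y : V} {r : ℕ} (h : y ∈ ball Γ x r) :
    g • y ∈ ball Γ (g • x) r := by
  induction r generalizing y with
  | zero => rw [show y = x from h]; rfl
  | succ r ih =>
    rcases h with h | ⟨u, hu, huv⟩
    · exact Or.inl (ih h)
    · exact Or.inr ⟨g • u, ih hu, (hG.adj g u y).2 huv⟩

lemma iv_ball_smul_iff (hG : Geom Γ G) (g : G) {x y : V} {r : ℕ} :
    g • y ∈ ball Γ (g • x) r ↔ y ∈ ball Γ x r :=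
  ⟨fun h => by simpa using iv_ball_smul hG g⁻¹ h, iv_ball_smul hG g⟩

lemma tau_smul (hG : Geom Γ G) (p : ℝ) (S : Set V) (g : G) (x y : V) :
    tau (wU p (inE Γ S)) (g • x) (g • y) = tau (wU p (inE Γ {v | g • v ∈ S})) x y := by
  refine (tau_map (MulAction.toPerm g) _ x y).trans ?_
  congr 1
  funext e
  exact if_congr (iv_map_mem_inE hG S g e) rfl rfl
lemma inE_univ (Γ : SimpleGraph V) : inE Γ Set.univ = Γ.edgeSet := by
  ext e; simp [inE]
lemma tau_smul_univ (hG : Geom Γ G) (p : ℝ) (g : G) (x y : V) :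
    tau (wU p Γ.edgeSet) (g • x) (g • y) = tau (wU p Γ.edgeSet) x y := by
  rw [← inE_univ]
  exact tau_smul hG p Set.univ g x y
lemma tR_smul (hG : Geom Γ G) {ρ : G →* Equiv.Perm (FreeGroup α)} {π : V → FreeGroup α}
    (hπ : ∀ g v, π (g • v) = ρ g (π v)) (p : ℝ) (R : Set (FreeGroup α)) (g : G) (x y : V) :
    tR Γ π p R (g • x) (g • y) = tR Γ π p {v | ρ g v ∈ R} x y := by
  unfold tR
  rw [tau_smul hG]
  congr 3
  ext v
  simp [hπ]
lemma phi_smul (hG : Geom Γ G) (p : ℝ) (g : G) (x : V) (S : Finset V) :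
    phi Γ p (g • x) (S.image (g • ·)) = phi Γ p x S := by
  have hm : ∀ a, g • a ∈ S.image (g • ·) ↔ a ∈ S := fun a =>
    (MulAction.injective g).mem_finset_image
  have hs : {v | g • v ∈ ((S.image (g • ·) : Finset V) : Set V)} = (S : Set V) :=
    Set.ext fun a => hm a
  unfold phi
  rw [← (MulAction.toPerm g).tsum_eq]
  refine tsum_congr fun a => ?_
  rw [← (MulAction.toPerm g).tsum_eq]
  refine tsum_congr fun b => ?_
  simp only [MulAction.toPerm_apply]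
  rw [tau_smul hG, hs, hG.adj, hm, hm]
lemma exists_deg (hG : Geom Γ G) : ∃ Δ : ℕ, DegLe Γ Δ := by
  obtain ⟨s, hs⟩ := hG.cof
  refine ⟨s.sup fun v => (hG.locfin v).toFinset.card, fun x => ?_⟩
  obtain ⟨g, hg⟩ := hs x
  refine ⟨(hG.locfin (g • x)).toFinset.image (g⁻¹ • ·), Finset.card_image_le.trans
    (Finset.le_sup (f := fun v => (hG.locfin v).toFinset.card) hg), fun y hy => ?_⟩
  exact Finset.mem_image.2 ⟨g • y, (Set.Finite.mem_toFinset _).2 ((hG.adj g x y).2 hy), by simp⟩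
lemma deg_tsum {Δ : ℕ} (hΔ : DegLe Γ Δ) (a : V) : ∑' b, ii (Γ.Adj a b) ≤ Δ := by
  obtain ⟨s, hs, h⟩ := hΔ a
  rw [tsum_eq_sum (s := s) fun b hb => ii_false fun hab => hb (h b hab)]
  refine (Finset.sum_le_sum fun b _ => ii_le_one _).trans ?_
  simpa using hs
lemma exists_lip (hG : Geom Γ G) {ρ : G →* Equiv.Perm (FreeGroup α)} (hρ : TreeAction ρ)
    {π : V → FreeGroup α} (hπ : ∀ g v, π (g • v) = ρ g (π v)) :
    ∃ L : ℕ, ∀ a b, Γ.Adj a b → dd (π a) (π b) ≤ L := by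
  obtain ⟨s, hs⟩ := hG.cof
  refine ⟨s.sup fun v => (hG.locfin v).toFinset.sup fun w => dd (π v) (π w), fun a b hab => ?_⟩
  obtain ⟨g, hg⟩ := hs a
  rw [← hρ.iso g, ← hπ, ← hπ]
  refine le_trans ?_ (Finset.le_sup
    (f := fun v => (hG.locfin v).toFinset.sup fun w => dd (π v) (π w)) hg)
  exact Finset.le_sup (f := fun w => dd (π (g • a)) (π w))
    ((Set.Finite.mem_toFinset _).2 ((hG.adj g a b).2 hab))
lemma path_smul (hG : Geom Γ G) (g : G) {P : Finset (Sym2 V)} (hP : (P : Set (Sym2 V)) ⊆ Γ.edgeSet) :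
    ∃ P' : Finset (Sym2 V), (P' : Set (Sym2 V)) ⊆ Γ.edgeSet ∧ P'.card ≤ P.card ∧
      ∀ x y : V, (∀ ω : Set (Sym2 V), (P : Set (Sym2 V)) ⊆ ω → Conn ω x y) →
        ∀ ω : Set (Sym2 V), (P' : Set (Sym2 V)) ⊆ ω → Conn ω (g • x) (g • y) := by
  refine ⟨P.image (Sym2.map (g • ·)), ?_, Finset.card_image_le, fun x y h ω hω => ?_⟩
  · intro e he
    obtain ⟨e', he', rfl⟩ := Finset.mem_image.1 (Finset.mem_coe.1 he)
    have := (iv_map_mem_inE hG Set.univ g e').2 ⟨hP he', fun _ _ => Set.mem_univ _⟩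
    exact this.1
  · exact iv_conn_map g (fun e he => hω (Finset.mem_coe.2 (Finset.mem_image_of_mem _ he)))
      (h _ subset_rfl)
lemma arm_smul (hG : Geom Γ G) {Δ : ℕ} (hΔ : DegLe Γ Δ) (g : G) (x : V) (p : ℝ) (R : ℕ) :
    arm hΔ (g • x) p R = arm hΔ x p R := by
  let φ : Sym2 V ↪ Sym2 V := ⟨Sym2.map (g • ·), Function.LeftInverse.injective (iv_map_inv_map g)⟩
  have hb : ∀ r, {v | g • v ∈ ball Γ (g • x) r} = ball Γ x r := fun r =>
    Set.ext fun v => iv_ball_smul_iff hG g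
  have hF : Fb hΔ (g • x) (R + 1) = (Fb hΔ x (R + 1)).map φ := by
    ext e
    rw [← iv_map_map_inv g e]
    refine Iff.trans ?_ (Finset.mem_map' φ).symm
    rw [mem_Fb, mem_Fb, iv_map_mem_inE hG, hb]
  unfold arm Pr
  rw [hF, Ex_map]
  refine Ex_congr fun ω _ => ind_congr ⟨?_, ?_⟩
  · rintro ⟨u, hu, hc⟩
    refine ⟨g⁻¹ • u, fun h => hu (by simpa using iv_ball_smul hG g h), ?_⟩
    have := iv_conn_map (η := ω) g⁻¹ (fun e he => by
      obtain ⟨e', he', rfl⟩ := he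
      exact (iv_map_inv_map g e').symm ▸ he') hc
    simpa using this
  · rintro ⟨u, hu, hc⟩
    exact ⟨g • u, fun h => hu ((iv_ball_smul_iff hG g).1 h),
      iv_conn_map g (η := φ '' ω) (fun e he => Set.mem_image_of_mem φ he) hc⟩

end Vale.Agent.P165
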