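import Vale.Agent.P165.Def3
import Vale.Agent.P165.Inv

open Classical
open scoped ENNReal

namespace Vale.Agent.P165

open Vale.Agent.P151

universe u

variable {V : Type*} {α : Type*} [DecidableEq α]
variable {Γ : SimpleGraph V} {G : Type u} [Group G] [MulAction G V]


lemma mem_sh {g : G} {A : Set V} {v : V} : g • v ∈ sh g A ↔ v ∈ A := by
  simp [sh]
lemma sh_one (A : Set V) : sh (1 : G) A = A := by
  ext v; simp [sh]
lemma sh_mul (g g' : G) (A : Set V) : sh (g * g') A = sh g (sh g' A) := by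
  ext v; simp [sh, mul_smul]
lemma trb_map_one (e : Sym2 V) : e.map ((1 : G) • ·) = e := by
  induction e using Sym2.ind with
  | _ a b => simp
lemma trb_map_mul (g g' : G) (e : Sym2 V) :
    e.map ((g * g') • ·) = (e.map (g' • ·)).map (g • ·) := by
  induction e using Sym2.ind with
  | _ a b => simp [mul_smul]
lemma trb_inj (g : G) : Function.Injective (Sym2.map (fun v : V => g • v)) :=
  Function.LeftInverse.injective (iv_map_inv_map g)
lemma trb_mem (hG : Geom Γ G) (g : G) (A : Set V) (e : Sym2 V) :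
    e.map (g • ·) ∈ inE Γ (sh g A) ↔ e ∈ inE Γ A := by
  rw [iv_map_mem_inE hG]
  have : {v | g • v ∈ sh g A} = A := Set.ext fun v => mem_sh
  rw [this]
lemma tr_one (P : Finset (Sym2 V)) : tr (1 : G) P = P := by
  ext e
  simp only [tr, Set.mem_image, trb_map_one, exists_eq_right]
lemma tr_eq_image (g : G) (P : Finset (Sym2 V)) :
    tr g P = (P.image (Sym2.map (g • ·)) : Finset (Sym2 V)) := by
  rw [Finset.coe_image]; rfl
lemma tr_card (g : G) (P : Finset (Sym2 V)) : (P.image (Sym2.map (g • ·))).card = P.card :=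
  Finset.card_image_of_injective _ (trb_inj g)
lemma tr_mul (g g' : G) (P : Finset (Sym2 V)) :
    tr (g * g') P = tr g (P.image (Sym2.map (g' • ·))) := by
  unfold tr
  rw [Finset.coe_image, Set.image_image]
  exact Set.image_congr fun e _ => trb_map_mul g g' e
lemma tr_sub (hG : Geom Γ G) (g : G) {P : Finset (Sym2 V)} {A : Set V} :
    tr g P ⊆ inE Γ (sh g A) ↔ (P : Set (Sym2 V)) ⊆ inE Γ A := by
  unfold tr
  rw [Set.image_subset_iff]
  exact forall_congr' fun e => imp_congr_right fun _ => trb_mem hG g A e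
lemma tr_disj (hG : Geom Γ G) (g : G) {P : Finset (Sym2 V)} {A : Set V} :
    Disjoint (tr g P) (inE Γ (sh g A)) ↔ Disjoint (P : Set (Sym2 V)) (inE Γ A) := by
  simp only [Set.disjoint_left]
  constructor
  · intro h e he h'
    exact h ⟨e, he, rfl⟩ ((trb_mem hG g A e).2 h')
  · rintro h _ ⟨e, he, rfl⟩ h'
    exact h he ((trb_mem hG g A e).1 h')
lemma tr_conn (g : G) {P : Finset (Sym2 V)} {x y : V}
    (h : ∀ ω : Set (Sym2 V), (P : Set (Sym2 V)) ⊆ ω → Conn ω x y) (ω : Set (Sym2 V))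
    (hω : tr g P ⊆ ω) : Conn ω (g • x) (g • y) :=
  iv_conn_map g (fun e he => hω ⟨e, he, rfl⟩) (h _ subset_rfl)
lemma sh_inv {N : Subgroup G} (hN : N.Normal) {A : Set V} (hA : ∀ n ∈ N, ∀ v : V, n • v ∈ A ↔ v ∈ A)
    {n : G} (hn : n ∈ N) (f : G) : sh (n * f) A = sh f A := by
  ext v
  have h1 : f⁻¹ * n⁻¹ * f ∈ N := hN.conj_mem' _ (N.inv_mem hn) f
  have h2 := hA _ h1 (f⁻¹ • v)
  simp only [sh, Set.mem_setOf_eq]
  rw [← h2, smul_smul]
  simp
lemma tau_sh (hG : Geom Γ G) (p : ℝ) (g : G) (A : Set V) (x y : V) :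
    tau (wU p (inE Γ (sh g A))) (g • x) (g • y) = tau (wU p (inE Γ A)) x y := by
  rw [tau_smul hG]
  have : {v | g • v ∈ sh g A} = A := Set.ext fun v => mem_sh
  rw [this]
/-- translation invariance in finite volume -/
lemma Pr_tr (hG : Geom Γ G) (p : ℝ) (g : G) (F : Finset (Sym2 V)) (A : Set (Sym2 V) → Prop) :
    Pr (F.image (Sym2.map (g • ·))) (wU p Γ.edgeSet) A =
      Pr F (wU p Γ.edgeSet) (fun ω => A (Sym2.map (g • ·) '' ω)) := by
  let φ : Sym2 V ↪ Sym2 V := ⟨Sym2.map (g • ·), trb_inj g⟩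
  have e : F.image (Sym2.map (g • ·)) = F.map φ := (Finset.map_eq_image φ F).symm
  unfold Pr
  rw [e, Ex_map]
  refine Ex_congr_w _ fun e _ => ?_
  have := iv_map_mem_inE hG Set.univ g e
  rw [inE_univ] at this
  have h : φ e ∈ Γ.edgeSet ↔ e ∈ Γ.edgeSet := this.trans (by simp [inE])
  unfold wU
  by_cases he : e ∈ Γ.edgeSet
  · rw [if_pos he, if_pos (h.2 he)]
  · rw [if_neg he, if_neg fun h' => he (h.1 h')]
lemma conn_tr (hG : Geom Γ G) (g : G) (ω : Set (Sym2 V)) (A : Set V) (x y : V) :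
    Conn (Sym2.map (g • ·) '' ω ∩ inE Γ (sh g A)) (g • x) (g • y) ↔ Conn (ω ∩ inE Γ A) x y := by
  constructor
  · intro h
    have := iv_conn_map (η := ω ∩ inE Γ A) g⁻¹ (fun e he => by
      obtain ⟨⟨e', he', rfl⟩, h2⟩ := he
      rw [iv_map_inv_map]
      exact ⟨he', (trb_mem hG g A e').1 h2⟩) h
    simpa using this
  · exact iv_conn_map g fun e he =>
      Set.mem_inter (Set.mem_image_of_mem _ he.1) ((trb_mem hG g A e).2 he.2)
lemma Pr_inter (p : ℝ) (F : Finset (Sym2 V)) (A : Set V) (B : Set (Sym2 V) → Prop) :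
    Pr F (wU p Γ.edgeSet) (fun ω => B (ω ∩ inE Γ A)) = Pr F (wU p (inE Γ A)) B :=
  (Ex_wU (U := inE Γ A) (U' := Γ.edgeSet) (fun _ he => he.1) p F fun ω => ind (B ω)).symm
/-- few translates of a finite edge set meet a given one -/
lemma overlap (hG : Geom Γ G) {P : Finset (Sym2 V)} (n : G) (S : Finset G) :
    (S.filter fun n' => ¬ Disjoint (tr n P) (tr n' P)).card ≤ 2 * P.card ^ 2 := by
  have key : ∀ e e' : Sym2 V, (S.filter fun n' => e'.map (n' • ·) = e).card ≤ 2 := by
    intro e e'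
    induction e using Sym2.ind with
    | _ c d =>
    induction e' using Sym2.ind with
    | _ a b =>
    refine le_trans (Finset.card_le_card_of_injOn (t := {c, d}) (fun n' => n' • a)
      (fun n' hn' => ?_) fun n₁ _ n₂ _ h => ?_) Finset.card_le_two
    · have := (Finset.mem_filter.1 (Finset.mem_coe.1 hn')).2
      rw [Sym2.map_mk, Sym2.eq_iff] at this
      rcases this with h | h <;> simp [h.1]
    · have h' : n₁ • a = n₂ • a := h
      have := hG.free (n₂⁻¹ * n₁) a (by rw [mul_smul, h', inv_smul_smul])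
      exact (inv_mul_eq_one.1 this).symm
  have hsub : (S.filter fun n' => ¬ Disjoint (tr n P) (tr n' P)) ⊆
      (P ×ˢ P).biUnion fun x => S.filter fun n' => x.2.map (n' • ·) = x.1.map (n • ·) := by
    intro n' hn'
    obtain ⟨h1, h2⟩ := Finset.mem_filter.1 hn'
    obtain ⟨_, ⟨e, he, rfl⟩, e', he', h3⟩ := Set.not_disjoint_iff.1 h2
    exact Finset.mem_biUnion.2 ⟨(e, e'), Finset.mem_product.2 ⟨he, he'⟩,
      Finset.mem_filter.2 ⟨h1, h3⟩⟩
  refine (Finset.card_le_card hsub).trans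
    ((Finset.card_biUnion_le_card_mul _ _ 2 fun x _ => key _ _).trans (le_of_eq ?_))
  rw [Finset.card_product]
  ring

end Vale.Agent.P165
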