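import Vale.Agent.P165.CfgT
import Vale.Agent.P165.TrB

open Classical
open scoped ENNReal

namespace Vale.Agent.P165

open Vale.Agent.P151

universe u

variable {V : Type*} {α : Type*} [DecidableEq α]
variable {Γ : SimpleGraph V} {G : Type u} [Group G] [MulAction G V]
variable {φ : G →* FreeGroup α} {π : V → FreeGroup α}

lemma Cfg_path (hs : Sj Γ φ π) (u : FreeGroup α) (x y : V) : ∃ (R : ℕ) (P : Finset (Sym2 V)),
    (P : Set (Sym2 V)) ⊆ Γ.edgeSet ∧ (∀ e ∈ P, ∀ v ∈ e, dd u (π v) ≤ R) ∧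
      ∀ ω : Set (Sym2 V), (P : Set (Sym2 V)) ⊆ ω → Conn ω x y := by
  obtain ⟨P, hP, hc⟩ := exists_path hs.geom.conn x y
  exact ⟨(P.biUnion Sym2.toFinset).sup fun v => dd u (π v), P, hP, fun e he v hv =>
    Finset.le_sup (f := fun v => dd u (π v))
      (Finset.mem_biUnion.2 ⟨e, he, Sym2.mem_toFinset.2 hv⟩), hc⟩

lemma Cfg_sh (hs : Sj Γ φ π) (f : G) (X : Set (FreeGroup α)) (v : V) :
    v ∈ sh f (π ⁻¹' X) ↔ (φ f)⁻¹ * π v ∈ X := by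
  change π (f⁻¹ • v) ∈ X ↔ _
  rw [hs.eqv, map_inv]

lemma Cfg_ker (hs : Sj Γ φ π) (X : Set (FreeGroup α)) {n : G} (hn : n ∈ φ.ker) (v : V) :
    n • v ∈ π ⁻¹' X ↔ v ∈ π ⁻¹' X := by
  change π (n • v) ∈ X ↔ π v ∈ X
  rw [hs.eqv, MonoidHom.mem_ker.1 hn, one_mul]

theorem Sj.cfg [Finite α] [Nontrivial α] (hs : Sj Γ φ π) {q u : FreeGroup α} (hq : dd q u = 1)
    (w w' : V) : ∃ n b : ℕ, ∀ k : ℕ, ∃ c : Cf V G, c.Fine Γ ∧ c.N = φ.ker ∧
      c.A = π ⁻¹' half q u ∧ c.w = w ∧ c.w' = w' ∧ 2 ^ k ≤ c.I.card ∧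
      c.Q1.card + c.Q2.card ≤ b ∧
      ∀ f ∈ c.I, (c.Pa f).card ≤ n * (k + 1) ∧ (c.Pb f).card ≤ b := by
  obtain ⟨r, n₀, hw⟩ := hs.walk w
  obtain ⟨t₀, hT⟩ := cfgT hq r
  obtain ⟨g0, -, hg0, -⟩ := hw 1 t₀
  obtain ⟨R₁, P, hP, hPR, hPc⟩ := Cfg_path hs u (g0 • w) w
  obtain ⟨B, t₁, ht₁, hdis, hB, hT⟩ := hT R₁
  obtain ⟨g1, -, hg1, -⟩ := hw 1 t₁
  obtain ⟨R, Q, hQ, hQR, hQc⟩ := Cfg_path hs u w' (g1 • w)
  obtain ⟨n, hT⟩ := hT (max R₁ R)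
  refine ⟨n₀ * n, Q.card + P.card, fun k => ?_⟩
  obtain ⟨J, hJ, hg, hdj⟩ := hT k
  choose g' Pa h1 h2 h3 h4 using fun g => hw g1 (g * t₀)
  rw [hg1] at h2 h3
  have hφ : ∀ g, φ (g' g * g0⁻¹) = g := fun g => by
    have e1 := h1 g
    rw [← hg0, hs.eqv, hs.eqv, ← mul_assoc] at e1
    rw [map_mul, map_inv, mul_right_cancel e1, mul_inv_cancel_right]
  have hI : ∀ f ∈ J.image fun g => g' g * g0⁻¹, φ f ∈ J ∧ f = g' (φ f) * g0⁻¹ := fun f hf => by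
    obtain ⟨g, hg, rfl⟩ := Finset.mem_image.1 hf
    rw [hφ]
    exact ⟨hg, rfl⟩
  have hv : ∀ e : Sym2 V, ∃ v, v ∈ e := fun e => ⟨e.out.1, Sym2.out_fst_mem e⟩
  have hB' : ∀ f ∈ J.image fun g => g' g * g0⁻¹, ∀ e ∈ Γ.edgeSet,
      (∀ v ∈ e, dd u (π v) ≤ max R₁ R) → e.map (f • ·) ∈ inE Γ (π ⁻¹' B) := fun f hf e he h => by
    refine (iv_map_mem_inE hs.geom _ f e).2 ⟨he, fun v hv => ?_⟩
    change π (f • v) ∈ B
    rw [hs.eqv]
    exact ((hg _ (hI f hf).1).2.1 _ (Or.inr (Or.inr (h v hv)))).1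
  have hsub : ∀ f ∈ J.image fun g => g' g * g0⁻¹, ∀ v,
      ((φ f)⁻¹ * π v ∈ half q u ∨ (φ f)⁻¹ * π v ∈ B) → π v ∈ B ∧ max R₁ R < dd u (π v) :=
    fun f hf v h => by
      have := (hg _ (hI f hf).1).2.1 _ (h.elim Or.inl fun h => Or.inr (Or.inl h))
      rwa [mul_inv_cancel_left] at this
  have hPa : ∀ f ∈ J.image fun g => g' g * g0⁻¹, ∀ e ∈ Pa (φ f), ∀ v ∈ e,
      π v ∈ B ∧ (φ f)⁻¹ * π v ∉ half q u ∧ (φ f)⁻¹ * π v ∉ B := fun f hf e he v hv => by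
    obtain ⟨s', h5, h6⟩ := (h2 _ he).2 v hv
    exact (hg _ (hI f hf).1).2.2 s' _ h5 h6
  refine ⟨⟨φ.ker, π ⁻¹' half q u, π ⁻¹' B, w, w', g1 • w,
    Q.filter fun e => ¬ e ∈ inE Γ (π ⁻¹' B), Q.filter fun e => e ∈ inE Γ (π ⁻¹' B),
    J.image fun g => g' g * g0⁻¹, fun f => Pa (φ f), fun f => P.image (Sym2.map (f • ·))⟩,
    ⟨inferInstance, fun n hn v => Cfg_ker hs _ hn v, fun n hn v => Cfg_ker hs _ hn v,
      hdis.preimage π, ?_, fun e he => hQ (Finset.mem_filter.1 he).1,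
      Set.disjoint_left.2 fun e he => (Finset.mem_filter.1 he).2,
      fun e he => (Finset.mem_filter.1 he).2, fun ω k1 k2 => hQc ω fun e he => ?_,
      fun f hf v h => (hsub f hf v (Or.inl ((Cfg_sh hs f _ v).1 h))).1,
      fun f hf v h => (hsub f hf v (Or.inr ((Cfg_sh hs f _ v).1 h))).1, fun f hf => ?_,
      fun f hf => Set.disjoint_left.2 fun e he h => ?_,
      fun f hf e he => ⟨(h2 _ he).1, fun v hv => (hPa f hf e he v hv).1⟩,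
      fun f hf => Set.disjoint_left.2 fun e he h => ?_,
      fun f hf => Set.disjoint_left.2 fun e he h => ?_, fun f hf e he => ?_,
      fun f hf => Set.disjoint_left.2 fun e he h => ?_, fun f hf ω k1 k2 => ?_,
      fun f hf f' hf' hne => Set.disjoint_left.2 fun v k1 k2 => ?_⟩,
    rfl, rfl, rfl, rfl, ?_, ?_, fun f hf => ⟨?_, ?_⟩⟩
  · change π (g1 • w) ∈ B
    rwa [hg1]
  · by_cases h : e ∈ inE Γ (π ⁻¹' B)
    · exact k2 (Finset.mem_coe.2 (Finset.mem_filter.2 ⟨he, h⟩))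
    · exact k1 (Finset.mem_coe.2 (Finset.mem_filter.2 ⟨he, h⟩))
  · rintro _ ⟨e, he, rfl⟩
    have he' := (Finset.mem_filter.1 he).1
    exact hB' f hf e (hQ he') fun v hv => (hQR e he' v hv).trans (le_max_right _ _)
  · obtain ⟨v, hv⟩ := hv e
    have k1 := (hsub f hf v (Or.inr ((Cfg_sh hs f _ v).1 (h.2 v hv)))).2
    have k2 := hQR e (Finset.mem_filter.1 he).1 v hv
    exact absurd (k1.trans_le k2) (not_lt.2 (le_max_right _ _))
  · obtain ⟨v, hv⟩ := hv e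
    exact (hPa f hf e he v hv).2.1 ((Cfg_sh hs f _ v).1 (h.2 v hv))
  · obtain ⟨v, hv⟩ := hv e
    exact (hPa f hf e he v hv).2.2 ((Cfg_sh hs f _ v).1 (h.2 v hv))
  · obtain ⟨e', he', rfl⟩ := Finset.mem_image.1 he
    exact hB' f hf e' (hP he') fun v hv => (hPR e' he' v hv).trans (le_max_left _ _)
  · obtain ⟨e', he', rfl⟩ := Finset.mem_image.1 he
    obtain ⟨v, hv⟩ := hv e'
    exact absurd (hB _ (((trb_mem hs.geom f _ e').1 h).2 v hv)) (not_lt.2 (hPR e' he' v hv))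
  · have k3 := tr_conn f hPc ω (by rwa [tr_eq_image])
    have k4 : f • g0 • w = g' (φ f) • w := by
      conv_lhs => rw [(hI f hf).2, mul_smul, inv_smul_smul]
    rw [k4] at k3
    exact (h4 _ ω k1).trans k3
  · refine hdj _ (hI f hf).1 _ (hI f' hf').1 (fun h => hne ?_) _ ((Cfg_sh hs f _ v).1 k1) _
      ((Cfg_sh hs f' _ v).1 k2) (by rw [mul_inv_cancel_left, mul_inv_cancel_left])
    rw [(hI f hf).2, (hI f' hf').2, h]
  · exact hJ.trans (Finset.card_image_of_injective J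
      (Function.LeftInverse.injective (g := φ) hφ)).ge
  · rw [add_comm, Finset.card_filter_add_card_filter_not]
    exact Nat.le_add_right _ _
  · rw [mul_assoc]
    exact (h3 _).trans (Nat.mul_le_mul_left _ (hg _ (hI f hf).1).1)
  · exact Finset.card_image_le.trans (Nat.le_add_left _ _)

end Vale.Agent.P165
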