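import Vale.Agent.P165.Fam

open Classical
open scoped ENNReal

namespace Vale.Agent.P165

open Vale.Agent.P151

universe u

variable {V : Type*} {α : Type*} [DecidableEq α]

lemma Glad_cs {p x1 x0 A1 A0 B1 B0 B : ℝ} (p0 : 0 ≤ p) (p1 : p ≤ 1)
    (a1 : 0 ≤ A1) (a0 : 0 ≤ A0) (b1 : 0 ≤ B1) (b0 : 0 ≤ B0)
    (k1 : x1 ^ 2 ≤ A1 * (2 * B1)) (k0 : x0 ^ 2 ≤ A0 * (2 * B0)) (hB : p * B1 + (1 - p) * B0 ≤ B) :
    (p * x1 + (1 - p) * x0) ^ 2 ≤ (p * A1 + (1 - p) * A0) * (2 * B) := by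
  have q0 : 0 ≤ 1 - p := sub_nonneg.2 p1
  have m : (x1 * x0) ^ 2 ≤ (A1 * B0 + A0 * B1) ^ 2 := by
    have e1 : (x1 * x0) ^ 2 ≤ (A1 * (2 * B1)) * (A0 * (2 * B0)) := by
      rw [mul_pow]
      exact mul_le_mul k1 k0 (sq_nonneg _) (by positivity)
    nlinarith [sq_nonneg (A1 * B0 - A0 * B1)]
  have m2 : x1 * x0 ≤ A1 * B0 + A0 * B1 := le_of_sq_le_sq m (by positivity) |>.trans le_rfl
  have t1 := mul_le_mul_of_nonneg_left k1 (mul_nonneg p0 p0)
  have t0 := mul_le_mul_of_nonneg_left k0 (mul_nonneg q0 q0)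
  have t2 := mul_le_mul_of_nonneg_left m2 (mul_nonneg p0 q0)
  have t3 := mul_le_mul_of_nonneg_left hB
    (add_nonneg (mul_nonneg p0 a1) (mul_nonneg q0 a0))
  nlinarith

lemma Glad_ins {F : Finset (Sym2 V)} {a : Sym2 V} (ha : a ∉ F) (w : Sym2 V → ℝ)
    (f : Set (Sym2 V) → ℝ) :
    Ex (insert a F) w f = w a * Ex F w (fun ω => f (insert a ω)) + (1 - w a) * Ex F w f := by
  refine Eq.trans (congrArg (fun F' => Ex F' w f) ?_) (Ex_insert ha w f)
  ext x; simp only [Finset.mem_insert]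

lemma Glad_main {w : Sym2 V → ℝ} (hw : Ok w) (b c : V) (n : ℕ) :
    ∀ (F : Finset (Sym2 V)), F.card = n → ∀ γ : List V, ∃ xb xc : ℝ,
      Pr F w (fun ω => cv ω γ b ∧ cv ω γ c) ≤ xb + xc ∧
      xb ^ 2 ≤ Pr F w (fun ω => cv ω γ b) * (2 * Pr2 F w (fam γ c b)) ∧
      xc ^ 2 ≤ Pr F w (fun ω => cv ω γ c) * (2 * Pr2 F w (fam γ b c)) := by
  induction n using Nat.strong_induction_on with
  | _ n ihn =>
  intro F hF γ
  have nn : ∀ (F : Finset (Sym2 V)) (γ : List V) (x y : V),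
      (0 : ℝ) ^ 2 ≤ Pr F w (fun ω => cv ω γ x) * (2 * Pr2 F w (fam γ y x)) := by
    intro F γ x y
    have h1 := Pr_nonneg (F := F) hw (fun ω => cv ω γ x)
    have h2 := Pr2_nonneg F hw (fam γ y x)
    rw [zero_pow two_ne_zero]
    positivity
  have one : ∀ (γ : List V) (x : V), Pr F w (fun ω => cv ω (x :: γ) x) = 1 := by
    intro γ x
    unfold Pr
    rw [← Ex_const F w 1]
    exact Ex_congr fun ω _ => ind_true ⟨x, List.mem_cons_self, Conn.refl _ _⟩
  induction γ with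
  | nil =>
    refine ⟨0, 0, ?_, nn _ _ _ _, nn _ _ _ _⟩
    rw [add_zero]
    refine Ex_le_const hw fun ω _ => (ind_false ?_).le
    rintro ⟨⟨y, hy, _⟩, _⟩
    exact absurd hy List.not_mem_nil
  | cons h γ ihγ =>
    by_cases hb : h = b
    · subst hb
      refine ⟨Pr F w (fun ω => cv ω (h :: γ) c), 0, ?_, ?_, nn _ _ _ _⟩
      · rw [add_zero]
        exact Pr_mono hw fun ω _ k => k.2
      · rw [one, one_mul]
        exact fam_end F hw γ c h
    by_cases hc : h = c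
    · subst hc
      refine ⟨0, Pr F w (fun ω => cv ω (h :: γ) b), ?_, nn _ _ _ _, ?_⟩
      · rw [zero_add]
        exact Pr_mono hw fun ω _ k => k.1
      · rw [one, one_mul]
        exact fam_end F hw γ b h
    by_cases he : ∃ v, s(h, v) ∈ F
    · obtain ⟨v, hv⟩ := he
      have hlt : (F.erase s(h, v)).card < n := hF ▸ Finset.card_erase_lt_of_mem hv
      have hn : s(h, v) ∉ F.erase s(h, v) := Finset.notMem_erase _ _
      obtain ⟨x1, y1, k1, k2, k3⟩ := ihn _ hlt _ rfl (v :: h :: γ)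
      obtain ⟨x0, y0, l1, l2, l3⟩ := ihn _ hlt _ rfl (h :: γ)
      have hE : F = insert s(h, v) (F.erase s(h, v)) := (Finset.insert_erase hv).symm
      set F' := F.erase s(h, v) with hF'
      obtain ⟨p0, p1⟩ := hw s(h, v)
      have sp : ∀ x : V, Pr (insert s(h, v) F') w (fun ω => cv ω (h :: γ) x) =
          w s(h, v) * Pr F' w (fun ω => cv ω (v :: h :: γ) x) +
            (1 - w s(h, v)) * Pr F' w (fun ω => cv ω (h :: γ) x) := by
        intro x
        unfold Pr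
        rw [Glad_ins hn]
        simp only [cv_push]
      have sp2 : Pr (insert s(h, v) F') w (fun ω => cv ω (h :: γ) b ∧ cv ω (h :: γ) c) =
          w s(h, v) * Pr F' w (fun ω => cv ω (v :: h :: γ) b ∧ cv ω (v :: h :: γ) c) +
            (1 - w s(h, v)) * Pr F' w (fun ω => cv ω (h :: γ) b ∧ cv ω (h :: γ) c) := by
        unfold Pr
        rw [Glad_ins hn]
        simp only [cv_push]
      rw [hE]
      refine ⟨w s(h, v) * x1 + (1 - w s(h, v)) * x0, w s(h, v) * y1 + (1 - w s(h, v)) * y0,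
        ?_, ?_, ?_⟩
      · rw [sp2]
        have t1 := mul_le_mul_of_nonneg_left k1 p0
        have t0 := mul_le_mul_of_nonneg_left l1 (sub_nonneg.2 p1)
        linarith
      · rw [sp]
        exact Glad_cs p0 p1 (Pr_nonneg hw _) (Pr_nonneg hw _) (Pr2_nonneg _ hw _)
          (Pr2_nonneg _ hw _) k2 l2 (fam_step hn hw γ c b)
      · rw [sp]
        exact Glad_cs p0 p1 (Pr_nonneg hw _) (Pr_nonneg hw _) (Pr2_nonneg _ hw _)
          (Pr2_nonneg _ hw _) k3 l3 (fam_step hn hw γ b c)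
    · have he' : ∀ v, s(h, v) ∉ F := fun v hv => he ⟨v, hv⟩
      obtain ⟨x, y, k1, k2, k3⟩ := ihγ
      have eb : ∀ ω : Set (Sym2 V), ω ⊆ F → (cv ω (h :: γ) b ↔ cv ω γ b) :=
        fun ω hω => cv_pop he' hω (Ne.symm hb)
      have ec : ∀ ω : Set (Sym2 V), ω ⊆ F → (cv ω (h :: γ) c ↔ cv ω γ c) :=
        fun ω hω => cv_pop he' hω (Ne.symm hc)
      refine ⟨x, y, ?_, ?_, ?_⟩
      · rw [Pr_congr fun ω hω => and_congr (eb ω hω) (ec ω hω)]
        exact k1
      · rw [Pr_congr eb]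
        exact k2.trans (mul_le_mul_of_nonneg_left
          (mul_le_mul_of_nonneg_left (fam_pop F hw h γ c b) zero_le_two) (Pr_nonneg hw _))
      · rw [Pr_congr ec]
        exact k3.trans (mul_le_mul_of_nonneg_left
          (mul_le_mul_of_nonneg_left (fam_pop F hw h γ b c) zero_le_two) (Pr_nonneg hw _))

/-- Gladkov's inequality -/
theorem gladkov {w : Sym2 V → ℝ} (hw : Ok w) (F : Finset (Sym2 V)) (a b c : V) :
    (Pr F w (fun ω => Conn ω a b ∧ Conn ω a c)) ^ 2 ≤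
      8 * (Pr F w (fun ω => Conn ω a b) * Pr F w (fun ω => Conn ω a c) *
        Pr F w (fun ω => Conn ω b c)) := by
  obtain ⟨x, y, k1, k2, k3⟩ := Glad_main hw b c _ F rfl [a]
  have e : ∀ (ω : Set (Sym2 V)) (z : V), cv ω [a] z ↔ Conn ω a z := by
    intro ω z
    simp [cv]
  rw [fam_start] at k2 k3
  simp only [e] at k1 k2 k3
  have e2 : Pr F w (fun ω => Conn ω c b) = Pr F w (fun ω => Conn ω b c) :=
    Pr_congr fun ω _ => ⟨Conn.symm, Conn.symm⟩
  rw [e2] at k2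
  have h0 := Pr_nonneg (F := F) hw (fun ω => Conn ω a b ∧ Conn ω a c)
  have h1 := pow_le_pow_left₀ h0 k1 2
  nlinarith [sq_nonneg (x - y)]

theorem gladkov_sqrt {w : Sym2 V → ℝ} (hw : Ok w) (F : Finset (Sym2 V)) (a b c : V) :
    Pr F w (fun ω => Conn ω a b ∧ Conn ω a c) ≤
      3 * (Real.sqrt (Pr F w (fun ω => Conn ω a b)) * Real.sqrt (Pr F w (fun ω => Conn ω a c)) *
        Real.sqrt (Pr F w (fun ω => Conn ω b c))) := by
  have h := gladkov hw F a b c
  have h1 := Pr_nonneg (F := F) hw (fun ω => Conn ω a b)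
  have h2 := Pr_nonneg (F := F) hw (fun ω => Conn ω a c)
  have h3 := Pr_nonneg (F := F) hw (fun ω => Conn ω b c)
  refine le_of_sq_le_sq (h.trans ?_) (by positivity)
  rw [mul_pow, mul_pow, mul_pow, Real.sq_sqrt h1, Real.sq_sqrt h2, Real.sq_sqrt h3]
  have := mul_nonneg (mul_nonneg h1 h2) h3
  linarith

end Vale.Agent.P165
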