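import Vale.Agent.P165.TrB
import Vale.Agent.P165.Glad

open Classical
open scoped ENNReal

namespace Vale.Agent.P165

open Vale.Agent.P151

universe u

variable {V : Type*} {α : Type*} [DecidableEq α]
variable {Γ : SimpleGraph V} {G : Type u} [Group G] [MulAction G V]

lemma pair_bk {w : Sym2 V → ℝ} (hw : Ok w) (F : Finset (Sym2 V)) (x x' : V)
    (A B : Set V → Prop) (hB : ∀ C C', C ⊆ C' → B C → B C') :
    Pr F w (fun ω => (A (cl {x} ω) ∧ B (cl {x'} ω)) ∧ ¬ Conn ω x x') ≤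
      Pr F w (fun ω => A (cl {x} ω)) * Pr F w (fun ω => B (cl {x'} ω)) := by
  have h1 : Pr F w (fun ω => (A (cl {x} ω) ∧ B (cl {x'} ω)) ∧ ¬ Conn ω x x') ≤
      Ex F w (fun ω => (fun C η => ind (A C) * ind (B (cl {x'} η))) (cl {x} ω)
        (del (cl {x} ω) ω)) := by
    refine Ex_mono hw fun ω _ => ?_
    show ind _ ≤ ind _ * ind _
    rw [← ind_and]
    refine ind_mono fun h => ⟨h.1.1, ?_⟩
    rw [cl_del_of_disjoint (not_mem_cl_of (fun hc => h.2 (mem_cl_single.1 hc)))]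
    exact h.1.2
  refine (h1.trans (markov0 F w {x} (fun C η => ind (A C) * ind (B (cl {x'} η)))).le).trans ?_
  unfold Pr
  rw [← Ex_mul_const]
  refine Ex_mono hw fun ω _ => ?_
  show Ex F w (fun η => ind _ * ind _) ≤ _
  rw [Ex_const_mul]
  refine mul_le_mul_of_nonneg_left (Ex_mono hw fun η _ => ind_mono ?_) (ind_nonneg _)
  exact hB _ _ (cl_mono subset_rfl (del_subset _ _))

lemma pair_reach {F : Finset (Sym2 V)} {ω : Set (Sym2 V)} (hω : ω ⊆ F) {x y : V}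
    (h : Conn ω x y) : y ∈ insert x (F.biUnion Sym2.toFinset) := by
  induction h with
  | refl => exact Finset.mem_insert_self _ _
  | tail _ h2 _ =>
    refine Finset.mem_insert_of_mem (Finset.mem_biUnion.2 ⟨_, hω h2, ?_⟩)
    simp

/-- many returns in a cluster -/
def pairBg (N : Subgroup G) (M : ℕ) (w' : V) (g : G) (C : Set V) : Prop :=
  ∃ S : Finset G, (∀ n ∈ S, n ∈ N) ∧ S.card = M ∧ ∀ n ∈ S, (g * n) • w' ∈ C

lemma pair_cnt (hG : Geom Γ G) {w : Sym2 V → ℝ} (hw : Ok w) (F : Finset (Sym2 V))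
    (N : Subgroup G) {M : ℕ} (hM : 1 ≤ M) (w' x : V) (g : G) :
    ∃ T : Finset G, (∀ m ∈ T, m ∈ N) ∧ ∀ D : Set (Sym2 V) → Prop,
      Pr F w (fun η => pairBg N M w' g (cl {x} η) ∧ D η) ≤
        (∑ m ∈ T, Pr F w (fun η => Conn η x ((g * m) • w') ∧ D η)) / M := by
  have hinj : Function.Injective fun m : G => (g * m) • w' := by
    intro a b hab
    have h1 : ((g * b)⁻¹ * (g * a)) • w' = w' := by
      rw [mul_smul]
      simp only at hab
      rw [hab, inv_smul_smul]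
    have h2 := hG.free _ _ h1
    rw [inv_mul_eq_one] at h2
    exact (mul_left_cancel h2).symm
  refine ⟨((insert x (F.biUnion Sym2.toFinset)).preimage _ hinj.injOn).filter (· ∈ N),
    fun m hm => (Finset.mem_filter.1 hm).2, fun D => ?_⟩
  have hM' : (0 : ℝ) < M := by exact_mod_cast hM
  rw [le_div_iff₀ hM']
  unfold Pr
  rw [← Ex_sum, ← Ex_mul_const]
  refine Ex_mono hw fun η hη => ?_
  by_cases h : pairBg N M w' g (cl {x} η) ∧ D η
  · obtain ⟨⟨S, hS, hc, hn⟩, hD⟩ := id h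
    rw [ind_true h, one_mul]
    have hsub : S ⊆ ((insert x (F.biUnion Sym2.toFinset)).preimage _ hinj.injOn).filter
        (· ∈ N) := fun m hm => Finset.mem_filter.2
      ⟨Finset.mem_preimage.2 (pair_reach hη (mem_cl_single.1 (hn m hm))), hS m hm⟩
    refine le_trans (le_of_eq ?_) (Finset.sum_le_sum_of_subset_of_nonneg hsub
      fun _ _ _ => ind_nonneg _)
    rw [Finset.sum_congr rfl fun m hm => ind_true ⟨mem_cl_single.1 (hn m hm), hD⟩]
    simp [hc]
  · rw [ind_false h, zero_mul]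
    exact Finset.sum_nonneg fun _ _ => ind_nonneg _

lemma pair_sum {N : Subgroup G} {t : G → ℝ≥0∞} {W : ℝ} (hW0 : 0 ≤ W)
    (hW : ∑' n : N, t n ≤ ENNReal.ofReal W) {T : Finset G} (hT : ∀ m ∈ T, m ∈ N) :
    ∑ m ∈ T, (t m).toReal ≤ W := by
  have h1 : ∑ m ∈ T, t m ≤ ENNReal.ofReal W := by
    rw [← Finset.sum_subtype_of_mem t hT]
    exact (ENNReal.sum_le_tsum _).trans hW
  have h2 : ∀ m ∈ T, t m ≠ ⊤ := fun m hm =>
    ne_top_of_le_ne_top ENNReal.ofReal_ne_top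
      ((Finset.single_le_sum (fun _ _ => zero_le) hm).trans h1)
  rw [← ENNReal.toReal_sum h2]
  exact ENNReal.toReal_le_of_le_ofReal hW0 h1

lemma pair_Pr_le {w : Sym2 V → ℝ} (hw : Ok w) (F : Finset (Sym2 V)) (x y : V) :
    Pr F w (fun ω => Conn ω x y) ≤ (tau w x y).toReal :=
  (ENNReal.ofReal_le_iff_le_toReal
    (ne_top_of_le_ne_top ENNReal.one_ne_top (tau_le_one hw x y))).1 (Pr_le_tau w F x y)

lemma pair_pt (hG : Geom Γ G) {p : ℝ} (h0 : 0 ≤ p) (h1 : p ≤ 1) (A : Set V) (w w' : V)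
    (g m : G) (F : Finset (Sym2 V)) :
    Pr F (wU p (inE Γ (sh g A))) (fun η => Conn η (g • w) ((g * m) • w')) ≤
      (tau (wU p (inE Γ A)) w (m • w')).toReal := by
  rw [← tau_sh hG p g A, mul_smul]
  exact pair_Pr_le (wU_ok h0 h1 _) F _ _

lemma pair_one (hG : Geom Γ G) (c : Cf V G) {p : ℝ} (h0 : 0 ≤ p) (h1 : p ≤ 1)
    {W : ℝ} (hW0 : 0 ≤ W)
    (hW : ∑' n : c.N, tau (wU p (inE Γ c.A)) c.w ((n : G) • c.w') ≤ ENNReal.ofReal W)
    {M : ℕ} (hM : 1 ≤ M) (g : G) (F : Finset (Sym2 V)) :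
    Pr F (wU p (inE Γ (sh g c.A))) (fun η => pairBg c.N M c.w' g (cl {g • c.w} η)) ≤ W / M := by
  obtain ⟨T, hT, h⟩ := pair_cnt hG (wU_ok h0 h1 (inE Γ (sh g c.A))) F c.N hM c.w' (g • c.w) g
  have h2 := h fun _ => True
  simp only [and_true] at h2
  refine h2.trans (div_le_div_of_nonneg_right ?_ (Nat.cast_nonneg M))
  refine (Finset.sum_le_sum fun m _ => pair_pt hG h0 h1 c.A c.w c.w' g m F).trans ?_
  exact pair_sum (t := fun n => tau (wU p (inE Γ c.A)) c.w (n • c.w')) hW0 hW hT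

lemma pair_big (c : Cf V G) (M : ℕ) (g : G) (ω : Set (Sym2 V)) :
    c.Big Γ M g ω ↔ pairBg c.N M c.w' g (cl {g • c.w} (ω ∩ inE Γ (sh g c.A))) := by
  simp only [Cf.Big, pairBg, mem_cl_single]

theorem big_one (hG : Geom Γ G) (c : Cf V G) (hc : c.Fine Γ) {p : ℝ} (h0 : 0 ≤ p) (h1 : p ≤ 1)
    {W : ℝ} (hW0 : 0 ≤ W)
    (hW : ∑' n : c.N, tau (wU p (inE Γ c.A)) c.w ((n : G) • c.w') ≤ ENNReal.ofReal W)
    {M : ℕ} (hM : 1 ≤ M) (g : G) (F : Finset (Sym2 V)) :
    Pr F (wU p Γ.edgeSet) (c.Big Γ M g) ≤ W / M := by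
  refine le_trans (le_of_eq ?_) (pair_one hG c h0 h1 hW0 hW hM g F)
  rw [← Pr_inter]
  exact Pr_congr fun ω _ => pair_big c M g ω

theorem big_two (hG : Geom Γ G) (c : Cf V G) (hc : c.Fine Γ) {p : ℝ} (h0 : 0 ≤ p) (h1 : p ≤ 1)
    {W : ℝ} (hW0 : 0 ≤ W)
    (hW : ∑' n : c.N, tau (wU p (inE Γ c.A)) c.w ((n : G) • c.w') ≤ ENNReal.ofReal W)
    {M : ℕ} (hM : 1 ≤ M) (f : G) {n n' : G} (hn : n ∈ c.N) (hn' : n' ∈ c.N)
    (F : Finset (Sym2 V)) :
    Pr F (wU p Γ.edgeSet) (fun ω => c.Big Γ M (n * f) ω ∧ c.Big Γ M (n' * f) ω) ≤ (W / M) ^ 2 +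
      3 * (W / M) * sq Γ p c.A ((f⁻¹ * n * f) • c.w) ((f⁻¹ * n' * f) • c.w) := by
  have e1 : sh (n * f) c.A = sh f c.A := sh_inv hc.nor hc.invA hn f
  have e2 : sh (n' * f) c.A = sh f c.A := sh_inv hc.nor hc.invA hn' f
  have hu : Ok (wU p (inE Γ (sh f c.A))) := wU_ok h0 h1 _
  have hM' : (0 : ℝ) < M := by exact_mod_cast hM
  have hE : Pr F (wU p Γ.edgeSet) (fun ω => c.Big Γ M (n * f) ω ∧ c.Big Γ M (n' * f) ω) =
      Pr F (wU p (inE Γ (sh f c.A))) (fun η => pairBg c.N M c.w' (n * f) (cl {(n * f) • c.w} η) ∧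
        pairBg c.N M c.w' (n' * f) (cl {(n' * f) • c.w} η)) := by
    rw [← Pr_inter]
    refine Pr_congr fun ω _ => ?_
    rw [pair_big, pair_big, e1, e2]
  rw [hE]
  refine (Pr_le_add hu (B := fun η => (pairBg c.N M c.w' (n * f) (cl {(n * f) • c.w} η) ∧
        pairBg c.N M c.w' (n' * f) (cl {(n' * f) • c.w} η)) ∧
          ¬ Conn η ((n * f) • c.w) ((n' * f) • c.w))
      (C := fun η => pairBg c.N M c.w' (n * f) (cl {(n * f) • c.w} η) ∧
        Conn η ((n * f) • c.w) ((n' * f) • c.w)) fun η _ h => ?_).trans (add_le_add ?_ ?_)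
  · by_cases hh : Conn η ((n * f) • c.w) ((n' * f) • c.w)
    · exact Or.inr ⟨h.1, hh⟩
    · exact Or.inl ⟨h, hh⟩
  · refine (pair_bk hu F _ _ _ _ ?_).trans ?_
    · rintro C C' hC ⟨S, a, b, d⟩
      exact ⟨S, a, b, fun m hm => hC (d m hm)⟩
    · have a1 := pair_one hG c h0 h1 hW0 hW hM (n * f) F
      have a2 := pair_one hG c h0 h1 hW0 hW hM (n' * f) F
      rw [e1] at a1
      rw [e2] at a2
      rw [pow_two]
      exact mul_le_mul a1 a2 (Pr_nonneg hu _) (div_nonneg hW0 hM'.le)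
  · obtain ⟨T, hT, h⟩ := pair_cnt hG hu F c.N hM c.w' ((n * f) • c.w) (n * f)
    refine (h _).trans ?_
    set t : G → ℝ := fun m => (tau (wU p (inE Γ c.A)) c.w (m • c.w')).toReal with ht
    set s : ℝ := sq Γ p c.A ((f⁻¹ * n * f) • c.w) ((f⁻¹ * n' * f) • c.w) with hs
    have hs0 : 0 ≤ s := Real.sqrt_nonneg _
    have hσ : ∀ m ∈ T, (n' * f)⁻¹ * (n * f) * m ∈ c.N := by
      intro m hm
      refine c.N.mul_mem ?_ (hT m hm)
      have := hc.nor.conj_mem' _ (c.N.mul_mem (c.N.inv_mem hn') hn) f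
      convert this using 1
      group
    have b1 : ∑ m ∈ T, t m ≤ W :=
      pair_sum (t := fun n => tau (wU p (inE Γ c.A)) c.w (n • c.w')) hW0 hW hT
    have b2 : ∑ m ∈ T, t ((n' * f)⁻¹ * (n * f) * m) ≤ W := by
      have := pair_sum (t := fun n => tau (wU p (inE Γ c.A)) c.w (n • c.w')) hW0 hW
        (T := T.image fun m => (n' * f)⁻¹ * (n * f) * m) (by
          intro m hm
          obtain ⟨k, hk, rfl⟩ := Finset.mem_image.1 hm
          exact hσ k hk)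
      rwa [Finset.sum_image fun a _ b _ hab => mul_left_cancel hab] at this
    have b3 : Real.sqrt (Pr F (wU p (inE Γ (sh f c.A)))
        (fun ω => Conn ω ((n * f) • c.w) ((n' * f) • c.w))) ≤ s := by
      refine Real.sqrt_le_sqrt ?_
      rw [← tau_sh hG p f c.A, ← mul_smul, ← mul_smul,
        show f * (f⁻¹ * n * f) = n * f by group, show f * (f⁻¹ * n' * f) = n' * f by group]
      exact pair_Pr_le hu F _ _
    have b4 : ∀ m ∈ T, Pr F (wU p (inE Γ (sh f c.A)))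
        (fun η => Conn η ((n * f) • c.w) ((n * f * m) • c.w') ∧
          Conn η ((n * f) • c.w) ((n' * f) • c.w)) ≤
        3 * s / 2 * (t m + t ((n' * f)⁻¹ * (n * f) * m)) := by
      intro m _
      refine (gladkov_sqrt hu F _ _ _).trans ?_
      have c1 := pair_pt hG h0 h1 c.A c.w c.w' (n * f) m F
      have c2 := pair_pt hG h0 h1 c.A c.w c.w' (n' * f) ((n' * f)⁻¹ * (n * f) * m) F
      rw [e1] at c1
      rw [e2, show n' * f * ((n' * f)⁻¹ * (n * f) * m) = n * f * m by group,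
        Pr_congr fun ω _ => (⟨Conn.symm, Conn.symm⟩ :
          Conn ω ((n' * f) • c.w) ((n * f * m) • c.w') ↔
            Conn ω ((n * f * m) • c.w') ((n' * f) • c.w))] at c2
      set a := Pr F (wU p (inE Γ (sh f c.A)))
        (fun η => Conn η ((n * f) • c.w) ((n * f * m) • c.w'))
      set b := Pr F (wU p (inE Γ (sh f c.A)))
        (fun η => Conn η ((n * f * m) • c.w') ((n' * f) • c.w))
      have ha : 0 ≤ a := Pr_nonneg hu _
      have hb : 0 ≤ b := Pr_nonneg hu _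
      have d1 : Real.sqrt a * Real.sqrt b ≤ (t m + t ((n' * f)⁻¹ * (n * f) * m)) / 2 := by
        have := Real.sq_sqrt ha
        have := Real.sq_sqrt hb
        have c1' : a ≤ t m := c1
        have c2' : b ≤ t ((n' * f)⁻¹ * (n * f) * m) := c2
        nlinarith [sq_nonneg (Real.sqrt a - Real.sqrt b)]
      have d2 := mul_le_mul b3 d1 (mul_nonneg (Real.sqrt_nonneg _) (Real.sqrt_nonneg _)) hs0
      nlinarith [d2]
    refine (div_le_div_of_nonneg_right (Finset.sum_le_sum b4) hM'.le).trans ?_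
    rw [← Finset.mul_sum, Finset.sum_add_distrib]
    have : 3 * s / 2 * (∑ m ∈ T, t m + ∑ m ∈ T, t ((n' * f)⁻¹ * (n * f) * m)) ≤
        3 * s / 2 * (W + W) :=
      mul_le_mul_of_nonneg_left (add_le_add b1 b2) (by positivity)
    refine (div_le_div_of_nonneg_right this hM'.le).trans (le_of_eq ?_)
    ring

end Vale.Agent.P165
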