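import Vale.Agent.P165.Def5
import Vale.Agent.P165.Pair

open Classical
open scoped ENNReal

namespace Vale.Agent.P165

open Vale.Agent.P151

universe u

variable {V : Type*} {α : Type*} [DecidableEq α]
variable {Γ : SimpleGraph V} {G : Type u} [Group G] [MulAction G V]


lemma sh_right {N : Subgroup G} {A : Set V} (hA : ∀ n ∈ N, ∀ v : V, n • v ∈ A ↔ v ∈ A)
    {g g' : G} (h : g⁻¹ * g' ∈ N) : sh g' A = sh g A := by
  ext v
  have h2 := hA _ h (g'⁻¹ • v)
  simp only [sh, Set.mem_setOf_eq]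
  rw [← h2, smul_smul, mul_inv_cancel_right]

lemma overlap2 (hG : Geom Γ G) (P P' : Finset (Sym2 V)) (n : G) (S : Finset G) :
    (S.filter fun n' => ¬ Disjoint (tr n P) (tr n' P')).card ≤ 2 * P.card * P'.card := by
  have key : ∀ e e' : Sym2 V, (S.filter fun n' => e'.map (n' • ·) = e).card ≤ 2 := by
    intro e e'
    induction e using Sym2.ind with
    | _ c d =>
    induction e' using Sym2.ind with
    | _ a b =>
    refine le_trans (Finset.card_le_card_of_injOn (t := {c, d}) (fun n' => n' • a)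
      (fun n' hn' => ?_) fun n₁ _ n₂ _ h => ?_) Finset.card_le_two
    · have := (Finset.mem_filter.1 (Finset.mem_coe.1 hn')).2
      rw [Sym2.map_mk, Sym2.eq_iff] at this
      rcases this with h | h <;> simp [h.1]
    · have h' : n₁ • a = n₂ • a := h
      have := hG.free (n₂⁻¹ * n₁) a (by rw [mul_smul, h', inv_smul_smul])
      exact (inv_mul_eq_one.1 this).symm
  have hsub : (S.filter fun n' => ¬ Disjoint (tr n P) (tr n' P')) ⊆
      (P ×ˢ P').biUnion fun x => S.filter fun n' => x.2.map (n' • ·) = x.1.map (n • ·) := by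
    intro n' hn'
    obtain ⟨h1, h2⟩ := Finset.mem_filter.1 hn'
    obtain ⟨_, ⟨e, he, rfl⟩, e', he', h3⟩ := Set.not_disjoint_iff.1 h2
    exact Finset.mem_biUnion.2 ⟨(e, e'), Finset.mem_product.2 ⟨he, he'⟩,
      Finset.mem_filter.2 ⟨h1, h3⟩⟩
  refine (Finset.card_le_card hsub).trans
    ((Finset.card_biUnion_le_card_mul _ _ 2 fun x _ => key _ _).trans (le_of_eq ?_))
  rw [Finset.card_product]
  ring

theorem big_one2 (hG : Geom Γ G) (c : Cg V G) (hc : c.Fine Γ) {p : ℝ} (h0 : 0 ≤ p) (h1 : p ≤ 1)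
    {W : ℝ} (hW0 : 0 ≤ W)
    (hW : ∑' n : c.N, tau (wU p (inE Γ c.A)) c.w ((n : G) • c.w') ≤ ENNReal.ofReal W)
    {M : ℕ} (hM : 1 ≤ M) (g : G) (F : Finset (Sym2 V)) :
    Pr F (wU p Γ.edgeSet) (c.toCf.Big Γ M g) ≤ W / M := by
  refine le_trans (le_of_eq ?_) (pair_one hG c.toCf h0 h1 hW0 hW hM g F)
  rw [← Pr_inter]
  exact Pr_congr fun ω _ => pair_big c.toCf M g ω

theorem big_two2 (hG : Geom Γ G) (c : Cg V G) (hc : c.Fine Γ) {p : ℝ} (h0 : 0 ≤ p) (h1 : p ≤ 1)
    {W : ℝ} (hW0 : 0 ≤ W)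
    (hW : ∑' n : c.N, tau (wU p (inE Γ c.A)) c.w ((n : G) • c.w') ≤ ENNReal.ofReal W)
    {M : ℕ} (hM : 1 ≤ M) {f g g' : G} (hf : f⁻¹ * g ∈ c.C) (hg : g⁻¹ * g' ∈ c.N)
    (F : Finset (Sym2 V)) :
    Pr F (wU p Γ.edgeSet) (fun ω => c.toCf.Big Γ M g ω ∧ c.toCf.Big Γ M g' ω) ≤ (W / M) ^ 2 +
      3 * (W / M) * sq Γ p c.A ((f⁻¹ * g) • c.w) ((f⁻¹ * g') • c.w) := by
  have e1 : sh g c.A = sh f c.A := sh_right hc.invA hf
  have e2 : sh g' c.A = sh f c.A := (sh_right hc.invA (hc.le hg)).trans e1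
  have hu : Ok (wU p (inE Γ (sh f c.A))) := wU_ok h0 h1 _
  have hM' : (0 : ℝ) < M := by exact_mod_cast hM
  have hE : Pr F (wU p Γ.edgeSet) (fun ω => c.toCf.Big Γ M g ω ∧ c.toCf.Big Γ M g' ω) =
      Pr F (wU p (inE Γ (sh f c.A))) (fun η => pairBg c.N M c.w' g (cl {g • c.w} η) ∧
        pairBg c.N M c.w' g' (cl {g' • c.w} η)) := by
    rw [← Pr_inter]
    refine Pr_congr fun ω _ => ?_
    rw [pair_big, pair_big, e1, e2]
  rw [hE]
  refine (Pr_le_add hu (B := fun η => (pairBg c.N M c.w' g (cl {g • c.w} η) ∧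
        pairBg c.N M c.w' g' (cl {g' • c.w} η)) ∧
          ¬ Conn η (g • c.w) (g' • c.w))
      (C := fun η => pairBg c.N M c.w' g (cl {g • c.w} η) ∧
        Conn η (g • c.w) (g' • c.w)) fun η _ h => ?_).trans (add_le_add ?_ ?_)
  · by_cases hh : Conn η (g • c.w) (g' • c.w)
    · exact Or.inr ⟨h.1, hh⟩
    · exact Or.inl ⟨h, hh⟩
  · refine (pair_bk hu F _ _ _ _ ?_).trans ?_
    · rintro C C' hC ⟨S, a, b, d⟩
      exact ⟨S, a, b, fun m hm => hC (d m hm)⟩
    · have a1 := pair_one hG c.toCf h0 h1 hW0 hW hM g F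
      have a2 := pair_one hG c.toCf h0 h1 hW0 hW hM g' F
      rw [e1] at a1
      rw [e2] at a2
      rw [pow_two]
      exact mul_le_mul a1 a2 (Pr_nonneg hu _) (div_nonneg hW0 hM'.le)
  · obtain ⟨T, hT, h⟩ := pair_cnt hG hu F c.N hM c.w' (g • c.w) g
    refine (h _).trans ?_
    set t : G → ℝ := fun m => (tau (wU p (inE Γ c.A)) c.w (m • c.w')).toReal with ht
    set s : ℝ := sq Γ p c.A ((f⁻¹ * g) • c.w) ((f⁻¹ * g') • c.w) with hs
    have hs0 : 0 ≤ s := Real.sqrt_nonneg _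
    have hσ : ∀ m ∈ T, g'⁻¹ * g * m ∈ c.N := by
      intro m hm
      refine c.N.mul_mem ?_ (hT m hm)
      have := c.N.inv_mem hg
      rwa [mul_inv_rev, inv_inv] at this
    have b1 : ∑ m ∈ T, t m ≤ W :=
      pair_sum (t := fun n => tau (wU p (inE Γ c.A)) c.w (n • c.w')) hW0 hW hT
    have b2 : ∑ m ∈ T, t (g'⁻¹ * g * m) ≤ W := by
      have := pair_sum (t := fun n => tau (wU p (inE Γ c.A)) c.w (n • c.w')) hW0 hW
        (T := T.image fun m => g'⁻¹ * g * m) (by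
          intro m hm
          obtain ⟨k, hk, rfl⟩ := Finset.mem_image.1 hm
          exact hσ k hk)
      rwa [Finset.sum_image fun a _ b _ hab => mul_left_cancel hab] at this
    have b3 : Real.sqrt (Pr F (wU p (inE Γ (sh f c.A)))
        (fun ω => Conn ω (g • c.w) (g' • c.w))) ≤ s := by
      refine Real.sqrt_le_sqrt ?_
      rw [← tau_sh hG p f c.A, ← mul_smul, ← mul_smul,
        mul_inv_cancel_left, mul_inv_cancel_left]
      exact pair_Pr_le hu F _ _
    have b4 : ∀ m ∈ T, Pr F (wU p (inE Γ (sh f c.A)))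
        (fun η => Conn η (g • c.w) ((g * m) • c.w') ∧
          Conn η (g • c.w) (g' • c.w)) ≤
        3 * s / 2 * (t m + t (g'⁻¹ * g * m)) := by
      intro m _
      refine (gladkov_sqrt hu F _ _ _).trans ?_
      have c1 := pair_pt hG h0 h1 c.A c.w c.w' g m F
      have c2 := pair_pt hG h0 h1 c.A c.w c.w' g' (g'⁻¹ * g * m) F
      rw [e1] at c1
      rw [e2, show g' * (g'⁻¹ * g * m) = g * m by group,
        Pr_congr fun ω _ => (⟨Conn.symm, Conn.symm⟩ :
          Conn ω (g' • c.w) ((g * m) • c.w') ↔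
            Conn ω ((g * m) • c.w') (g' • c.w))] at c2
      set a := Pr F (wU p (inE Γ (sh f c.A)))
        (fun η => Conn η (g • c.w) ((g * m) • c.w'))
      set b := Pr F (wU p (inE Γ (sh f c.A)))
        (fun η => Conn η ((g * m) • c.w') (g' • c.w))
      have ha : 0 ≤ a := Pr_nonneg hu _
      have hb : 0 ≤ b := Pr_nonneg hu _
      have d1 : Real.sqrt a * Real.sqrt b ≤ (t m + t (g'⁻¹ * g * m)) / 2 := by
        have := Real.sq_sqrt ha
        have := Real.sq_sqrt hb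
        have c1' : a ≤ t m := c1
        have c2' : b ≤ t (g'⁻¹ * g * m) := c2
        nlinarith [sq_nonneg (Real.sqrt a - Real.sqrt b)]
      have d2 := mul_le_mul b3 d1 (mul_nonneg (Real.sqrt_nonneg _) (Real.sqrt_nonneg _)) hs0
      nlinarith [d2]
    refine (div_le_div_of_nonneg_right (Finset.sum_le_sum b4) hM'.le).trans ?_
    rw [← Finset.mul_sum, Finset.sum_add_distrib]
    have : 3 * s / 2 * (∑ m ∈ T, t m + ∑ m ∈ T, t (g'⁻¹ * g * m)) ≤
        3 * s / 2 * (W + W) :=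
      mul_le_mul_of_nonneg_left (add_le_add b1 b2) (by positivity)
    refine (div_le_div_of_nonneg_right this hM'.le).trans (le_of_eq ?_)
    ring

end Vale.Agent.P165
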