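import Vale.Agent.P165.Geo

open Classical
open scoped ENNReal

namespace Vale.Agent.P165

open Vale.Agent.P151

universe u

variable {V : Type*} {α : Type*} [DecidableEq α]

lemma geo_ext (r u : FreeGroup α) (x : α × Bool)
    (h : ∀ z ∈ (r⁻¹ * u).toWord.getLast?, z.1 = x.1 → z.2 = x.2) :
    (r⁻¹ * (u * FreeGroup.mk [x])).toWord = (r⁻¹ * u).toWord ++ [x] := by
  have hr : FreeGroup.IsReduced ((r⁻¹ * u).toWord ++ [x]) :=
    List.isChain_append.2 ⟨FreeGroup.isReduced_toWord, FreeGroup.IsReduced.singleton, by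
      intro p hp q hq
      simp only [List.head?_cons, Option.mem_def, Option.some.injEq] at hq
      subst hq
      exact h p hp⟩
  rw [← hr.reduce_eq, ← FreeGroup.toWord_mk, ← FreeGroup.mul_mk, FreeGroup.mk_toWord, mul_assoc]

lemma geo_ext' {r u u' : FreeGroup α} {x : α × Bool}
    (h : (r⁻¹ * u').toWord = (r⁻¹ * u).toWord ++ [x]) :
    u' ∈ cone r u ∧ dd r u' = dd r u + 1 := by
  refine ⟨geo_iff.2 ⟨[x], h.symm⟩, ?_⟩
  unfold dd FreeGroup.norm
  rw [h, List.length_append, List.length_singleton]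

lemma geo_dir [Nontrivial α] (r u : FreeGroup α) : ∃ d : α, ∀ s : Bool,
    (r⁻¹ * (u * FreeGroup.mk [(d, s)])).toWord = (r⁻¹ * u).toWord ++ [(d, s)] := by
  have : ∃ d : α, ∀ z ∈ (r⁻¹ * u).toWord.getLast?, z.1 ≠ d := by
    cases (r⁻¹ * u).toWord.getLast? with
    | none => exact ⟨Classical.arbitrary α, by simp⟩
    | some z =>
      obtain ⟨d, hd⟩ := exists_ne z.1
      refine ⟨d, fun z' hz' => ?_⟩
      simp only [Option.mem_def, Option.some.injEq] at hz'
      subst hz'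
      exact hd.symm
  obtain ⟨d, hd⟩ := this
  exact ⟨d, fun s => geo_ext r u (d, s) fun z hz e => absurd e (hd z hz)⟩

lemma branch [Nontrivial α] (r u v : FreeGroup α) :
    ∃ u', u' ∈ cone r u ∧ dd r u' = dd r u + 1 ∧ v ∉ cone r u' := by
  obtain ⟨d, hd⟩ := geo_dir r u
  obtain ⟨a1, a2⟩ := geo_ext' (hd true)
  obtain ⟨b1, b2⟩ := geo_ext' (hd false)
  by_cases h : v ∈ cone r (u * FreeGroup.mk [(d, true)])
  · refine ⟨_, b1, b2, fun h' => ?_⟩
    have e := cone_uniq h h' (a2.trans b2.symm)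
    have e1 := hd true
    rw [e, hd false] at e1
    simp at e1
  · exact ⟨_, a1, a2, h⟩
lemma exists_far [Nontrivial α] (r u : FreeGroup α) (n : ℕ) :
    ∃ v, v ∈ cone r u ∧ dd r v = dd r u + n := by
  induction n with
  | zero => exact ⟨u, self_mem_cone r u, rfl⟩
  | succ n ih =>
    obtain ⟨v, h1, h2⟩ := ih
    obtain ⟨v', h3, h4, -⟩ := branch r v v
    exact ⟨v', cone_trans h1 h3, by omega⟩
lemma ball_fin [Finite α] (r : FreeGroup α) (n : ℕ) : {v | dd r v ≤ n}.Finite := by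
  have hinj : Function.Injective fun v : FreeGroup α => (r⁻¹ * v).toWord :=
    fun v w h => mul_left_cancel (FreeGroup.toWord_injective h)
  exact (List.finite_length_le (α × Bool) n).preimage hinj.injOn
lemma ball_count [Finite α] (n : ℕ) :
    ∃ B : ℕ, ∀ r : FreeGroup α, ∑' v, ii (dd r v ≤ n) ≤ B := by
  refine ⟨(ball_fin (1 : FreeGroup α) n).toFinset.card, fun r => ?_⟩
  rw [← (Equiv.mulLeft r).tsum_eq]
  have e : ∀ v : FreeGroup α, dd r (Equiv.mulLeft r v) = dd 1 v := fun v => by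
    rw [← dd_mul r 1 v, mul_one]; rfl
  simp only [e]
  rw [tsum_eq_sum (s := (ball_fin (1 : FreeGroup α) n).toFinset)
    (fun v hv => ii_false (by simpa using hv))]
  refine (Finset.sum_le_card_nsmul _ _ 1 fun v _ => ii_le_one _).trans ?_
  simp
lemma geo_half {s t : FreeGroup α} (h : dd s t = 1) : half s t = cone s t := by
  obtain ⟨h1, h2⟩ := geo_adj h
  ext z
  change dd z t < dd z s ↔ _
  refine ⟨fun hz => ?_, fun hz => by have := h1 z hz; omega⟩
  by_contra hz'
  have := h2 z hz'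
  omega
lemma irr_left [Nontrivial α] {s t s' t' : FreeGroup α} (h : dd s t = 1) (h' : dd s' t' = 1) :
    ∃ g : FreeGroup α, ∀ v ∈ half s' t', g * v ∈ half s t := by
  obtain ⟨x, hx⟩ := List.length_eq_one_iff.1 h'
  have hx' : s'⁻¹ * t' = FreeGroup.mk [x] := by rw [← hx, FreeGroup.mk_toWord]
  obtain ⟨d, hd⟩ := geo_dir s t
  obtain ⟨p, hp⟩ : ∃ p, p = t * FreeGroup.mk [(d, x.2)] := ⟨_, rfl⟩
  have e1 := hd x.2
  rw [← hp] at e1
  have e2 := geo_ext s p x (by
    intro z hz _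
    rw [e1] at hz
    simp only [List.getLast?_append, List.getLast?_singleton, Option.some_or, Option.mem_def,
      Option.some.injEq] at hz
    rw [← hz])
  obtain ⟨a1, -⟩ := geo_ext' e1
  obtain ⟨b1, b2⟩ := geo_ext' e2
  refine ⟨p * s'⁻¹, fun v hv => ?_⟩
  rw [geo_half h'] at hv
  rw [geo_half h]
  have c1 := (geo_cone_mul (p * s'⁻¹)).2 hv
  rw [inv_mul_cancel_right, mul_assoc p s'⁻¹ t', hx',
    cone_reroot (r := s) (by rw [geo_mem]; omega)] at c1
  exact cone_trans a1 (cone_trans b1 c1)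
/-- initial segments of `v` and side branches, whose cones are disjoint -/
lemma side [Nontrivial α] (r v : FreeGroup α) : ∃ pre sd : ℕ → FreeGroup α,
    (∀ j ≤ dd r v, dd r (pre j) = j ∧ v ∈ cone r (pre j)) ∧
    (∀ j < dd r v, dd r (sd j) = j + 1 ∧ sd j ∈ cone r (pre j) ∧ dd (pre j) (sd j) = 1 ∧
      dd (pre j) (pre (j + 1)) = 1 ∧ pre (j + 1) ∈ cone r (pre j)) ∧
    (∀ i j, i ≤ j → j < dd r v → cone r (sd j) ⊆ cone r (pre i)) ∧
    (∀ i j, i < j → j < dd r v → Disjoint (cone r (sd i)) (cone r (sd j))) := by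
  have hp : ∀ j : ℕ, ∃ u, j ≤ dd r v → dd r u = j ∧ v ∈ cone r u := by
    intro j
    by_cases hj : j ≤ dd r v
    · obtain ⟨u, hu⟩ := exists_pre r v hj
      exact ⟨u, fun _ => hu⟩
    · exact ⟨r, fun h => absurd h hj⟩
  choose pre hpre using hp
  choose sd s1 s2 s3 using fun j => branch r (pre j) v
  have nest : ∀ i j, i ≤ j → j ≤ dd r v → pre j ∈ cone r (pre i) := fun i j hij hj =>
    cone_nest (hpre i (hij.trans hj)).2 (hpre j hj).2 (by
      rw [(hpre i (hij.trans hj)).1, (hpre j hj).1]; exact hij)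
  have sub : ∀ i j, i ≤ j → j < dd r v → cone r (sd j) ⊆ cone r (pre i) :=
    fun i j hij hj x hx => cone_trans (nest i j hij hj.le) (cone_trans (s1 j) hx)
  refine ⟨pre, sd, hpre, fun j hj => ?_, sub, fun i j hij hj => ?_⟩
  · have a1 := (hpre j hj.le).1
    have a2 := (hpre (j + 1) hj).1
    have a3 := s2 j
    have a4 := geo_mem.1 (s1 j)
    have a5 := nest j (j + 1) (Nat.le_succ j) hj
    have a6 := geo_mem.1 a5
    exact ⟨by omega, s1 j, by omega, by omega, a5⟩
  · rw [Set.disjoint_left]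
    intro x hx hx'
    have a1 := (hpre i (by omega)).1
    have a2 := hpre (i + 1) (by omega)
    have a3 := s2 i
    have e := cone_uniq hx (sub (i + 1) j hij hj hx') (by omega)
    exact s3 i (e ▸ a2.2)

end Vale.Agent.P165
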