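import Vale.Agent.P165.Def3
import Vale.Agent.P165.Inv
import Vale.Agent.P165.Geo2

open Classical
open scoped ENNReal

namespace Vale.Agent.P165

open Vale.Agent.P151

universe u

variable {V : Type*} {α : Type*} [DecidableEq α]
variable {Γ : SimpleGraph V} {G : Type u} [Group G] [MulAction G V]
variable {φ : G →* FreeGroup α} {π : V → FreeGroup α}


lemma mul_mem_half {g s t v : FreeGroup α} : g * v ∈ half (g * s) (g * t) ↔ v ∈ half s t := by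
  simp only [half, Set.mem_setOf_eq, dd_mul]

lemma mul_mem_cone {g s t v : FreeGroup α} : g * v ∈ cone (g * s) (g * t) ↔ v ∈ cone s t :=
  geo_cone_mul g

lemma Sj.tR_smul (hs : Sj Γ φ π) (p : ℝ) (R : Set (FreeGroup α)) (g : G) (x y : V) :
    tR Γ π p R (g • x) (g • y) = tR Γ π p {v | φ g * v ∈ R} x y := by
  unfold tR
  rw [tau_smul hs.geom]
  congr 3
  ext v
  simp [hs.eqv]

lemma Sj.lip (hs : Sj Γ φ π) : ∃ L : ℕ, ∀ a b, Γ.Adj a b → dd (π a) (π b) ≤ L := by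
  obtain ⟨s, h⟩ := hs.geom.cof
  refine ⟨s.sup fun v => (hs.geom.locfin v).toFinset.sup fun w => dd (π v) (π w),
    fun a b hab => ?_⟩
  obtain ⟨g, hg⟩ := h a
  rw [← dd_mul (φ g), ← hs.eqv, ← hs.eqv]
  refine le_trans ?_ (Finset.le_sup
    (f := fun v => (hs.geom.locfin v).toFinset.sup fun w => dd (π v) (π w)) hg)
  exact Finset.le_sup (f := fun w => dd (π (g • a)) (π w))
    ((Set.Finite.mem_toFinset _).2 ((hs.geom.adj g a b).2 hab))

lemma tau_harris {p : ℝ} (h0 : 0 ≤ p) (h1 : p ≤ 1) {U : Set (Sym2 V)} {P : Finset (Sym2 V)}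
    (hP : (P : Set (Sym2 V)) ⊆ U) {x z : V}
    (h : ∀ ω : Set (Sym2 V), (P : Set (Sym2 V)) ⊆ ω → Conn ω x z) (y : V) :
    ENNReal.ofReal (p ^ P.card) * tau (wU p U) x y ≤ tau (wU p U) z y := by
  have hw := wU_ok h0 h1 U
  unfold tau
  rw [ENNReal.mul_iSup]
  refine iSup_le fun F => le_trans ?_ (Pr_le_tau (wU p U) (F ∪ P) z y)
  rw [← ENNReal.ofReal_mul (pow_nonneg h0 _)]
  refine ENNReal.ofReal_le_ofReal ?_
  have e1 : Pr (F ∪ P) (wU p U) (fun ω => (P : Set (Sym2 V)) ⊆ ω) = p ^ P.card := by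
    rw [Pr_open Finset.subset_union_right,
      Finset.prod_congr rfl (g := fun _ => p) (f := wU p U) fun e he => if_pos (hP he),
      Finset.prod_const]
  have e2 := Pr_conn_mono_F hw x y (Finset.subset_union_left (s₁ := F) (s₂ := P))
  have e3 := harris (F ∪ P) hw (f := fun ω => ind ((P : Set (Sym2 V)) ⊆ ω))
    (fun ω η hωη => ind_mono fun h => h.trans hωη) (conn_ind_mono x y)
  refine (mul_le_mul_of_nonneg_left e2 (pow_nonneg h0 _)).trans ?_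
  rw [← e1]
  refine e3.trans (Ex_mono hw fun ω _ => ?_)
  rw [← ind_and]
  exact ind_mono fun hh => (h ω hh.1).symm.trans hh.2

lemma walk_one (hs : Sj Γ φ π) (x z : V) : ∃ r n : ℕ, ∀ g : G, ∃ P : Finset (Sym2 V),
    (P : Set (Sym2 V)) ⊆ inE Γ (π ⁻¹' {s | dd (π (g • x)) s ≤ r}) ∧ P.card ≤ n ∧
      ∀ ω : Set (Sym2 V), (P : Set (Sym2 V)) ⊆ ω → Conn ω (g • x) (g • z) := by
  obtain ⟨P, hP, hc⟩ := exists_path hs.geom.conn x z
  refine ⟨(P.biUnion Sym2.toFinset).sup fun v => dd (π x) (π v), P.card, fun g =>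
    ⟨P.image (Sym2.map (g • ·)), ?_, Finset.card_image_le, fun ω hω => ?_⟩⟩
  · intro e he
    obtain ⟨e', he', rfl⟩ := Finset.mem_image.1 (Finset.mem_coe.1 he)
    refine (iv_map_mem_inE hs.geom _ g e').2 ⟨hP he', fun v hv => ?_⟩
    change dd (π (g • x)) (π (g • v)) ≤ _
    rw [hs.eqv, hs.eqv, dd_mul]
    exact Finset.le_sup (f := fun v => dd (π x) (π v))
      (Finset.mem_biUnion.2 ⟨e', he', Sym2.mem_toFinset.2 hv⟩)
  · exact iv_conn_map g (fun e he => hω (Finset.mem_coe.2 (Finset.mem_image_of_mem _ he)))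
      (hc _ subset_rfl)

lemma walk_fin (hs : Sj Γ φ π) {T : Set (V × V)} (hT : T.Finite) : ∃ r n : ℕ, ∀ a ∈ T, ∀ g : G,
    ∃ P : Finset (Sym2 V),
      (P : Set (Sym2 V)) ⊆ inE Γ (π ⁻¹' {s | dd (π (g • a.1)) s ≤ r}) ∧ P.card ≤ n ∧
      ∀ ω : Set (Sym2 V), (P : Set (Sym2 V)) ⊆ ω → Conn ω (g • a.1) (g • a.2) := by
  choose r n h using fun a : V × V => walk_one hs a.1 a.2
  refine ⟨hT.toFinset.sup r, hT.toFinset.sup n, fun a ha g => ?_⟩
  obtain ⟨P, h1, h2, h3⟩ := h a g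
  have ha' := hT.mem_toFinset.2 ha
  refine ⟨P, h1.trans (inE_mono fun v hv => ?_), h2.trans (Finset.le_sup ha'), h3⟩
  exact le_trans (show dd (π (g • a.1)) (π v) ≤ r a from hv) (Finset.le_sup ha')

lemma walk_dd (u t : FreeGroup α) : dd 1 (u⁻¹ * t) = dd u t := by
  rw [← dd_mul u, mul_one, mul_inv_cancel_left]

lemma Sj.near_orb [Finite α] (hs : Sj Γ φ π) (u : FreeGroup α) (d : ℕ) :
    ∃ W : Finset V, (∀ w ∈ W, dd (π w) u ≤ d) ∧
      ∀ w, dd (π w) u ≤ d → ∃ w₀ ∈ W, ∃ n ∈ φ.ker, w = n • w₀ := by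
  obtain ⟨S, hS⟩ := hs.geom.cof
  choose σ hσ using hs.surj
  refine ⟨(S ×ˢ (ball_fin u d).toFinset).image fun a => σ (a.2 * (π a.1)⁻¹) • a.1, ?_, ?_⟩
  · intro w hw
    obtain ⟨a, ha, rfl⟩ := Finset.mem_image.1 hw
    rw [hs.eqv, hσ, inv_mul_cancel_right, dd_comm]
    exact (ball_fin u d).mem_toFinset.1 (Finset.mem_product.1 ha).2
  · intro w hw
    obtain ⟨g, hg⟩ := hS w
    refine ⟨_, Finset.mem_image.2 ⟨(g • w, π w), Finset.mem_product.2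
      ⟨hg, (Set.Finite.mem_toFinset _).2 ((dd_comm _ _).trans_le hw)⟩, rfl⟩,
      g⁻¹ * (σ (π w * (π (g • w))⁻¹))⁻¹, ?_, ?_⟩
    · rw [MonoidHom.mem_ker, map_mul, map_inv, map_inv, hσ, hs.eqv]
      group
    · rw [mul_smul, inv_smul_smul, inv_smul_smul]

lemma Sj.step [Finite α] (hs : Sj Γ φ π) : ∃ r n : ℕ, ∀ (x : V) (t : FreeGroup α),
    dd (π x) t ≤ 1 → ∃ (z : V) (P : Finset (Sym2 V)), π z = t ∧
      (P : Set (Sym2 V)) ⊆ inE Γ (π ⁻¹' {s | dd (π x) s ≤ r}) ∧ P.card ≤ n ∧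
      ∀ ω : Set (Sym2 V), (P : Set (Sym2 V)) ⊆ ω → Conn ω x z := by
  obtain ⟨S, hS⟩ := hs.geom.cof
  choose σ hσ using hs.surj
  obtain ⟨r, n, h⟩ := walk_fin hs ((S.finite_toSet.prod (ball_fin (1 : FreeGroup α) 1)).image
    fun a => (a.1, σ (π a.1 * a.2 * (π a.1)⁻¹) • a.1))
  refine ⟨r, n, fun x t hxt => ?_⟩
  obtain ⟨g, hg⟩ := hS x
  obtain ⟨P, h1, h2, h3⟩ := h _ ⟨(g • x, (π x)⁻¹ * t),
    ⟨hg, (walk_dd _ _).trans_le hxt⟩, rfl⟩ g⁻¹
  simp only [inv_smul_smul] at h1 h3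
  refine ⟨_, P, ?_, h1, h2, h3⟩
  rw [hs.eqv, hs.eqv, hσ, hs.eqv, map_inv]
  group

lemma Sj.walk [Finite α] (hs : Sj Γ φ π) (o : V) : ∃ r n : ℕ, ∀ (g : G) (t : FreeGroup α),
    ∃ (g' : G) (P : Finset (Sym2 V)), π (g' • o) = t ∧
      (P : Set (Sym2 V)) ⊆ inE Γ (π ⁻¹' {s | ∃ s', t ∈ cone (π (g • o)) s' ∧ dd s' s ≤ r}) ∧
      P.card ≤ n * dd (π (g • o)) t ∧
      ∀ ω : Set (Sym2 V), (P : Set (Sym2 V)) ⊆ ω → Conn ω (g • o) (g' • o) := by
  choose σ hσ using hs.surj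
  obtain ⟨r, n, h⟩ := walk_fin hs ((ball_fin (1 : FreeGroup α) 1).image
    fun l => (o, σ (π o * l * (π o)⁻¹) • o))
  refine ⟨r, n, fun g t => ?_⟩
  obtain ⟨k, hk⟩ : ∃ k, dd (π (g • o)) t = k := ⟨_, rfl⟩
  rw [hk]
  induction k generalizing g with
  | zero =>
    exact ⟨g, ∅, dd_eq_zero.1 hk, by simp, by simp, fun ω _ => Conn.refl _ _⟩
  | succ k ih =>
    obtain ⟨u, hu, hut⟩ := exists_pre (π (g • o)) t (j := 1) (by omega)
    have hut' := geo_mem.1 hut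
    obtain ⟨P, h1, h2, h3⟩ := h _ ⟨(π (g • o))⁻¹ * u, (walk_dd _ _).trans_le hu.le, rfl⟩ g
    simp only [← mul_smul] at h1 h3
    have e : π ((g * σ (π o * ((π (g • o))⁻¹ * u) * (π o)⁻¹)) • o) = u := by
      rw [hs.eqv, map_mul, hσ, hs.eqv]
      group
    obtain ⟨g', P', k1, k2, k3, k4⟩ := ih (g * σ (π o * ((π (g • o))⁻¹ * u) * (π o)⁻¹))
      (by rw [e]; omega)
    rw [e] at k2
    refine ⟨g', P ∪ P', k1, ?_, ?_, fun ω hω => ?_⟩
    · rw [Finset.coe_union]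
      refine Set.union_subset (h1.trans (inE_mono fun v hv => ?_))
        (k2.trans (inE_mono fun v hv => ?_))
      · exact ⟨π (g • o), by rw [cone_self]; trivial, hv⟩
      · obtain ⟨s', a1, a2⟩ := hv
        refine ⟨s', geo_mem.2 ?_, a2⟩
        have b1 := geo_mem.1 a1
        have b2 := dd_tri (π (g • o)) u s'
        have b3 := dd_tri (π (g • o)) s' t
        omega
    · refine (Finset.card_union_le _ _).trans ?_
      rw [Nat.mul_succ]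
      omega
    · rw [Finset.coe_union, Set.union_subset_iff] at hω
      exact (h3 ω hω.1).trans (k4 ω hω.2)

end Vale.Agent.P165
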