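import Vale.Agent.P165.TreeX
import Vale.Agent.P165.Walk

open Classical
open scoped ENNReal

namespace Vale.Agent.P165

open Vale.Agent.P151

universe u

variable {V : Type*} {α : Type*} [DecidableEq α]
variable {Γ : SimpleGraph V} {G : Type u} [Group G] [MulAction G V]
variable {ρ : G →* Equiv.Perm (FreeGroup α)} {π : V → FreeGroup α}


lemma Tj.tR_smul (hs : Tj Γ ρ π) (p : ℝ) (R : Set (FreeGroup α)) (g : G) (x y : V) :
    tR Γ π p R (g • x) (g • y) = tR Γ π p {v | ρ g v ∈ R} x y :=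
  P165.tR_smul hs.geom hs.eqv p R g x y

lemma Tj.lip (hs : Tj Γ ρ π) : ∃ L : ℕ, ∀ a b, Γ.Adj a b → dd (π a) (π b) ≤ L := by
  obtain ⟨s, h⟩ := hs.geom.cof
  refine ⟨s.sup fun v => (hs.geom.locfin v).toFinset.sup fun w => dd (π v) (π w),
    fun a b hab => ?_⟩
  obtain ⟨g, hg⟩ := h a
  rw [← hs.act.iso g, ← hs.eqv, ← hs.eqv]
  refine le_trans ?_ (Finset.le_sup
    (f := fun v => (hs.geom.locfin v).toFinset.sup fun w => dd (π v) (π w)) hg)
  exact Finset.le_sup (f := fun w => dd (π (g • a)) (π w))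
    ((Set.Finite.mem_toFinset _).2 ((hs.geom.adj g a b).2 hab))

lemma Tj.near_orb [Finite α] (hs : Tj Γ ρ π) (u : FreeGroup α) (l : List (FreeGroup α)) (d : ℕ) :
    ∃ W : Finset V, (∀ w ∈ W, dd (π w) u ≤ d) ∧
      ∀ w, dd (π w) u ≤ d → ∃ w₀ ∈ W, ∃ n ∈ fx ρ (u :: l), w = n • w₀ := by
  obtain ⟨s, h⟩ := hs.geom.cof
  choose g hg using h
  have hne : Nonempty V := hs.geom.conn.nonempty
  let T : V → V × (Fin (u :: l).length → FreeGroup α) :=
    fun w => (g w • w, fun k => ρ (g w) ((u :: l).get k))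
  let D : Set V := {w | dd (π w) u ≤ d}
  have hfin : (T '' D).Finite := by
    refine (s.finite_toSet.biUnion (t := fun i => {i} ×ˢ
      {f : Fin (u :: l).length → FreeGroup α |
        ∀ k, f k ∈ {v | dd (π i) v ≤ d + dd u ((u :: l).get k)}})
      fun i _ => (Set.finite_singleton i).prod (Set.Finite.pi' fun k => ball_fin _ _)).subset ?_
    rintro _ ⟨w, hw, rfl⟩
    have hw' : dd (π w) u ≤ d := hw
    refine Set.mem_biUnion (hg w) ⟨rfl, fun k => ?_⟩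
    change dd (π (g w • w)) (ρ (g w) ((u :: l).get k)) ≤ _
    rw [hs.eqv, hs.act.iso]
    have := dd_tri (π w) u ((u :: l).get k)
    omega
  refine ⟨hfin.toFinset.image (Function.invFunOn T D), fun w hw => ?_, fun w hw => ?_⟩
  · obtain ⟨a, ha, rfl⟩ := Finset.mem_image.1 hw
    exact Function.invFunOn_mem (hfin.mem_toFinset.1 ha)
  · refine ⟨Function.invFunOn T D (T w),
      Finset.mem_image_of_mem _ (hfin.mem_toFinset.2 ⟨w, hw, rfl⟩), ?_⟩
    have e : T (Function.invFunOn T D (T w)) = T w := Function.invFunOn_eq ⟨w, hw, rfl⟩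
    generalize Function.invFunOn T D (T w) = w₀ at e
    obtain ⟨e1, e2⟩ := Prod.mk.inj e
    refine ⟨(g w)⁻¹ * g w₀, fun t ht => ?_, ?_⟩
    · obtain ⟨k, rfl⟩ := List.mem_iff_get.1 ht
      rw [map_mul, Equiv.Perm.mul_apply, congrFun e2 k, map_inv]
      simp
    · rw [mul_smul, e1, inv_smul_smul]

lemma Tj.dense (hs : Tj Γ ρ π) : ∃ R : ℕ, ∀ t, ∃ x : V, dd (π x) t ≤ R := by
  obtain ⟨s, h⟩ := hs.act.cof
  obtain ⟨o⟩ : Nonempty V := hs.geom.conn.nonempty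
  refine ⟨s.sup fun t => dd (π o) t, fun t => ?_⟩
  obtain ⟨g, hg⟩ := h t
  refine ⟨g⁻¹ • o, ?_⟩
  rw [← hs.act.iso g, ← hs.eqv, smul_inv_smul]
  exact Finset.le_sup (f := fun t => dd (π o) t) hg

lemma walkT_one (hs : Tj Γ ρ π) (x z : V) : ∃ r n : ℕ, ∀ g : G, ∃ P : Finset (Sym2 V),
    (P : Set (Sym2 V)) ⊆ inE Γ (π ⁻¹' {s | dd (π (g • x)) s ≤ r}) ∧ P.card ≤ n ∧
      ∀ ω : Set (Sym2 V), (P : Set (Sym2 V)) ⊆ ω → Conn ω (g • x) (g • z) := by
  obtain ⟨P, hP, hc⟩ := exists_path hs.geom.conn x z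
  refine ⟨(P.biUnion Sym2.toFinset).sup fun v => dd (π x) (π v), P.card, fun g =>
    ⟨P.image (Sym2.map (g • ·)), ?_, Finset.card_image_le, fun ω hω => ?_⟩⟩
  · intro e he
    obtain ⟨e', he', rfl⟩ := Finset.mem_image.1 (Finset.mem_coe.1 he)
    refine (iv_map_mem_inE hs.geom _ g e').2 ⟨hP he', fun v hv => ?_⟩
    change dd (π (g • x)) (π (g • v)) ≤ _
    rw [hs.eqv, hs.eqv, hs.act.iso]
    exact Finset.le_sup (f := fun v => dd (π x) (π v))
      (Finset.mem_biUnion.2 ⟨e', he', Sym2.mem_toFinset.2 hv⟩)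
  · exact iv_conn_map g (fun e he => hω (Finset.mem_coe.2 (Finset.mem_image_of_mem _ he)))
      (hc _ subset_rfl)

lemma walkT_fin (hs : Tj Γ ρ π) {T : Set (V × V)} (hT : T.Finite) : ∃ r n : ℕ, ∀ a ∈ T, ∀ g : G,
    ∃ P : Finset (Sym2 V),
      (P : Set (Sym2 V)) ⊆ inE Γ (π ⁻¹' {s | dd (π (g • a.1)) s ≤ r}) ∧ P.card ≤ n ∧
      ∀ ω : Set (Sym2 V), (P : Set (Sym2 V)) ⊆ ω → Conn ω (g • a.1) (g • a.2) := by
  choose r n h using fun a : V × V => walkT_one hs a.1 a.2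
  refine ⟨hT.toFinset.sup r, hT.toFinset.sup n, fun a ha g => ?_⟩
  obtain ⟨P, h1, h2, h3⟩ := h a g
  have ha' := hT.mem_toFinset.2 ha
  refine ⟨P, h1.trans (inE_mono fun v hv => ?_), h2.trans (Finset.le_sup ha'), h3⟩
  exact le_trans (show dd (π (g • a.1)) (π v) ≤ r a from hv) (Finset.le_sup ha')

lemma walkT_step [Finite α] (hs : Tj Γ ρ π) : ∃ R r n : ℕ, ∀ (x : V) (t : FreeGroup α),
    dd (π x) t ≤ R + 1 → ∃ (z : V) (P : Finset (Sym2 V)), dd (π z) t ≤ R ∧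
      (P : Set (Sym2 V)) ⊆ inE Γ (π ⁻¹' {s | dd (π x) s ≤ r}) ∧ P.card ≤ n ∧
      ∀ ω : Set (Sym2 V), (P : Set (Sym2 V)) ⊆ ω → Conn ω x z := by
  obtain ⟨R, hR⟩ := hs.dense
  choose ζ hζ using hR
  obtain ⟨S, hS⟩ := hs.geom.cof
  obtain ⟨r, n, h⟩ := walkT_fin hs (S.finite_toSet.biUnion
    (t := fun i => (fun t => (i, ζ t)) '' {t | dd (π i) t ≤ R + 1})
    fun i _ => (ball_fin _ _).image _)
  refine ⟨R, r, n, fun x t hxt => ?_⟩
  obtain ⟨g, hg⟩ := hS x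
  obtain ⟨P, h1, h2, h3⟩ := h (g • x, ζ (ρ g t)) (Set.mem_biUnion hg ⟨ρ g t, by
    change dd (π (g • x)) (ρ g t) ≤ R + 1
    rwa [hs.eqv, hs.act.iso], rfl⟩) g⁻¹
  simp only [inv_smul_smul] at h1 h3
  refine ⟨_, P, ?_, h1, h2, h3⟩
  rw [← hs.act.iso g, ← hs.eqv, smul_inv_smul]
  exact hζ _

lemma Tj.walk [Finite α] (hs : Tj Γ ρ π) : ∃ r n : ℕ, ∀ (x : V) (t : FreeGroup α),
    ∃ (z : V) (P : Finset (Sym2 V)), dd (π z) t ≤ r ∧
      (P : Set (Sym2 V)) ⊆ inE Γ (π ⁻¹' {s | ∃ s', t ∈ cone (π x) s' ∧ dd s' s ≤ r}) ∧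
      P.card ≤ n * dd (π x) t ∧
      ∀ ω : Set (Sym2 V), (P : Set (Sym2 V)) ⊆ ω → Conn ω x z := by
  obtain ⟨R, r, n, h⟩ := walkT_step hs
  have key : ∀ (t : FreeGroup α) (k : ℕ) (x : V) (u : FreeGroup α), dd (π x) u ≤ R →
      dd u t = k → ∃ (z : V) (P : Finset (Sym2 V)), dd (π z) t ≤ R ∧
      (P : Set (Sym2 V)) ⊆ inE Γ (π ⁻¹' {s | ∃ s', t ∈ cone u s' ∧ dd s' s ≤ R + r}) ∧
      P.card ≤ n * k ∧ ∀ ω : Set (Sym2 V), (P : Set (Sym2 V)) ⊆ ω → Conn ω x z := by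
    intro t k
    induction k with
    | zero =>
      intro x u hx hk
      exact ⟨x, ∅, dd_eq_zero.1 hk ▸ hx, by simp, by simp, fun ω _ => Conn.refl _ _⟩
    | succ k ih =>
      intro x u hx hk
      obtain ⟨u', hu, hut⟩ := exists_pre u t (j := 1) (by omega)
      have hut' := geo_mem.1 hut
      have c1 := dd_tri (π x) u u'
      obtain ⟨y, P, h0, h1, h2, h3⟩ := h x u' (by omega)
      obtain ⟨z, P', k1, k2, k3, k4⟩ := ih y u' h0 (by omega)
      refine ⟨z, P ∪ P', k1, ?_, ?_, fun ω hω => ?_⟩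
      · rw [Finset.coe_union]
        refine Set.union_subset (h1.trans (inE_mono fun v hv => ?_))
          (k2.trans (inE_mono fun v hv => ?_))
        · refine ⟨u, by rw [cone_self]; trivial, ?_⟩
          have b1 : dd (π x) (π v) ≤ r := hv
          have b2 := dd_tri u (π x) (π v)
          rw [dd_comm u (π x)] at b2
          omega
        · obtain ⟨s', a1, a2⟩ := hv
          refine ⟨s', geo_mem.2 ?_, a2⟩
          have b1 := geo_mem.1 a1
          have b2 := dd_tri u u' s'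
          have b3 := dd_tri u s' t
          omega
      · refine (Finset.card_union_le _ _).trans ?_
        rw [Nat.mul_succ]
        omega
      · rw [Finset.coe_union, Set.union_subset_iff] at hω
        exact (h3 ω hω.1).trans (k4 ω hω.2)
  refine ⟨R + r, n, fun x t => ?_⟩
  obtain ⟨z, P, k1, k2, k3, k4⟩ := key t _ x (π x) (by rw [dd_self]; omega) rfl
  exact ⟨z, P, by omega, k2, k3, k4⟩

end Vale.Agent.P165
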