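import Vale.Agent.P165.Many
import Vale.Agent.P165.WalkT
import Vale.Agent.P165.PairT
import Vale.Agent.P165.Cfg

open Classical
open scoped ENNReal

namespace Vale.Agent.P165

open Vale.Agent.P151

universe u

variable {V : Type*} {α : Type*} [DecidableEq α]
variable {Γ : SimpleGraph V} {G : Type u} [Group G] [MulAction G V]
variable {ρ : G →* Equiv.Perm (FreeGroup α)} {π : V → FreeGroup α}

lemma Cfg3_path (hG : Geom Γ G) (π : V → FreeGroup α) (u : FreeGroup α) (x y : V) :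
    ∃ (R : ℕ) (P : Finset (Sym2 V)),
    (P : Set (Sym2 V)) ⊆ Γ.edgeSet ∧ (∀ e ∈ P, ∀ v ∈ e, dd u (π v) ≤ R) ∧
      ∀ ω : Set (Sym2 V), (P : Set (Sym2 V)) ⊆ ω → Conn ω x y := by
  obtain ⟨P, hP, hc⟩ := exists_path hG.conn x y
  exact ⟨(P.biUnion Sym2.toFinset).sup fun v => dd u (π v), P, hP, fun e he v hv =>
    Finset.le_sup (f := fun v => dd u (π v))
      (Finset.mem_biUnion.2 ⟨e, he, Sym2.mem_toFinset.2 hv⟩), hc⟩

lemma Cfg3_out {r u a b s : FreeGroup α} (h : r ≠ u) (ha : a ∉ cone r u) (hb : b ∉ cone r u)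
    (hs : b ∈ cone a s) : s ∉ cone r u := by
  intro hs'
  have h1 := cone_cut ha hs'
  have h2 := cone_cut hb hs'
  have h3 : dd a b = dd a s + dd s b := hs
  obtain ⟨q, -, -, e⟩ := cone_half h
  have h4 : dd a q < dd a u := by
    have : a ∈ half u q := e ▸ ha
    exact this
  have h5 : dd b q < dd b u := by
    have : b ∈ half u q := e ▸ hb
    exact this
  have h6 := dd_tri a q b
  have := dd_comm q b
  have := dd_comm s b
  omega

lemma Cfg3_half (hρ : TreeAct ρ) {q u a t : FreeGroup α} (hq : dd q u = 1) {ℓ ℓ' : ℕ} {f : G}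
    (h : Ori ρ q u a t ℓ ℓ' f) {s : FreeGroup α} (hs : s ∈ half q u) :
    ρ f s ∈ cone u (ρ f q) := by
  by_contra k
  have h1 := cone_cut k h.2.2.2.1
  rw [hρ.iso, hρ.iso, hρ.iso] at h1
  have h2 : dd s u < dd s q := hs
  omega

lemma Cfg3_cone (hρ : TreeAct ρ) {q u a t : FreeGroup α} (hq : dd q u = 1) (ha : dd q a = 1)
    (ha' : dd u a = 2) {ℓ ℓ' : ℕ} {f : G}
    (h : Ori ρ q u a t ℓ ℓ' f) {s : FreeGroup α} (hs : s ∈ cone u a) :
    ρ f s ∈ cone u (ρ f q) := by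
  by_contra k
  have h1 := cone_cut k h.2.2.2.1
  have h2 := cone_cut k h.2.2.2.2
  rw [hρ.iso, hρ.iso, hρ.iso] at h1 h2
  have h3 : dd u s = dd u a + dd a s := hs
  have := dd_comm u s
  have := dd_comm a s
  omega

lemma Cfg3_ori {q u a t : FreeGroup α} {ℓ ℓ' : ℕ} {f g : G}
    (e : (ρ f q, ρ f u, ρ f a) = (ρ g q, ρ g u, ρ g a)) (h : Ori ρ q u a t ℓ ℓ' g) :
    Ori ρ q u a t ℓ ℓ' f := by
  simp only [Prod.mk.injEq] at e
  unfold Ori at h ⊢
  rw [e.1, e.2.1, e.2.2]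
  exact h

lemma Cfg3_left (hρ : TreeAct ρ) {q u a t : FreeGroup α} {ℓ ℓ' : ℕ} {n g : G} (h1 : ρ n u = u)
    (h2 : ρ n t = t) (h : Ori ρ q u a t ℓ ℓ' g) : Ori ρ q u a t ℓ ℓ' (n * g) := by
  obtain ⟨a1, a2, a3, a4, a5⟩ := h
  have e : dd u (ρ n (ρ g q)) = dd u (ρ g q) := by
    rw [← hρ.iso n u (ρ g q), h1]
  unfold Ori
  simp only [map_mul, Equiv.Perm.mul_apply]
  refine ⟨?_, e ▸ a2, e ▸ a3, ?_, ?_⟩
  · have := (hρ.cone_smul (g := n)).2 a1
    rwa [h1, h2] at this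
  · have := (hρ.cone_smul (g := n)).2 a4
    rwa [h1] at this
  · have := (hρ.cone_smul (g := n)).2 a5
    rwa [h1] at this

lemma Cfg3_cube [Finite α] {Dg : ℕ} (hD : ∀ (r : FreeGroup α) (n : ℕ),
    (ball_fin r n).toFinset.card ≤ Dg ^ n) (r : FreeGroup α) (n : ℕ) :
    ((ball_fin r n).toFinset ×ˢ (ball_fin r n).toFinset ×ˢ (ball_fin r n).toFinset).card
      ≤ Dg ^ (3 * n) := by
  rw [Finset.card_product, Finset.card_product, show 3 * n = n + (n + n) by ring, pow_add, pow_add]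
  exact Nat.mul_le_mul (hD r n) (Nat.mul_le_mul (hD r n) (hD r n))

/-- the corridor -/
lemma Cfg3_corr (hs : Tj Γ ρ π) {r n₀ : ℕ} (hw : ∀ (x : V) (t : FreeGroup α),
    ∃ (z : V) (P : Finset (Sym2 V)), dd (π z) t ≤ r ∧
      (P : Set (Sym2 V)) ⊆ inE Γ (π ⁻¹' {s | ∃ s', t ∈ cone (π x) s' ∧ dd s' s ≤ r}) ∧
      P.card ≤ n₀ * dd (π x) t ∧
      ∀ ω : Set (Sym2 V), (P : Set (Sym2 V)) ⊆ ω → Conn ω x z)
    {q u a c t : FreeGroup α} (hq : dd q u = 1) {W : Finset V}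
    (hW : ∀ w, dd (π w) u ≤ 2 * r + 2 → ∃ w₀ ∈ W, ∃ n ∈ fx ρ [u, q, a], w = n • w₀)
    (ht : t ∈ cone u c) (dt : dd u t = dd u c + 2 * r) {z : V} (hz : dd (π z) t ≤ r)
    {ℓ ℓ' : ℕ} (hℓ : dd u t + 2 * r + 1 ≤ ℓ) {g : G} (h : Ori ρ q u a t ℓ ℓ' g) :
    ∃ (f : G) (P : Finset (Sym2 V)) (w₀ : V), (ρ f q, ρ f u, ρ f a) = (ρ g q, ρ g u, ρ g a) ∧
      w₀ ∈ W ∧ (P : Set (Sym2 V)) ⊆ Γ.edgeSet ∧
      (∀ e ∈ P, ∀ v ∈ e, π v ∈ cone u c ∧ π v ∉ cone u (ρ g q)) ∧ P.card ≤ n₀ * (ℓ + ℓ') ∧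
      ∀ ω : Set (Sym2 V), (P : Set (Sym2 V)) ⊆ ω → Conn ω z (f • w₀) := by
  obtain ⟨a1, a2, a3, -, -⟩ := h
  obtain ⟨s, ds, hs1⟩ := exists_pre u (ρ g q) (j := dd u (ρ g q) - (r + 1)) (by omega)
  obtain ⟨s₁, ds₁, hs₁⟩ := exists_pre u (ρ g q) (j := dd u (ρ g q) - r) (by omega)
  obtain ⟨c', dc', hc'⟩ := exists_pre u t (j := dd u c + r) (by omega)
  have k1 : c' ∈ cone u c := cone_nest ht hc' (by omega)
  have k2 : dd u c' = dd u c + dd c c' := k1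
  have k3 : dd u t = dd u c' + dd c' t := hc'
  have k4 : π z ∈ cone u c' :=
    CfgT_ball (ρ := r) hc' (self_mem_cone u t) (by omega) (by rwa [dd_comm])
  have k5 : s ∈ cone u c' := cone_trans hc' (cone_nest a1 hs1 (by omega))
  have k6 : dd u (ρ g q) = dd u s + dd s (ρ g q) := hs1
  have k7 : dd u (ρ g q) = dd u s₁ + dd s₁ (ρ g q) := hs₁
  have k8 := dd_tri u t (π z)
  have k9 := dd_comm t (π z)
  obtain ⟨x, P, b1, b2, b3, b4⟩ := hw z s
  obtain ⟨w₀, hw₀, ν, hν, e⟩ := hW (g⁻¹ • x) (by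
    rw [← hs.act.iso g, ← hs.eqv, smul_inv_smul]
    have e1 := dd_tri (π x) s (ρ g u)
    have e2 := dd_tri s (ρ g q) (ρ g u)
    rw [hs.act.iso] at e2
    omega)
  refine ⟨g * ν, P, w₀, ?_, hw₀, fun e he => (b2 he).1, fun e he v hv => ?_, ?_, fun ω hω => ?_⟩
  · simp only [map_mul, Equiv.Perm.mul_apply]
    rw [hν u (by simp), hν q (by simp), hν a (by simp)]
  · obtain ⟨s', c1, c2⟩ := (b2 he).2 v hv
    refine ⟨CfgT_ball k1 (CfgT_geo k4 k5 c1) (by omega) c2, fun k => ?_⟩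
    refine Cfg3_out (r := u) (u := s₁) (fun e => ?_) (fun k' => ?_) (fun k' => ?_) c1
      (CfgT_ball (ρ := r) hs₁ k (by omega) (by rwa [dd_comm]))
    · rw [← e, dd_self] at ds₁; omega
    · have : dd u (π z) = dd u s₁ + dd s₁ (π z) := k'
      omega
    · have : dd u s = dd u s₁ + dd s₁ s := k'
      omega
  · refine b3.trans (Nat.mul_le_mul_left _ ?_)
    have e1 := dd_tri (π z) u s
    have := dd_comm u (π z)
    omega
  · rw [mul_smul, ← e, smul_inv_smul]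
    exact b4 ω hω

theorem Tj.cfg [Finite α] [Nontrivial α] (hs : Tj Γ ρ π) {q u : FreeGroup α} (hq : dd q u = 1)
    (w : V) : ∃ l : List (FreeGroup α), ∀ w' : V, ∃ n b Dg : ℕ, 1 ≤ Dg ∧ ∀ k : ℕ, ∃ c : Cg V G,
      c.Fine Γ ∧ c.N = fx ρ (u :: q :: l) ∧ (∀ n ∈ c.C, ρ n u = u) ∧
      c.A = π ⁻¹' half q u ∧ c.w = w ∧ c.w' = w' ∧ 4 ^ k ≤ c.I.card ∧
      c.I.card ≤ Dg ^ (n * (k + 1)) ∧ c.D ≤ b ∧ c.R.card ≤ b ∧ c.Q1.card + c.Q2.card ≤ b ∧
      ∀ f ∈ c.I, (c.Pa f).card ≤ n * (k + 1) ∧ (c.Pb f).card ≤ b := by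
  have hρ := hs.act
  have hqu : dd u q = 1 := by rw [dd_comm, hq]
  obtain ⟨r, n₀, hw⟩ := hs.walk
  obtain ⟨a, ha, da, -⟩ := branch u q u
  have da2 : dd u a = 2 := by omega
  have da1 : dd q a = 1 := by
    have : dd u a = dd u q + dd q a := ha
    omega
  obtain ⟨W, -, hW⟩ := hs.near_orb u [q, a] (2 * r + 2)
  choose Rp Pp hp1 hp2 hp3 using fun w₀ => Cfg3_path hs.geom π u w₀ w
  set R₁ := W.sup Rp with hR₁
  obtain ⟨c, hc, dc⟩ := exists_far u a (R₁ + 1)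
  obtain ⟨t, ht, dt⟩ := exists_far u c (2 * r)
  obtain ⟨z, -, hz, -⟩ := hw w t
  refine ⟨[a, c, t], fun w' => ?_⟩
  obtain ⟨R, Q, hQ, hQR, hQc⟩ := Cfg3_path hs.geom π u w' z
  obtain ⟨n₁, hmany⟩ := hρ.many hq ha da2 t
  obtain ⟨Dg, hDg, hD⟩ := ball_exp (α := α)
  obtain ⟨Rc, hRc⟩ := hρ.fx_cos u [u, q, a, c, t]
  set ℓ := dd u t + 2 * r + 2 * (R₁ + R) + 3 with hℓ
  refine ⟨(n₀ + 3) * (2 * ℓ + n₁ + 4),
    Q.card + W.sup (fun x => (Pp x).card) + Rc.card + Dg ^ (3 * (n₁ + 1)), Dg, hDg, fun k => ?_⟩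
  obtain ⟨J, hJ, hJ1, hJ2⟩ := hmany ℓ (2 * k) (by omega)
  let O : G → Prop := Ori ρ q u a t (ℓ + 2 * k) (ℓ + 2 * k + n₁)
  let τ : G → FreeGroup α × FreeGroup α × FreeGroup α := fun g => (ρ g q, ρ g u, ρ g a)
  have hex : ∀ e : FreeGroup α × FreeGroup α × FreeGroup α,
      ∃ (f : G) (P : Finset (Sym2 V)) (w₀ : V), (∃ g, O g ∧ τ g = e) → τ f = e ∧
      w₀ ∈ W ∧ (P : Set (Sym2 V)) ⊆ Γ.edgeSet ∧
      (∀ e' ∈ P, ∀ v ∈ e', π v ∈ cone u c ∧ π v ∉ cone u e.1) ∧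
      P.card ≤ n₀ * (ℓ + 2 * k + (ℓ + 2 * k + n₁)) ∧
      ∀ ω : Set (Sym2 V), (P : Set (Sym2 V)) ⊆ ω → Conn ω z (f • w₀) := by
    intro e
    by_cases h : ∃ g, O g ∧ τ g = e
    · obtain ⟨g, hg, rfl⟩ := h
      obtain ⟨f, P, w₀, h⟩ := Cfg3_corr hs hw hq hW ht dt hz (by omega) hg
      exact ⟨f, P, w₀, fun _ => h⟩
    · exact ⟨1, ∅, w, fun h' => absurd h' h⟩
  choose rep PP w0 hrep using hex
  have hcube : ∀ (x : FreeGroup α) (m : ℕ) (g : G), dd x (ρ g q) ≤ m → τ g ∈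
      (ball_fin x (m + 1)).toFinset ×ˢ (ball_fin x (m + 1)).toFinset ×ˢ
        (ball_fin x (m + 1)).toFinset := by
    intro x m g h
    have e1 := dd_tri x (ρ g q) (ρ g u)
    have e2 := dd_tri x (ρ g q) (ρ g a)
    rw [hρ.iso] at e1 e2
    simp only [Finset.mem_product, Set.Finite.mem_toFinset, Set.mem_setOf_eq, τ]
    omega
  let Ω := ((ball_fin u (ℓ + 2 * k + n₁ + 1)).toFinset ×ˢ (ball_fin u (ℓ + 2 * k + n₁ + 1)).toFinset
    ×ˢ (ball_fin u (ℓ + 2 * k + n₁ + 1)).toFinset).filter fun e => ∃ g, O g ∧ τ g = e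
  have hΩ : ∀ g, O g → τ g ∈ Ω := fun g hg =>
    Finset.mem_filter.2 ⟨hcube u _ g hg.2.2.1, g, hg, rfl⟩
  have hI : ∀ f ∈ Ω.image rep, O f ∧ rep (τ f) = f := by
    intro f hf
    obtain ⟨e, he, rfl⟩ := Finset.mem_image.1 hf
    obtain ⟨g, hg, rfl⟩ := (Finset.mem_filter.1 he).2
    have := (hrep _ ⟨g, hg, rfl⟩).1
    exact ⟨Cfg3_ori this hg, by rw [this]⟩
  have hI' : ∀ f ∈ Ω.image rep, ∃ g, O g ∧ τ g = τ f := fun f hf => ⟨f, (hI f hf).1, rfl⟩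
  have hN : ∀ n ∈ fx ρ [u, q, a, c, t], ρ n u = u ∧ ρ n q = q ∧ ρ n a = a ∧ ρ n c = c ∧
      ρ n t = t := fun n hn =>
    ⟨hn u (by simp), hn q (by simp), hn a (by simp), hn c (by simp), hn t (by simp)⟩
  have hperm : ∀ n ∈ fx ρ [u, q, a, c, t], ∀ f ∈ Ω.image rep,
      rep (τ (n⁻¹ * f)) ∈ Ω.image rep ∧ τ (n * rep (τ (n⁻¹ * f))) = τ f := by
    intro n hn f hf
    have h1 := hN _ (inv_mem hn)
    have h2 : O (n⁻¹ * f) := Cfg3_left hρ h1.1 h1.2.2.2.2 (hI f hf).1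
    refine ⟨Finset.mem_image_of_mem _ (hΩ _ h2), ?_⟩
    have h3 := (hrep _ ⟨_, h2, rfl⟩).1
    simp only [τ, Prod.mk.injEq, map_mul, Equiv.Perm.mul_apply] at h3 ⊢
    rw [h3.1, h3.2.1, h3.2.2]
    simp
  have hdeep : ∀ f, O f → ∀ s ∈ cone u (ρ f q), s ∈ cone u c ∧ R₁ + R < dd u s := by
    intro f hf s h
    have e1 : dd u s = dd u (ρ f q) + dd (ρ f q) s := h
    have e2 := hf.2.1
    exact ⟨cone_trans ht (cone_trans hf.1 h), by omega⟩
  have hsh : ∀ (f : G) (X : Set (FreeGroup α)) (v : V), v ∈ sh f (π ⁻¹' X) →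
      ∃ s ∈ X, π v = ρ f s := fun f X v h =>
    ⟨π (f⁻¹ • v), h, by rw [← hs.eqv, smul_inv_smul]⟩
  have hshA : ∀ f, O f → ∀ v ∈ sh f (π ⁻¹' half q u), π v ∈ cone u (ρ f q) := by
    intro f hf v h
    obtain ⟨s, h1, h2⟩ := hsh f _ v h
    rw [h2]
    exact Cfg3_half hρ hq hf h1
  have hshB : ∀ f, O f → ∀ v ∈ sh f (π ⁻¹' cone u c), π v ∈ cone u (ρ f q) := by
    intro f hf v h
    obtain ⟨s, h1, h2⟩ := hsh f _ v h
    rw [h2]
    exact Cfg3_cone hρ hq da1 da2 hf (cone_trans hc h1)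
  have hv : ∀ e : Sym2 V, ∃ v, v ∈ e := fun e => ⟨e.out.1, Sym2.out_fst_mem e⟩
  have hB' : ∀ f, O f → ∀ n ∈ fx ρ [u, q, a, c, t], ∀ e ∈ Γ.edgeSet,
      (∀ v ∈ e, dd u (π v) ≤ R₁ + R) → e.map ((f * n) • ·) ∈ inE Γ (π ⁻¹' cone u c) := by
    intro f hf n hn e he h
    refine (iv_map_mem_inE hs.geom _ (f * n) e).2 ⟨he, fun v hv => ?_⟩
    change π ((f * n) • v) ∈ cone u c
    have e0 := cone_trans ht hf.1
    have e1 : dd u (ρ f q) = dd u c + dd c (ρ f q) := e0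
    have e2 := hf.2.1
    refine CfgT_ball (ρ := R₁ + R + 1) e0 (self_mem_cone u _) (by omega) ?_
    rw [mul_smul, hs.eqv, hρ.iso, hs.eqv, ← (hN n hn).2.1, hρ.iso]
    have := dd_tri q u (π v)
    have := h v hv
    omega
  have hRp : ∀ x ∈ W, Rp x ≤ R₁ := fun x hx => Finset.le_sup (f := Rp) hx
  refine ⟨⟨⟨fx ρ [u, q, a, c, t], π ⁻¹' half q u, π ⁻¹' cone u c, w, w', z,
    Q.filter fun e => ¬ e ∈ inE Γ (π ⁻¹' cone u c), Q.filter fun e => e ∈ inE Γ (π ⁻¹' cone u c),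
    Ω.image rep, fun f => PP (τ f), fun f => (Pp (w0 (τ f))).image (Sym2.map (f • ·))⟩,
    fx ρ [u, q, a], fun n f => rep (τ (n⁻¹ * f)), Rc, Dg ^ (3 * (n₁ + 1))⟩,
    ⟨fun n hn x hx => hn x (by simp at hx ⊢; tauto), fun n hn v => ?_, fun n hn v => ?_,
      Set.disjoint_left.2 fun v h1 h2 => ?_, ?_, fun e he => hQ (Finset.mem_filter.1 he).1,
      Set.disjoint_left.2 fun e he => (Finset.mem_filter.1 he).2,
      fun e he => (Finset.mem_filter.1 he).2, fun ω k1 k2 => hQc ω fun e he => ?_,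
      fun f hf v h => (hdeep f (hI f hf).1 _ (hshA f (hI f hf).1 v h)).1,
      fun f hf v h => (hdeep f (hI f hf).1 _ (hshB f (hI f hf).1 v h)).1, fun f hf n hn => ?_,
      fun f hf => Set.disjoint_left.2 fun e he h => ?_,
      fun f hf e he => ⟨(hrep _ (hI' f hf)).2.2.1 he,
        fun v hv => ((hrep _ (hI' f hf)).2.2.2.1 e he v hv).1⟩,
      fun f hf => Set.disjoint_left.2 fun e he h => ?_,
      fun f hf => Set.disjoint_left.2 fun e he h => ?_, fun f hf e he => ?_,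
      fun f hf => Set.disjoint_left.2 fun e he h => ?_, fun f hf ω k1 k2 => ?_,
      fun n hn f hf => ⟨(hperm n hn f hf).1, ?_⟩, fun ν hν => hRc ν (hν u (by simp)),
      fun m hm y => ?_⟩,
    rfl, fun n hn => hn u (by simp), rfl, rfl, rfl, ?_, ?_, ?_, ?_, ?_, fun f hf => ⟨?_, ?_⟩⟩
  · change π (n • v) ∈ half q u ↔ π v ∈ half q u
    rw [hs.eqv, ← hρ.half_smul (g := n) (s := q) (t := u) (v := π v), hn q (by simp),
      hn u (by simp)]
  · change π (n • v) ∈ cone u c ↔ π v ∈ cone u c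
    rw [hs.eqv, ← hρ.cone_smul (g := n) (s := u) (t := c) (v := π v), hn c (by simp),
      hn u (by simp)]
  · have e1 : dd u (π v) = dd u q + dd q (π v) := cone_trans ha (cone_trans hc h2)
    have e2 : dd (π v) u < dd (π v) q := h1
    have := dd_comm u (π v)
    have := dd_comm q (π v)
    omega
  · change π z ∈ cone u c
    have e1 : dd u t = dd u c + dd c t := ht
    exact CfgT_ball (ρ := r) ht (self_mem_cone u t) (by omega) (by rwa [dd_comm])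
  · by_cases h : e ∈ inE Γ (π ⁻¹' cone u c)
    · exact k2 (Finset.mem_coe.2 (Finset.mem_filter.2 ⟨he, h⟩))
    · exact k1 (Finset.mem_coe.2 (Finset.mem_filter.2 ⟨he, h⟩))
  · rintro _ ⟨e, he, rfl⟩
    have he' := (Finset.mem_filter.1 he).1
    exact hB' f (hI f hf).1 n hn e (hQ he') fun v hv => (hQR e he' v hv).trans (by omega)
  · obtain ⟨v, hv⟩ := hv e
    have k1 := (hdeep f (hI f hf).1 _ (hshB f (hI f hf).1 v (h.2 v hv))).2
    have k2 := hQR e (Finset.mem_filter.1 he).1 v hv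
    omega
  · obtain ⟨v, hv⟩ := hv e
    exact ((hrep _ (hI' f hf)).2.2.2.1 e he v hv).2 (hshA f (hI f hf).1 v (h.2 v hv))
  · obtain ⟨v, hv⟩ := hv e
    exact ((hrep _ (hI' f hf)).2.2.2.1 e he v hv).2 (hshB f (hI f hf).1 v (h.2 v hv))
  · obtain ⟨e', he', rfl⟩ := Finset.mem_image.1 he
    have := hB' f (hI f hf).1 1 (one_mem _) e' (hp1 _ he') fun v hv =>
      (hp2 _ e' he' v hv).trans ((hRp _ (hrep _ (hI' f hf)).2.1).trans (by omega))
    rwa [mul_one] at this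
  · obtain ⟨e', he', rfl⟩ := Finset.mem_image.1 he
    obtain ⟨v, hv⟩ := hv e'
    have k1 : dd u (π v) = dd u c + dd c (π v) := ((trb_mem hs.geom f _ e').1 h).2 v hv
    have k2 := (hp2 _ e' he' v hv).trans (hRp _ (hrep _ (hI' f hf)).2.1)
    omega
  · have k3 := tr_conn f (hp3 (w0 (τ f))) ω (by rwa [tr_eq_image])
    have k4 := (hrep _ (hI' f hf)).2.2.2.2.2 ω k1
    rw [(hI f hf).2] at k4
    exact k4.trans k3
  · have k1 := (hperm n hn f hf).2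
    simp only [τ, Prod.mk.injEq] at k1
    intro x hx
    rw [mul_assoc, map_mul, Equiv.Perm.mul_apply, map_inv, Equiv.Perm.inv_eq_iff_eq]
    simp only [List.mem_cons, List.not_mem_nil, or_false] at hx
    rcases hx with rfl | rfl | rfl
    · exact k1.2.1
    · exact k1.1
    · exact k1.2.2
  · by_cases hy : ℓ + 2 * k ≤ dd u (π y)
    · obtain ⟨x, dx, hx⟩ := exists_pre u (π y) hy
      refine le_trans (Finset.card_le_card_of_injOn τ (fun f hf => ?_) fun f hf f' hf' e => ?_)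
        (Cfg3_cube hD x (n₁ + 1))
      · obtain ⟨h1, h2⟩ := Finset.mem_filter.1 hf
        have k1 := (hperm _ (hm f h1) f h1).2
        have k2 := hshB _ (Cfg3_ori k1 (hI f h1).1) y h2
        have k3 : ρ (m f * rep (τ ((m f)⁻¹ * f))) q = ρ f q := congrArg Prod.fst k1
        rw [k3] at k2
        have k4 := (hI f h1).1.2.1
        have k5 := (hI f h1).1.2.2.1
        have k6 : dd u (ρ f q) = dd u x + dd x (ρ f q) := cone_nest hx k2 (by omega)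
        exact hcube x n₁ f (by omega)
      · rw [← (hI f (Finset.mem_filter.1 hf).1).2, ← (hI f' (Finset.mem_filter.1 hf').1).2, e]
    · refine le_trans (le_of_eq (Finset.card_eq_zero.2 (Finset.filter_eq_empty_iff.2
        fun f h1 h2 => ?_))) (Nat.zero_le _)
      have k1 := (hperm _ (hm f h1) f h1).2
      have k0 := Cfg3_ori k1 (hI f h1).1
      have k2 : dd u (π y) = _ := hshB _ k0 y h2
      have k4 := k0.2.1
      omega
  · change 4 ^ k ≤ (Ω.image rep).card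
    rw [show 4 ^ k = 2 ^ (2 * k) by rw [pow_mul]; rfl]
    refine hJ.trans (Finset.card_le_card_of_injOn (fun g => rep (τ g))
      (fun g hg => Finset.mem_image_of_mem _ (hΩ g (hJ1 g hg))) fun g hg g' hg' e => ?_)
    refine hJ2 g hg g' hg' ?_
    have k1 := (hrep _ ⟨g, hJ1 g hg, rfl⟩).1
    have k2 := (hrep _ ⟨g', hJ1 g' hg', rfl⟩).1
    have e' : rep (τ g) = rep (τ g') := e
    rw [e', k2] at k1
    exact (congrArg Prod.fst k1).symm
  · change (Ω.image rep).card ≤ _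
    refine Finset.card_image_le.trans ((Finset.card_filter_le _ _).trans
      ((Cfg3_cube hD u _).trans (Nat.pow_le_pow_right hDg ?_)))
    nlinarith [Nat.zero_le (n₀ * (2 * ℓ + n₁ + 4) * (k + 1)), Nat.zero_le (ℓ * k),
      Nat.zero_le (n₁ * k)]
  · exact Nat.le_add_left _ _
  · change Rc.card ≤ _
    omega
  · change (Q.filter _).card + (Q.filter _).card ≤ _
    rw [add_comm, Finset.card_filter_add_card_filter_not]
    omega
  · refine (hrep _ (hI' f hf)).2.2.2.2.1.trans ?_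
    rw [mul_assoc]
    refine Nat.mul_le_mul (by omega) ?_
    nlinarith [Nat.zero_le (ℓ * k), Nat.zero_le (n₁ * k)]
  · have k1 : (Pp (w0 (τ f))).card ≤ W.sup fun x => (Pp x).card :=
      Finset.le_sup (f := fun x => (Pp x).card) (hrep _ (hI' f hf)).2.1
    refine Finset.card_image_le.trans ?_
    omega

end Vale.Agent.P165
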