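import Vale.Agent.P165.AbsA

open Classical
open scoped ENNReal

namespace Vale.Agent.P165

open Vale.Agent.P151

universe u

variable {V : Type*} {α : Type*} [DecidableEq α]

lemma Kap_pigeon {n : ℕ} (hn : 0 < n) (a : ℕ → ℝ≥0∞) {c : ℝ≥0∞}
    (h : ∑ j ∈ Finset.range n, a j ≤ c) : ∃ j < n, n * a j ≤ c := by
  obtain ⟨j, hj, hm⟩ := Finset.exists_min_image (Finset.range n) a (Finset.nonempty_range_iff.2 hn.ne')
  refine ⟨j, Finset.mem_range.1 hj, le_trans ?_ h⟩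
  have := Finset.card_nsmul_le_sum (Finset.range n) a (a j) hm
  rwa [Finset.card_range, nsmul_eq_mul] at this

lemma Kap_ne {r u : FreeGroup α} {j : ℕ} (h : dd r u = j + 1) : r ≠ u := fun e => by
  rw [dd_eq_zero.2 e] at h
  omega

section
variable {Γ : SimpleGraph V} {π : V → FreeGroup α} {τ : Set (FreeGroup α) → V → V → ℝ≥0∞}
  {L Δ : ℕ} {K : ℕ → ℝ≥0∞}

lemma Kap_low (h : Ker Γ π τ L Δ K) {x b : V} {p s r' u' : FreeGroup α} (h1 : π x ≠ s)
    (h2 : s ∈ cone (π x) p) (h3 : dd p s = 1) (h4 : r' ≠ u') (h5 : dd (π b) u' ≤ L + 1)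
    (h6 : π b ∉ cone r' u') :
    ee π τ L x p * ∑' y, τ (cone r' u')ᶜ b y ≤ K (L + 1) * nu π τ x s := by
  refine le_trans ?_ (h.low (L + 1) (π x) s r' u' x b (cone (π x) p)ᶜ h1 h4
    (Set.disjoint_left.2 fun v hv hv' => hv (cone_trans h2 hv')) h5 h6)
  refine mul_le_mul_left (ENNReal.tsum_le_tsum fun w => mul_le_mul_left (ii_mono fun hw => ?_) _) _
  have := dd_tri (π w) p s
  omega

lemma Kap_step (h : Ker Γ π τ L Δ K) {x : V} {p p' s : FreeGroup α} (h0 : π x ≠ p) (h1 : π x ≠ s)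
    (h2 : s ∈ cone (π x) p) (h3 : dd p s = 1) (h4 : π x ≠ p') (h5 : dd p p' = 1)
    (h6 : p' ∈ cone (π x) p) :
    ∑' y, τ (cone (π x) p')ᶜ x y ≤ ∑' y, τ (cone (π x) p)ᶜ x y + Δ * (K (L + 1) * nu π τ x s) := by
  have hc := h.cross h0 (R := (cone (π x) p')ᶜ) (fun v hv hv' => hv (cone_trans h6 hv'))
    (fun _ => 1) (M := ⨆ b, ⨆ (_ : π b ∉ cone (π x) p' ∧ dd p (π b) ≤ L),
      ∑' y, τ (cone (π x) p')ᶜ b y) fun b _ hb hb' => by
        simp only [one_mul]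
        exact le_iSup₂_of_le b ⟨hb, hb'⟩ le_rfl
  simp only [one_mul] at hc
  refine hc.trans (add_le_add le_rfl ?_)
  rw [mul_assoc]
  refine mul_le_mul_right ?_ _
  rw [ENNReal.mul_iSup]
  refine iSup_le fun b => ?_
  rw [ENNReal.mul_iSup]
  refine iSup_le fun hb => Kap_low h h1 h2 h3 h4 ?_ hb.1
  have := dd_tri (π b) p p'
  have := dd_comm (π b) p
  have := hb.2
  omega

lemma Kap_main [Nontrivial α] (h : Ker Γ π τ L Δ K) (hK : K (L + 1) ≠ ⊤) {J : ℕ} (hJ0 : 0 < J)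
    (hJ : 4 * (Δ * K (L + 1)) ≤ J) (x : V) : ∃ u, π x ≠ u ∧ dd (π x) u ≤ J ∧
      2 * ∑' y, τ Set.univ x y ≤ 4 * ∑' y, τ (cone (π x) u)ᶜ x y := by
  set χ := ∑' y, τ Set.univ x y with hχ
  set χs := ⨆ x, ∑' y, τ Set.univ x y with hχs
  have hle : χ ≤ χs := le_iSup (fun x => ∑' y, τ Set.univ x y) x
  have hfin : χ ≠ ⊤ := ne_top_of_le_ne_top h.fin hle
  have hnu : ∀ u, nu π τ x u ≤ χ := fun u => ENNReal.tsum_le_tsum fun y =>
    mul_le_of_le_one_left' (ii_le_one _)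
  obtain ⟨v, -, hv⟩ := exists_far (π x) (π x) J
  rw [dd_self, zero_add] at hv
  obtain ⟨pre, sd, -, s2, -, s4⟩ := side (π x) v
  rw [hv] at s2 s4
  have hdis : ∀ (c : ℕ → FreeGroup α) (a n : ℕ), (∀ i j, i < j → j < a + n →
      Disjoint (cone (π x) (c i)) (cone (π x) (c j))) → ∀ i ∈ Finset.range n,
      ∀ j ∈ Finset.range n, i ≠ j →
      Disjoint (cone (π x) (c (a + i))) (cone (π x) (c (a + j))) := fun c a n hc i hi j hj hij => by
    have := Finset.mem_range.1 hi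
    have := Finset.mem_range.1 hj
    rcases lt_or_gt_of_ne hij with h1 | h1
    · exact hc _ _ (by omega) (by omega)
    · exact (hc _ _ (by omega) (by omega)).symm
  obtain ⟨j0, hj0, hj0'⟩ := Kap_pigeon hJ0 (fun j => nu π τ x (sd (0 + j)))
    ((nu_sum (Finset.range J) x (π x) (fun j => sd (0 + j))
      (fun i _ => by rw [cone_self]; exact Set.subset_univ _)
      (hdis sd 0 J (by rwa [zero_add]))).trans (hnu _))
  rw [zero_add] at hj0'
  have hu := (s2 j0 hj0).1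
  refine ⟨sd j0, Kap_ne hu, by omega, ?_⟩
  generalize sd j0 = u at hu hj0'
  obtain ⟨n, hn⟩ := ENNReal.exists_nat_gt (r := 4 * (Δ * K (L + 1) * χs))
    (ENNReal.mul_ne_top (by simp) (ENNReal.mul_ne_top (ENNReal.mul_ne_top (by simp) hK) h.fin))
  have hn0 : 0 < n := by
    have : (0 : ℝ≥0∞) < n := lt_of_le_of_lt zero_le hn
    exact_mod_cast this
  obtain ⟨v', hv1, hv2⟩ := exists_far (π x) u n
  obtain ⟨pr, sb, t1, t2, t3, t4⟩ := side (π x) v'
  rw [hv2, hu] at t1 t2 t3 t4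
  have hpu : pr (j0 + 1) = u :=
    cone_uniq (t1 (j0 + 1) (by omega)).2 hv1 ((t1 (j0 + 1) (by omega)).1.trans hu.symm)
  have hsum : ∀ m ≤ n, ∑ j ∈ Finset.range m, nu π τ x (sb (j0 + 1 + j)) ≤ nu π τ x u :=
    fun m hm => nu_sum (Finset.range m) x u (fun j => sb (j0 + 1 + j))
      (fun i hi => by
        have := Finset.mem_range.1 hi
        rw [← hpu]
        exact t3 _ _ (by omega) (by omega))
      (hdis sb (j0 + 1) m fun i j h1 h2 => t4 i j h1 (by omega))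
  have hind : ∀ m ≤ n, ∑' y, τ (cone (π x) (pr (j0 + 1 + m)))ᶜ x y ≤
      ∑' y, τ (cone (π x) u)ᶜ x y +
        Δ * K (L + 1) * ∑ j ∈ Finset.range m, nu π τ x (sb (j0 + 1 + j)) := by
    intro m
    induction m with
    | zero => intro _; rw [add_zero, hpu]; exact le_self_add
    | succ m ih =>
      intro hm
      obtain ⟨a1, a2, a3, a4, a5⟩ := t2 (j0 + 1 + m) (by omega)
      have h0 : dd (π x) (pr (j0 + 1 + m)) = j0 + m + 1 := by
        rw [(t1 _ (by omega)).1]; omega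
      refine (Kap_step h (Kap_ne h0) (Kap_ne a1) a2 a3 (Kap_ne (t1 (j0 + 1 + m + 1) (by omega)).1)
        a4 a5).trans ?_
      rw [Finset.sum_range_succ, mul_add, ← add_assoc, ← mul_assoc]
      exact add_le_add (ih (by omega)) le_rfl
  obtain ⟨m, hm, hm'⟩ := Kap_pigeon hn0 (fun j => nu π τ x (sb (j0 + 1 + j)))
    ((hsum n le_rfl).trans (hnu u))
  obtain ⟨a1, a2, a3, -, -⟩ := t2 (j0 + 1 + m) (by omega)
  have h0 : dd (π x) (pr (j0 + 1 + m)) = j0 + m + 1 := by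
    rw [(t1 _ (by omega)).1]; omega
  obtain ⟨w, -, hw⟩ := exists_far (π x) (π x) 1
  rw [dd_self] at hw
  have he : ee π τ L x (pr (j0 + 1 + m)) ≤ K (L + 1) * nu π τ x (sb (j0 + 1 + m)) := by
    refine le_trans ?_ (Kap_low h (b := x) (Kap_ne a1) a2 a3 (Kap_ne hw) (by omega)
      (root_not_mem_cone (Kap_ne hw)))
    exact le_mul_of_one_le_right' ((h.one _ x).trans (ENNReal.le_tsum x))
  have hc := h.cross (Kap_ne h0) (R := Set.univ) (Set.subset_univ _) (fun _ => 1) (M := χs)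
    fun b _ _ _ => by
      simp only [one_mul]
      exact le_iSup (fun x => ∑' y, τ Set.univ x y) b
  simp only [one_mul] at hc
  have q1 : 4 * (Δ * K (L + 1) * ∑ j ∈ Finset.range m, nu π τ x (sb (j0 + 1 + j))) ≤ χ := by
    rw [← mul_assoc]
    exact (mul_le_mul' hJ (hsum m hm.le)).trans hj0'
  have q2 : 4 * (Δ * ee π τ L x (pr (j0 + 1 + m)) * χs) ≤ χ := by
    calc _ ≤ 4 * (Δ * (K (L + 1) * nu π τ x (sb (j0 + 1 + m))) * χs) := by gcongr
      _ = 4 * (Δ * K (L + 1) * χs) * nu π τ x (sb (j0 + 1 + m)) := by ring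
      _ ≤ n * nu π τ x (sb (j0 + 1 + m)) := by gcongr
      _ ≤ χ := hm'
  have h4 : 2 * χ + 2 * χ ≤ 4 * ∑' y, τ (cone (π x) u)ᶜ x y + 2 * χ := by
    calc 2 * χ + 2 * χ = 4 * χ := by ring
      _ ≤ 4 * (∑' y, τ (cone (π x) u)ᶜ x y +
          Δ * K (L + 1) * ∑ j ∈ Finset.range m, nu π τ x (sb (j0 + 1 + j)) +
          Δ * ee π τ L x (pr (j0 + 1 + m)) * χs) :=
          mul_le_mul_right (hc.trans (add_le_add (hind m hm.le) le_rfl)) _
      _ ≤ 4 * ∑' y, τ (cone (π x) u)ᶜ x y + χ + χ := by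
          rw [mul_add, mul_add]
          exact add_le_add (add_le_add le_rfl q1) q2
      _ = _ := by ring
  exact (ENNReal.add_le_add_iff_right (ENNReal.mul_ne_top (by simp) hfin)).1 h4

end

/-- half-trees carry a positive fraction of the susceptibility -/
theorem kap [Nontrivial α] (Γ : SimpleGraph V) (π : V → FreeGroup α) (L Δ : ℕ) (K : ℕ → ℝ≥0∞)
    (hK : ∀ d, K d ≠ ⊤) : ∃ J : ℕ, ∀ τ : Set (FreeGroup α) → V → V → ℝ≥0∞, Ker Γ π τ L Δ K →
      ∀ d, J ≤ d → ∀ (x : V) (u : FreeGroup α) (R : Set (FreeGroup α)), π x ≠ u →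
        Disjoint R (cone (π x) u) →
        (∑' w, ii (dd (π w) u ≤ d) * τ R x w) * (⨆ x, ∑' y, τ Set.univ x y)
          ≤ 4 * K d * nu π τ x u := by
  obtain ⟨J, hJ⟩ := ENNReal.exists_nat_gt (r := 4 * (Δ * K (L + 1)))
    (ENNReal.mul_ne_top (by simp) (ENNReal.mul_ne_top (by simp) (hK _)))
  have hJ0 : 0 < J := by
    have : (0 : ℝ≥0∞) < J := lt_of_le_of_lt zero_le hJ
    exact_mod_cast this
  refine ⟨J, fun τ h d hd x u R hx hR => ?_⟩
  have h1 : (1 : ℝ≥0∞) ≤ ⨆ x, ∑' y, τ Set.univ x y :=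
    le_iSup_of_le x ((h.one _ x).trans (ENNReal.le_tsum x))
  obtain ⟨x', hx'⟩ := lt_iSup_iff.1 (ENNReal.half_lt_self (zero_lt_one.trans_le h1).ne' h.fin)
  obtain ⟨u', h2, h3, h4⟩ := Kap_main h (hK _) hJ0 hJ.le x'
  have h5 : (⨆ x, ∑' y, τ Set.univ x y) ≤ 4 * ∑' y, τ (cone (π x') u')ᶜ x' y := by
    refine le_trans ?_ h4
    rw [← ENNReal.add_halves (⨆ x, ∑' y, τ Set.univ x y), two_mul]
    exact add_le_add hx'.le hx'.le
  have h6 := h.low d (π x) u (π x') u' x x' R hx h2 hR (h3.trans hd) (root_not_mem_cone h2)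
  calc _ ≤ (∑' w, ii (dd (π w) u ≤ d) * τ R x w) * (4 * ∑' y, τ (cone (π x') u')ᶜ x' y) :=
        mul_le_mul_right h5 _
    _ = 4 * ((∑' w, ii (dd (π w) u ≤ d) * τ R x w) * ∑' y, τ (cone (π x') u')ᶜ x' y) := by ring
    _ ≤ 4 * (K d * nu π τ x u) := mul_le_mul_right h6 _
    _ = _ := by ring

end Vale.Agent.P165
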