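import Vale.Agent.P165.Def3
import Vale.Agent.P165.Kap

open Classical
open scoped ENNReal

namespace Vale.Agent.P165

open Vale.Agent.P151

universe u

variable {V : Type*} {α : Type*} [DecidableEq α]
variable {Γ : SimpleGraph V} {π : V → FreeGroup α} {τ : Set (FreeGroup α) → V → V → ℝ≥0∞}
  {L Δ : ℕ} {K : ℕ → ℝ≥0∞}


lemma spread [Nontrivial α] (r u : FreeGroup α) (k : ℕ) : ∃ s : Finset (FreeGroup α),
    2 ^ k ≤ s.card ∧ ∀ v ∈ s, v ∈ cone r u ∧ dd r v = dd r u + k := by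
  induction k generalizing u with
  | zero => exact ⟨{u}, by simp, fun v hv => by
      rw [Finset.mem_singleton.1 hv]; exact ⟨self_mem_cone r u, rfl⟩⟩
  | succ k ih =>
    obtain ⟨c1, a1, a2, -⟩ := branch r u u
    obtain ⟨c2, b1, b2, b3⟩ := branch r u c1
    obtain ⟨s1, p1, p2⟩ := ih c1
    obtain ⟨s2, q1, q2⟩ := ih c2
    have hd : Disjoint s1 s2 := Finset.disjoint_left.2 fun v h1 h2 => b3 (by
      rw [← cone_uniq (p2 v h1).1 (q2 v h2).1 (a2.trans b2.symm)]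
      exact self_mem_cone r c1)
    refine ⟨s1.disjUnion s2 hd, ?_, fun v hv => ?_⟩
    · rw [Finset.card_disjUnion, pow_succ]
      omega
    · rcases Finset.mem_disjUnion.1 hv with h | h
      · exact ⟨cone_trans a1 (p2 v h).1, by rw [(p2 v h).2, a2]; omega⟩
      · exact ⟨cone_trans b1 (q2 v h).1, by rw [(q2 v h).2, b2]; omega⟩

theorem kap_q [Nontrivial α] (h : Ker Γ π τ L Δ K) (hK : K (L + 1) ≠ ⊤) {J : ℕ} (hJ0 : 0 < J)
    (hJ : 4 * (Δ * K (L + 1)) ≤ 2 ^ J) (x : V) : ∃ u, π x ≠ u ∧ dd (π x) u ≤ J ∧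
      2 * ∑' y, τ Set.univ x y ≤ 4 * ∑' y, τ (cone (π x) u)ᶜ x y := by
  set χ := ∑' y, τ Set.univ x y with hχ
  set χs := ⨆ x, ∑' y, τ Set.univ x y with hχs
  have hle : χ ≤ χs := le_iSup (fun x => ∑' y, τ Set.univ x y) x
  have hfin : χ ≠ ⊤ := ne_top_of_le_ne_top h.fin hle
  have hnu : ∀ u, nu π τ x u ≤ χ := fun u => ENNReal.tsum_le_tsum fun y =>
    mul_le_of_le_one_left' (ii_le_one _)
  have hdis : ∀ (c : ℕ → FreeGroup α) (a n : ℕ), (∀ i j, i < j → j < a + n →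
      Disjoint (cone (π x) (c i)) (cone (π x) (c j))) → ∀ i ∈ Finset.range n,
      ∀ j ∈ Finset.range n, i ≠ j →
      Disjoint (cone (π x) (c (a + i))) (cone (π x) (c (a + j))) := fun c a n hc i hi j hj hij => by
    have := Finset.mem_range.1 hi
    have := Finset.mem_range.1 hj
    rcases lt_or_gt_of_ne hij with h1 | h1
    · exact hc _ _ (by omega) (by omega)
    · exact (hc _ _ (by omega) (by omega)).symm
  obtain ⟨s, hs1, hs2⟩ := spread (π x) (π x) J
  rw [dd_self, zero_add] at hs2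
  obtain ⟨u, hus, hmin⟩ := Finset.exists_min_image s (nu π τ x)
    (Finset.card_pos.1 (lt_of_lt_of_le (by positivity) hs1))
  have hj0' : 2 ^ J * nu π τ x u ≤ χ := by
    have a1 := Finset.card_nsmul_le_sum s (nu π τ x) _ hmin
    rw [nsmul_eq_mul] at a1
    have a2 : (2 : ℝ≥0∞) ^ J ≤ s.card := by exact_mod_cast hs1
    refine (mul_le_mul_left a2 _).trans (a1.trans ((nu_sum s x (π x) (fun v => v)
      (fun i _ => by rw [cone_self]; exact Set.subset_univ _) fun i hi j hj hij =>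
        Set.disjoint_left.2 fun v h1 h2 => hij (cone_uniq h1 h2
          ((hs2 i hi).2.trans (hs2 j hj).2.symm))).trans (hnu _)))
  obtain ⟨j0, rfl⟩ : ∃ j0, J = j0 + 1 := ⟨J - 1, by omega⟩
  have hu := (hs2 u hus).2
  refine ⟨u, Kap_ne hu, hu.le, ?_⟩
  obtain ⟨n, hn⟩ := ENNReal.exists_nat_gt (r := 4 * (Δ * K (L + 1) * χs))
    (ENNReal.mul_ne_top (by simp) (ENNReal.mul_ne_top (ENNReal.mul_ne_top (by simp) hK) h.fin))
  have hn0 : 0 < n := by
    have : (0 : ℝ≥0∞) < n := lt_of_le_of_lt zero_le hn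
    exact_mod_cast this
  obtain ⟨v', hv1, hv2⟩ := exists_far (π x) u n
  obtain ⟨pr, sb, t1, t2, t3, t4⟩ := side (π x) v'
  rw [hv2, hu] at t1 t2 t3 t4
  have hpu : pr (j0 + 1) = u :=
    cone_uniq (t1 (j0 + 1) (by omega)).2 hv1 ((t1 (j0 + 1) (by omega)).1.trans hu.symm)
  have hsum : ∀ m ≤ n, ∑ j ∈ Finset.range m, nu π τ x (sb (j0 + 1 + j)) ≤ nu π τ x u :=
    fun m hm => nu_sum (Finset.range m) x u (fun j => sb (j0 + 1 + j))
      (fun i hi => by
        have := Finset.mem_range.1 hi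
        rw [← hpu]
        exact t3 _ _ (by omega) (by omega))
      (hdis sb (j0 + 1) m fun i j h1 h2 => t4 i j h1 (by omega))
  have hind : ∀ m ≤ n, ∑' y, τ (cone (π x) (pr (j0 + 1 + m)))ᶜ x y ≤
      ∑' y, τ (cone (π x) u)ᶜ x y +
        Δ * K (L + 1) * ∑ j ∈ Finset.range m, nu π τ x (sb (j0 + 1 + j)) := by
    intro m
    induction m with
    | zero => intro _; rw [add_zero, hpu]; exact le_self_add
    | succ m ih =>
      intro hm
      obtain ⟨a1, a2, a3, a4, a5⟩ := t2 (j0 + 1 + m) (by omega)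
      have h0 : dd (π x) (pr (j0 + 1 + m)) = j0 + m + 1 := by
        rw [(t1 _ (by omega)).1]; omega
      refine (Kap_step h (Kap_ne h0) (Kap_ne a1) a2 a3 (Kap_ne (t1 (j0 + 1 + m + 1) (by omega)).1)
        a4 a5).trans ?_
      rw [Finset.sum_range_succ, mul_add, ← add_assoc, ← mul_assoc]
      exact add_le_add (ih (by omega)) le_rfl
  obtain ⟨m, hm, hm'⟩ := Kap_pigeon hn0 (fun j => nu π τ x (sb (j0 + 1 + j)))
    ((hsum n le_rfl).trans (hnu u))
  obtain ⟨a1, a2, a3, -, -⟩ := t2 (j0 + 1 + m) (by omega)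
  have h0 : dd (π x) (pr (j0 + 1 + m)) = j0 + m + 1 := by
    rw [(t1 _ (by omega)).1]; omega
  obtain ⟨w, -, hw⟩ := exists_far (π x) (π x) 1
  rw [dd_self] at hw
  have he : ee π τ L x (pr (j0 + 1 + m)) ≤ K (L + 1) * nu π τ x (sb (j0 + 1 + m)) := by
    refine le_trans ?_ (Kap_low h (b := x) (Kap_ne a1) a2 a3 (Kap_ne hw) (by omega)
      (root_not_mem_cone (Kap_ne hw)))
    exact le_mul_of_one_le_right' ((h.one _ x).trans (ENNReal.le_tsum x))
  have hc := h.cross (Kap_ne h0) (R := Set.univ) (Set.subset_univ _) (fun _ => 1) (M := χs)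
    fun b _ _ _ => by
      simp only [one_mul]
      exact le_iSup (fun x => ∑' y, τ Set.univ x y) b
  simp only [one_mul] at hc
  have q1 : 4 * (Δ * K (L + 1) * ∑ j ∈ Finset.range m, nu π τ x (sb (j0 + 1 + j))) ≤ χ := by
    rw [← mul_assoc]
    exact (mul_le_mul' hJ (hsum m hm.le)).trans hj0'
  have q2 : 4 * (Δ * ee π τ L x (pr (j0 + 1 + m)) * χs) ≤ χ := by
    calc _ ≤ 4 * (Δ * (K (L + 1) * nu π τ x (sb (j0 + 1 + m))) * χs) := by gcongr
      _ = 4 * (Δ * K (L + 1) * χs) * nu π τ x (sb (j0 + 1 + m)) := by ring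
      _ ≤ n * nu π τ x (sb (j0 + 1 + m)) := by gcongr
      _ ≤ χ := hm'
  have h4 : 2 * χ + 2 * χ ≤ 4 * ∑' y, τ (cone (π x) u)ᶜ x y + 2 * χ := by
    calc 2 * χ + 2 * χ = 4 * χ := by ring
      _ ≤ 4 * (∑' y, τ (cone (π x) u)ᶜ x y +
          Δ * K (L + 1) * ∑ j ∈ Finset.range m, nu π τ x (sb (j0 + 1 + j)) +
          Δ * ee π τ L x (pr (j0 + 1 + m)) * χs) :=
          mul_le_mul_right (hc.trans (add_le_add (hind m hm.le) le_rfl)) _
      _ ≤ 4 * ∑' y, τ (cone (π x) u)ᶜ x y + χ + χ := by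
          rw [mul_add, mul_add]
          exact add_le_add (add_le_add le_rfl q1) q2
      _ = _ := by ring
  exact (ENNReal.add_le_add_iff_right (ENNReal.mul_ne_top (by simp) hfin)).1 h4

end Vale.Agent.P165
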