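import Vale.Agent.P165.Walk
import Vale.Agent.P165.KapQ

open Classical
open scoped ENNReal

namespace Vale.Agent.P165

open Vale.Agent.P151

universe u

variable {V : Type*} {α : Type*} [DecidableEq α]

lemma CfgT_geo {r u a b s : FreeGroup α} (ha : a ∈ cone r u) (hb : b ∈ cone r u)
    (hs : b ∈ cone a s) : s ∈ cone r u := by
  by_contra h
  have h1 := cone_cut h ha
  have h2 := cone_cut h hb
  have h3 : dd a b = dd a s + dd s b := hs
  have h4 := dd_tri a u b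
  have h5 := dd_comm a s
  have h6 := dd_comm a u
  have h7 : dd s u = 0 := by omega
  rw [dd_eq_zero] at h7
  exact h (h7 ▸ self_mem_cone r s)

lemma CfgT_ball {r c t s' s : FreeGroup α} {ρ : ℕ} (ht : t ∈ cone r c) (hs' : s' ∈ cone r t)
    (hρ : ρ ≤ dd c t) (hd : dd s' s ≤ ρ) : s ∈ cone r c := by
  by_contra h
  have h0 := cone_trans ht hs'
  have h1 := cone_cut h h0
  have h2 : dd r t = dd r c + dd c t := ht
  have h3 : dd r s' = dd r t + dd t s' := hs'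
  have h4 : dd r s' = dd r c + dd c s' := h0
  have h5 := dd_comm s s'
  have h7 : dd s c = 0 := by omega
  rw [dd_eq_zero] at h7
  exact h (h7 ▸ self_mem_cone r s)

lemma CfgT_irr [Finite α] [Nontrivial α] {s' t' : FreeGroup α} (h' : dd s' t' = 1) :
    ∃ n : ℕ, ∀ s t : FreeGroup α, dd s t = 1 →
      ∃ g : FreeGroup α, (∀ v ∈ half s' t', g * v ∈ half s t) ∧ dd t (g * t') ≤ n := by
  have h1 : ∀ l : FreeGroup α, ∃ g : FreeGroup α, dd l 1 = 1 →
      ∀ v ∈ half s' t', g * v ∈ half l 1 := by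
    intro l
    by_cases hl : dd l 1 = 1
    · obtain ⟨g, hg⟩ := irr_left hl h'
      exact ⟨g, fun _ => hg⟩
    · exact ⟨1, fun h => absurd h hl⟩
  choose g hg using h1
  refine ⟨(ball_fin (1 : FreeGroup α) 1).toFinset.sup fun l => dd 1 (g l * t'), fun s t hst => ?_⟩
  have hl : dd (t⁻¹ * s) 1 = 1 := by
    rw [← dd_mul t]; simpa using hst
  refine ⟨t * g (t⁻¹ * s), fun v hv => ?_, ?_⟩
  · have := (mul_mem_half (g := t)).2 (hg _ hl v hv)
    simpa [mul_assoc] using this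
  · have e : dd t (t * g (t⁻¹ * s) * t') = dd 1 (g (t⁻¹ * s) * t') := by
      rw [← dd_mul t 1]; simp [mul_assoc]
    rw [e]
    refine Finset.le_sup (f := fun l => dd 1 (g l * t')) ?_
    rw [Set.Finite.mem_toFinset]
    change dd 1 (t⁻¹ * s) ≤ 1
    rw [dd_comm, hl]

theorem cfgT [Finite α] [Nontrivial α] {q u : FreeGroup α} (hq : dd q u = 1) (r : ℕ) :
    ∃ t₀ : FreeGroup α, ∀ R₁ : ℕ, ∃ (B : Set (FreeGroup α)) (t₁ : FreeGroup α), t₁ ∈ B ∧
      Disjoint (half q u) B ∧ (∀ s ∈ B, R₁ < dd u s) ∧ ∀ R₂ : ℕ, ∃ n : ℕ, ∀ k : ℕ,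
        ∃ J : Finset (FreeGroup α), 2 ^ k ≤ J.card ∧
          (∀ g ∈ J, dd t₁ (g * t₀) ≤ n * (k + 1) ∧
            (∀ s, (s ∈ half q u ∨ s ∈ B ∨ dd u s ≤ R₂) → g * s ∈ B ∧ R₂ < dd u (g * s)) ∧
            ∀ s' s, g * t₀ ∈ cone t₁ s' → dd s' s ≤ r →
              s ∈ B ∧ g⁻¹ * s ∉ half q u ∧ g⁻¹ * s ∉ B) ∧
          ∀ g ∈ J, ∀ g' ∈ J, g ≠ g' → ∀ s ∈ B, ∀ s' ∈ B, g * s ≠ g' * s' := by
  have hqu : dd u q = 1 := by rw [dd_comm, hq]
  have hH : ∀ v, v ∈ cone u q → v ∉ half q u := by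
    intro v hv hv'
    have h1 : dd u v = dd u q + dd q v := hv
    have h2 : dd v u < dd v q := hv'
    have := dd_comm u v
    have := dd_comm q v
    omega
  obtain ⟨s2, hs2, hs2'⟩ := spread u q 1
  obtain ⟨a₁, ha₁, a₂, ha₂, hne⟩ := Finset.one_lt_card.1 (show 1 < s2.card by omega)
  obtain ⟨m₁, d₁⟩ := hs2' a₁ ha₁
  obtain ⟨m₂, d₂⟩ := hs2' a₂ ha₂
  obtain ⟨t₀, ht₀, dt₀⟩ := exists_far u a₁ r
  have et₀ : r ≤ dd a₁ t₀ := by
    have : dd u t₀ = dd u a₁ + dd a₁ t₀ := ht₀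
    omega
  refine ⟨t₀, fun R₁ => ?_⟩
  obtain ⟨c, hc, dc⟩ := exists_far u a₂ (R₁ + 1)
  obtain ⟨t₁, ht₁, dt₁⟩ := exists_far u c r
  have et₁ : r ≤ dd c t₁ := by
    have : dd u t₁ = dd u c + dd c t₁ := ht₁
    omega
  have hA : ∀ v, v ∈ cone u a₁ → v ∉ half q u ∧ v ∉ cone u c := fun v hv =>
    ⟨hH v (cone_trans m₁ hv), fun h => hne (cone_uniq hv (cone_trans hc h) (by omega))⟩
  refine ⟨cone u c, t₁, ht₁, Set.disjoint_left.2 fun v hv hv' =>
    hH v (cone_trans m₂ (cone_trans hc hv')) hv, fun s hs => ?_, fun R₂ => ?_⟩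
  · have : dd u s = dd u c + dd c s := hs
    omega
  obtain ⟨b', hb', db'⟩ := exists_far u t₀ (R₂ + 1)
  have hub : u ≠ b' := fun e => by rw [← e, dd_self] at db'; omega
  obtain ⟨b, hb1, -, hb2⟩ := cone_half hub
  obtain ⟨n₀, hn₀⟩ := CfgT_irr (s' := b') (t' := b) (by rw [dd_comm, hb1])
  obtain ⟨t', ht', dt'⟩ := exists_far u t₁ (R₂ + 1)
  refine ⟨R₂ + 1 + n₀ + dd b t₀ + 1, fun k => ?_⟩
  obtain ⟨Y, hY, hY'⟩ := spread u t' k
  have hg : ∀ y : FreeGroup α, ∃ g : FreeGroup α, u ≠ y →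
      (∀ v, v ∉ cone u b' → g * v ∈ cone u y) ∧ dd y (g * b) ≤ n₀ := by
    intro y
    by_cases hy : u = y
    · exact ⟨1, fun h => absurd hy h⟩
    obtain ⟨y', e1, e2, -⟩ := cone_half hy
    obtain ⟨g, g1, g2⟩ := hn₀ y' y e1
    refine ⟨g, fun _ => ⟨fun v hv => ?_, g2⟩⟩
    rw [e2]
    refine g1 v ?_
    rw [← hb2]
    exact hv
  choose g hg using hg
  have huy : ∀ y ∈ Y, u ≠ y := fun y hy e => by
    have := (hY' y hy).2
    rw [← e, dd_self] at this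
    omega
  have hE : ∀ s, (s ∈ half q u ∨ s ∈ cone u c ∨ dd u s ≤ R₂) → s ∉ cone u b' := by
    intro s hs h
    have h1 := hA s (cone_trans ht₀ (cone_trans hb' h))
    have h2 : dd u s = dd u b' + dd b' s := h
    rcases hs with hs | hs | hs
    · exact h1.1 hs
    · exact h1.2 hs
    · omega
  have hinj : ∀ y ∈ Y, ∀ y' ∈ Y, ∀ s s', s ∉ cone u b' → s' ∉ cone u b' →
      g y * s = g y' * s' → y = y' := fun y hy y' hy' s s' h1 h2 e =>
    cone_uniq ((hg y (huy y hy)).1 s h1) (e ▸ (hg y' (huy y' hy')).1 s' h2)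
      ((hY' y hy).2.trans (hY' y' hy').2.symm)
  refine ⟨Y.image g, ?_, fun g' hg' => ?_, fun g₁ h₁ g₂ h₂ hne' s hs s' hs' e => ?_⟩
  · rw [Finset.card_image_of_injOn]
    · exact hY
    · intro y hy y' hy' e
      exact hinj y hy y' hy' u u (root_not_mem_cone hub) (root_not_mem_cone hub) (by rw [e])
  · obtain ⟨y, hy, rfl⟩ := Finset.mem_image.1 hg'
    obtain ⟨g1, g2⟩ := hg y (huy y hy)
    obtain ⟨y1, y2⟩ := hY' y hy
    have y3 : y ∈ cone u t₁ := cone_trans ht' y1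
    have y4 : dd u y = dd u t₁ + dd t₁ y := y3
    have h0 : t₀ ∉ cone u b' := fun h => by
      have : dd u t₀ = dd u b' + dd b' t₀ := h
      omega
    have h1 : g y * t₀ ∈ cone u t₁ := cone_trans y3 (g1 t₀ h0)
    refine ⟨?_, fun s hs => ?_, fun s' s hs' hd => ?_⟩
    · have e1 := dd_tri t₁ y (g y * t₀)
      have e2 := dd_tri y (g y * b) (g y * t₀)
      rw [dd_mul] at e2
      have e3 : dd t₁ y = R₂ + 1 + k := by omega
      nlinarith [Nat.zero_le ((R₂ + 1 + n₀ + dd b t₀) * k)]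
    · have e1 := g1 s (hE s hs)
      have e2 : dd u (g y * s) = dd u y + dd y (g y * s) := e1
      exact ⟨cone_trans ht₁ (cone_trans y3 e1), by omega⟩
    · refine ⟨CfgT_ball ht₁ (CfgT_geo (self_mem_cone u t₁) h1 hs') et₁ hd, hA _ ?_⟩
      have e1 : (g y)⁻¹ * t₁ ∈ cone u b' := by
        by_contra h
        have e2 := g1 _ h
        rw [mul_inv_cancel_left] at e2
        have : dd u t₁ = dd u y + dd y t₁ := e2
        omega
      have e2 : t₀ ∈ cone ((g y)⁻¹ * t₁) ((g y)⁻¹ * s') := by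
        have := (mul_mem_cone (g := (g y)⁻¹)).2 hs'
        rwa [inv_mul_cancel_left] at this
      refine CfgT_ball ht₀ (CfgT_geo (cone_trans hb' e1) (self_mem_cone u t₀) e2) et₀ ?_
      rwa [dd_mul]
  · obtain ⟨y, hy, rfl⟩ := Finset.mem_image.1 h₁
    obtain ⟨y', hy', rfl⟩ := Finset.mem_image.1 h₂
    exact hne' (by rw [hinj y hy y' hy' s s' (hE s (Or.inr (Or.inl hs)))
      (hE s' (Or.inr (Or.inl hs'))) e])

end Vale.Agent.P165
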