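import Vale.Agent.P165.Main

open Classical
open scoped ENNReal

namespace Vale.Agent.P165

open Vale.Agent.P151

universe u

variable {V : Type*} {α : Type*} [DecidableEq α]

theorem tree_of_fbf {G : Type u} [Group G] (h : FreeByFree G) : TreeOfFree G := by
  obtain ⟨α, h1, h2, φ, hφ, β, h3, ⟨e⟩⟩ := h
  let ρ : G →* Equiv.Perm (FreeGroup α) := (MulAction.toPermHom (FreeGroup α) (FreeGroup α)).comp φ
  have hρ : ∀ g v, ρ g v = φ g * v := fun g v => rfl
  refine ⟨α, h1, h2, inferInstance, ρ, fun g u v => ?_, ⟨{1}, fun v => ?_⟩,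
    fun s t s' t' a b => ?_, fun s t _ => ⟨β, h3, ⟨(MulEquiv.subgroupCongr ?_).trans e⟩⟩⟩
  · rw [hρ, hρ, dd_mul]
  · obtain ⟨g, hg⟩ := hφ v⁻¹
    exact ⟨g, by simp [hρ, hg]⟩
  · obtain ⟨f, hf⟩ := irr_left a b
    obtain ⟨g, rfl⟩ := hφ f
    exact ⟨g, hf⟩
  · ext g
    change (φ g * s = s ∧ φ g * t = t) ↔ φ g = 1
    simp

theorem cayley_main {H : Type u} [Group H] (S : Finset H)
    (hS : Subgroup.closure (S : Set H) = ⊤) (K : Subgroup H) (hK : K.FiniteIndex)
    (hT : TreeOfFree K) :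
    pc (SimpleGraph.mulCayley (S : Set H)) < pu (SimpleGraph.mulCayley (S : Set H)) := by
  refine main (G := K) ⟨?_, ?_, ?_, ?_, ?_⟩ hT
  · have key : ∀ x : H, (SimpleGraph.mulCayley (S : Set H)).Reachable 1 x := by
      intro x
      have hx : x ∈ Subgroup.closure (S : Set H) := hS ▸ Subgroup.mem_top x
      have one : ∀ x, ∀ y ∈ (S : Set H),
          (SimpleGraph.mulCayley (S : Set H)).Reachable x (x * y) := by
        intro x y hy
        by_cases h : x = x * y
        · rw [← h]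
        · exact SimpleGraph.Adj.reachable
            ((SimpleGraph.mulCayley_adj' _ _ _).2 ⟨h, y, hy, Or.inl rfl⟩)
      induction hx using Subgroup.closure_induction_right with
      | one => rfl
      | mul_right x _ y hy ih => exact ih.trans (one x y hy)
      | mul_inv_cancel x _ y hy ih =>
        refine ih.trans ?_
        simpa using (one (x * y⁻¹) y hy).symm
    exact ⟨fun a b => (key a).symm.trans (key b)⟩
  · intro v
    refine ((S.finite_toSet.image (v * ·)).union (S.finite_toSet.image (v * ·⁻¹))).subset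
      fun y hy => ?_
    obtain ⟨-, g, hg, h | h⟩ := (SimpleGraph.mulCayley_adj' _ _ _).1 hy
    · exact Or.inl ⟨g, hg, h⟩
    · exact Or.inr ⟨g, hg, by simp [h]⟩
  · intro g x y
    exact SimpleGraph.mulCayley_adj_mul_iff_right
  · intro g x h
    have h' : (g : H) * x = x := h
    exact Subtype.ext (by simpa using h')
  · haveI : Finite (Quotient (QuotientGroup.rightRel K)) :=
      Finite.of_equiv _ (QuotientGroup.quotientRightRelEquivQuotientLeftRel K).symm
    let rep : H → H := fun h => (Quotient.mk (QuotientGroup.rightRel K) h).out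
    have hrep : ∀ h, h * (rep h)⁻¹ ∈ K := fun h =>
      QuotientGroup.rightRel_apply.1 (Quotient.mk_out (s := QuotientGroup.rightRel K) h)
    refine ⟨(Set.finite_range (fun q : Quotient (QuotientGroup.rightRel K) => q.out)).toFinset,
      fun v => ⟨(⟨v * (rep v)⁻¹, hrep v⟩ : K)⁻¹, ?_⟩⟩
    rw [Set.Finite.mem_toFinset]
    refine ⟨Quotient.mk _ v, ?_⟩
    change rep v = (v * (rep v)⁻¹)⁻¹ * v
    simp

theorem fbf_prod {m n : ℕ} (hm : 2 ≤ m) (hn : 2 ≤ n) :
    FreeByFree (FreeGroup (Fin m) × FreeGroup (Fin n)) := by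
  refine ⟨Fin m, inferInstance, Fin.nontrivial_iff_two_le.2 hm, MonoidHom.fst _ _,
    Prod.fst_surjective, Fin n, Fin.nontrivial_iff_two_le.2 hn, ⟨?_⟩⟩
  refine MulEquiv.ofBijective ((MonoidHom.snd _ _).comp (Subgroup.subtype _)) ⟨?_, ?_⟩
  · rintro ⟨⟨a, b⟩, h⟩ ⟨⟨c, d⟩, h'⟩ e
    have h1 : a = 1 := h
    have h2 : c = 1 := h'
    have h3 : b = d := e
    subst h1 h2 h3
    rfl
  · intro b
    exact ⟨⟨(1, b), rfl⟩, rfl⟩

end Vale.Agent.P165
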