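import Vale.Agent.P165.Kap

open Classical
open scoped ENNReal

namespace Vale.Agent.P165

open Vale.Agent.P151

universe u

variable {V : Type*} {α : Type*} [DecidableEq α]

lemma step_Dec [Nontrivial α] {Γ : SimpleGraph V} {π : V → FreeGroup α} {L Δ : ℕ}
    {K : ℕ → ℝ≥0∞} {τ : Set (FreeGroup α) → V → V → ℝ≥0∞} (h : Ker Γ π τ L Δ K) {k : ℝ≥0∞}
    {J' : ℕ} (hJ1 : 1 ≤ J') (hJ2 : 2 * Δ * k ≤ J')
    (hA : ∀ x u u₂, π x ≠ u → u₂ ∈ cone (π x) u → dd u u₂ ≤ 1 →
      ee π τ L x u * (⨆ x, ∑' y, τ Set.univ x y) ≤ k * nu π τ x u₂)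
    (hχ : ∀ (_ : V) (a b : ℝ≥0∞), a * (⨆ x, ∑' y, τ Set.univ x y) ≤
      b * (⨆ x, ∑' y, τ Set.univ x y) → a ≤ b) (i : ℕ) :
    ∀ x v, π x ≠ v → i * (J' + L + 1) ≤ dd (π x) v → ee π τ L x v ≤ k * 2⁻¹ ^ i := by
  induction i with
  | zero =>
    intro x v hv _
    rw [pow_zero, mul_one]
    refine hχ x _ _ ((hA x v v hv (self_mem_cone _ _) (by rw [dd_self]; omega)).trans ?_)
    gcongr
    exact nu_le x v
  | succ i ih =>
    intro x v hv hd
    rw [Nat.succ_mul] at hd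
    obtain ⟨pre, sd, s1, s2, s3, s4⟩ := side (π x) v
    have hne : ∀ j ∈ Finset.Icc 1 J', π x ≠ pre j := by
      intro j hj e
      rw [Finset.mem_Icc] at hj
      have := (s1 j (by omega)).1
      rw [← e, dd_self] at this
      omega
    have hsum : ∑ j ∈ Finset.Icc 1 J', ee π τ L x (pre j) ≤ k := by
      refine hχ x _ _ ?_
      rw [Finset.sum_mul]
      calc _ ≤ ∑ j ∈ Finset.Icc 1 J', k * nu π τ x (sd j) := Finset.sum_le_sum fun j hj => by
            have hj' := Finset.mem_Icc.mp hj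
            obtain ⟨-, a2, a3, -⟩ := s2 j (by omega)
            exact hA x _ _ (hne j hj) a2 a3.le
        _ ≤ k * nu π τ x (π x) := by
            rw [← Finset.mul_sum]
            gcongr
            refine nu_sum _ x _ sd (fun j _ => by rw [cone_self]; exact Set.subset_univ _) ?_
            intro a ha b hb hab
            rw [Finset.mem_Icc] at ha hb
            rcases lt_or_gt_of_ne hab with hab | hab
            · exact s4 a b hab (by omega)
            · exact (s4 b a hab (by omega)).symm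
        _ ≤ _ := by
            gcongr
            exact nu_le x _
    obtain ⟨j, hj, hmin⟩ := Finset.exists_min_image (Finset.Icc 1 J') (fun j => ee π τ L x (pre j))
      ⟨1, Finset.mem_Icc.mpr ⟨le_rfl, hJ1⟩⟩
    have h1 : (J' : ℝ≥0∞) * ee π τ L x (pre j) ≤ k := by
      refine le_trans ?_ hsum
      have := Finset.card_nsmul_le_sum _ _ _ hmin
      simpa using this
    have h2 : (Δ : ℝ≥0∞) * ee π τ L x (pre j) ≤ 2⁻¹ := by
      have h3 : (J' : ℝ≥0∞) * (2 * (Δ * ee π τ L x (pre j))) ≤ J' * 1 := by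
        calc _ = 2 * Δ * ((J' : ℝ≥0∞) * ee π τ L x (pre j)) := by ring
          _ ≤ 2 * Δ * k := by gcongr
          _ ≤ _ := by rwa [mul_one]
      have h4 := (ENNReal.mul_le_mul_iff_right (by simp; omega) (by simp)).mp h3
      rw [ENNReal.le_inv_iff_mul_le, mul_comm]
      exact h4
    have hj' := Finset.mem_Icc.mp hj
    obtain ⟨b1, b2⟩ := s1 j (by omega)
    have b3 : dd (π x) v = dd (π x) (pre j) + dd (pre j) v := b2
    have hc := h.cross (hne j hj) (R := (cone (π x) v)ᶜ)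
      (Set.compl_subset_compl.mpr fun w hw => cone_trans b2 hw) (fun w => ii (dd (π w) v ≤ L))
      (M := k * 2⁻¹ ^ i) (fun b _ hb2 hb3 => by
        have e := cone_reroot hb2
        have := ih b v (fun e' => hb2 (e' ▸ self_mem_cone _ _)) (by
          have := dd_tri (pre j) (π b) v
          omega)
        rw [ee, e] at this
        exact this)
    have h0 : ∑' y, ii (dd (π y) v ≤ L) * τ (cone (π x) (pre j))ᶜ x y = 0 := by
      rw [ENNReal.tsum_eq_zero]
      intro y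
      by_cases hy : π y ∈ cone (π x) (pre j)
      · rw [h.supp (cone (π x) (pre j))ᶜ x y (root_not_mem_cone (hne j hj)) (fun h' => h' hy), mul_zero]
      · have := cone_cut hy b2
        rw [ii_false (by omega), zero_mul]
    rw [h0, zero_add] at hc
    calc ee π τ L x v ≤ _ := hc
      _ ≤ 2⁻¹ * (k * 2⁻¹ ^ i) := by gcongr
      _ = _ := by rw [pow_succ]; ring

/-- exponential decay of the entrance numbers -/
theorem dec [Nontrivial α] (Γ : SimpleGraph V) (π : V → FreeGroup α) (L Δ : ℕ) (K : ℕ → ℝ≥0∞)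
    (hK : ∀ d, K d ≠ ⊤) : ∃ C σ : ℝ≥0∞, C ≠ ⊤ ∧ σ ≠ 0 ∧ σ < 1 ∧
      ∀ τ : Set (FreeGroup α) → V → V → ℝ≥0∞, Ker Γ π τ L Δ K →
        (∀ x u, π x ≠ u → ee π τ L x u ≤ C * σ ^ dd (π x) u) ∧
        ∀ x u n, 1 ≤ n → ∑' v, ii (v ∈ cone (π x) u ∧ dd (π x) v = n) * ee π τ L x v
          ≤ C * σ ^ dd (π x) u := by
  obtain ⟨J, hJ⟩ := kap Γ π L Δ K hK
  set k : ℝ≥0∞ := 4 * K (max J (L + 1)) with hk
  have hkt : k ≠ ⊤ := ENNReal.mul_ne_top (by simp) (hK _)
  obtain ⟨J0, hJ0⟩ := ENNReal.exists_nat_gt (r := 2 * Δ * k)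
    (ENNReal.mul_ne_top (ENNReal.mul_ne_top (by simp) (by simp)) hkt)
  have hJ2 : 2 * Δ * k ≤ ((J0 + 1 : ℕ) : ℝ≥0∞) := hJ0.le.trans (by exact_mod_cast Nat.le_succ _)
  set P : ℕ := J0 + 1 + L + 1 with hP
  have hP0 : P ≠ 0 := by omega
  set σ : ℝ≥0∞ := (2⁻¹ : ℝ≥0∞) ^ ((P : ℝ)⁻¹) with hσ
  have hσP : σ ^ P = 2⁻¹ := ENNReal.rpow_inv_natCast_pow hP0 _
  have hσ1 : σ < 1 := ENNReal.rpow_lt_one (by simp) (by positivity)
  have hσ0 : σ ≠ 0 := by
    intro h0
    rw [h0, zero_pow hP0] at hσP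
    exact absurd hσP.symm (by simp)
  refine ⟨2 * k + k * (Δ * (2 * k)), σ, by finiteness, hσ0, hσ1, fun τ h => ?_⟩
  have hχ : ∀ (_ : V) (a b : ℝ≥0∞), a * (⨆ x, ∑' y, τ Set.univ x y) ≤
      b * (⨆ x, ∑' y, τ Set.univ x y) → a ≤ b := by
    intro x a b hab
    have h1 : 1 ≤ ⨆ x, ∑' y, τ Set.univ x y :=
      le_iSup_of_le x ((h.one _ x).trans (ENNReal.le_tsum x))
    exact (ENNReal.mul_le_mul_iff_left (by intro e; simp [e] at h1) h.fin).mp hab
  have hA : ∀ x u u₂, π x ≠ u → u₂ ∈ cone (π x) u → dd u u₂ ≤ 1 →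
      ee π τ L x u * (⨆ x, ∑' y, τ Set.univ x y) ≤ k * nu π τ x u₂ := by
    intro x u u₂ hu h1 h2
    refine le_trans ?_ (hJ τ h _ (le_max_left J (L + 1)) x u₂ (cone (π x) u)ᶜ
      (fun e => root_not_mem_cone hu (e ▸ h1))
      (Set.disjoint_left.mpr fun w hw hw' => hw (cone_trans h1 hw')))
    gcongr
    refine ENNReal.tsum_le_tsum fun w => ?_
    gcongr
    refine ii_mono fun hw => ?_
    have := dd_tri (π w) u u₂
    have := le_max_right J (L + 1)
    omega
  have main : ∀ x u, π x ≠ u → ee π τ L x u ≤ 2 * k * σ ^ dd (π x) u := by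
    intro x u hu
    have h1 := step_Dec h (Nat.le_add_left 1 J0) hJ2 hA hχ (dd (π x) u / P) x u hu
      (Nat.div_mul_le_self _ _)
    have h2 : σ ^ (P * (dd (π x) u / P + 1)) ≤ σ ^ dd (π x) u :=
      pow_le_pow_right_of_le_one' hσ1.le (Nat.lt_mul_div_succ _ (by omega)).le
    rw [pow_mul, hσP] at h2
    calc _ ≤ _ := h1
      _ = 2 * k * 2⁻¹ ^ (dd (π x) u / P + 1) := by
          rw [pow_succ, show 2 * k * (2⁻¹ ^ (dd (π x) u / P) * 2⁻¹) =
            (2 * 2⁻¹) * (k * 2⁻¹ ^ (dd (π x) u / P)) by ring,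
            ENNReal.mul_inv_cancel (by simp) (by simp), one_mul]
      _ ≤ _ := by gcongr
  refine ⟨fun x u hu => (main x u hu).trans (by gcongr; exact le_self_add), fun x u n hn => ?_⟩
  have h1 : (∑' v, ii (v ∈ cone (π x) u ∧ dd (π x) v = n) * ee π τ L x v) *
      (⨆ x, ∑' y, τ Set.univ x y) ≤ k * nu π τ x u := by
    rw [← ENNReal.tsum_mul_right]
    refine le_trans (ENNReal.tsum_le_tsum fun v => ?_) ((le_of_eq ENNReal.tsum_mul_left).trans
      (mul_le_mul_right (nu_sphere x u n) k))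
    by_cases hv : v ∈ cone (π x) u ∧ dd (π x) v = n
    · rw [ii_true hv, one_mul, one_mul]
      refine hA x v v (fun e => ?_) (self_mem_cone _ _) (by rw [dd_self]; omega)
      have := hv.2
      rw [e, dd_self] at this
      omega
    · simp [ii_false hv]
  refine hχ x _ _ (h1.trans ?_)
  by_cases hu : π x = u
  · rw [← hu, dd_self, pow_zero, mul_one]
    refine mul_le_mul' ?_ (nu_le x _)
    rw [two_mul, add_assoc]
    exact le_self_add
  · calc k * nu π τ x u ≤ k * (Δ * (2 * k * σ ^ dd (π x) u) * ⨆ x, ∑' y, τ Set.univ x y) := by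
          refine mul_le_mul_right ((h.nu_le_ee hu).trans ?_) k
          gcongr
          exact main x u hu
      _ = k * (Δ * (2 * k)) * σ ^ dd (π x) u * ⨆ x, ∑' y, τ Set.univ x y := by ring
      _ ≤ _ := by gcongr; exact le_add_self

end Vale.Agent.P165
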