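import Vale.Agent.P165.KapQ
import Vale.Agent.P165.Dec

open Classical
open scoped ENNReal

namespace Vale.Agent.P165

open Vale.Agent.P151

universe u

variable {V : Type*} {α : Type*} [DecidableEq α]
variable {Γ : SimpleGraph V} {π : V → FreeGroup α} {τ : Set (FreeGroup α) → V → V → ℝ≥0∞}
  {L Δ : ℕ} {K : ℕ → ℝ≥0∞}


theorem dec_q [Nontrivial α] (h : Ker Γ π τ L Δ K) (hK : K (L + 1) ≠ ⊤) {J : ℕ} (hJ0 : 0 < J)
    (hJ : 4 * (Δ * K (L + 1)) ≤ 2 ^ J) {k : ℝ≥0∞} (hq : Low2 π τ (L + 1) J k)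
    {P : ℕ} (hP : 2 * Δ * (4 * k) + L + 2 ≤ P) :
    (∀ x u, π x ≠ u → ee π τ L x u ≤ 4 * k * 2⁻¹ ^ (dd (π x) u / P)) ∧
    ∀ x n, 1 ≤ n → ∑' v, ii (dd (π x) v = n) * ee π τ L x v ≤ 4 * k := by
  have hLP : L + 2 ≤ P := by
    have : ((L + 2 : ℕ) : ℝ≥0∞) ≤ P := by
      push_cast
      refine le_trans ?_ hP
      rw [add_assoc]
      exact le_add_self
    exact_mod_cast this
  obtain ⟨J', rfl⟩ : ∃ J', P = J' + L + 1 := ⟨P - L - 1, by omega⟩
  have hJ2 : 2 * Δ * (4 * k) ≤ J' := by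
    refine ENNReal.le_of_add_le_add_right (a := (L : ℝ≥0∞) + 1) (by simp) ?_
    push_cast at hP
    calc _ ≤ 2 * Δ * (4 * k) + L + 2 := by
          rw [← add_assoc]
          gcongr
          exact one_le_two
      _ ≤ _ := hP
      _ = _ := add_assoc _ _ _
  have h1 : ∀ _ : V, 1 ≤ ⨆ x, ∑' y, τ Set.univ x y := fun x =>
    le_iSup_of_le x ((h.one _ x).trans (ENNReal.le_tsum x))
  have hχ : ∀ (_ : V) (a b : ℝ≥0∞), a * (⨆ x, ∑' y, τ Set.univ x y) ≤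
      b * (⨆ x, ∑' y, τ Set.univ x y) → a ≤ b := fun x a b hab =>
    (ENNReal.mul_le_mul_iff_left (zero_lt_one.trans_le (h1 x)).ne' h.fin).mp hab
  have hA : ∀ x u u₂, π x ≠ u → u₂ ∈ cone (π x) u → dd u u₂ ≤ 1 →
      ee π τ L x u * (⨆ x, ∑' y, τ Set.univ x y) ≤ 4 * k * nu π τ x u₂ := by
    intro x u u₂ hu g1 g2
    obtain ⟨x', hx'⟩ :=
      lt_iSup_iff.1 (ENNReal.half_lt_self (zero_lt_one.trans_le (h1 x)).ne' h.fin)
    obtain ⟨u', h2, h3, h4⟩ := kap_q h hK hJ0 hJ x'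
    have h5 : (⨆ x, ∑' y, τ Set.univ x y) ≤ 4 * ∑' y, τ (cone (π x') u')ᶜ x' y := by
      refine le_trans ?_ h4
      rw [← ENNReal.add_halves (⨆ x, ∑' y, τ Set.univ x y), two_mul]
      exact add_le_add hx'.le hx'.le
    have h6 := hq (π x) u₂ (π x') u' x x' (cone (π x) u)ᶜ
      (fun e => root_not_mem_cone hu (e ▸ g1)) h2
      (Set.disjoint_left.mpr fun w hw hw' => hw (cone_trans g1 hw')) h3 (root_not_mem_cone h2)
    have h7 : ee π τ L x u ≤ ∑' w, ii (dd (π w) u₂ ≤ L + 1) * τ (cone (π x) u)ᶜ x w := by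
      refine ENNReal.tsum_le_tsum fun w => ?_
      gcongr
      refine ii_mono fun hw => ?_
      have := dd_tri (π w) u u₂
      omega
    calc _ ≤ (∑' w, ii (dd (π w) u₂ ≤ L + 1) * τ (cone (π x) u)ᶜ x w) *
          (4 * ∑' y, τ (cone (π x') u')ᶜ x' y) := mul_le_mul' h7 h5
      _ = 4 * ((∑' w, ii (dd (π w) u₂ ≤ L + 1) * τ (cone (π x) u)ᶜ x w) *
          ∑' y, τ (cone (π x') u')ᶜ x' y) := by ring
      _ ≤ 4 * (k * nu π τ x u₂) := mul_le_mul_right h6 _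
      _ = _ := by ring
  refine ⟨fun x u hu => step_Dec h (by omega) hJ2 hA hχ _ x u hu (Nat.div_mul_le_self _ _),
    fun x n hn => hχ x _ _ ?_⟩
  rw [← ENNReal.tsum_mul_right]
  refine le_trans (ENNReal.tsum_le_tsum fun v => ?_) ((le_of_eq ENNReal.tsum_mul_left).trans
    (mul_le_mul_right ((nu_sphere (π := π) x (π x) n).trans (nu_le x _)) (4 * k)))
  by_cases hv : dd (π x) v = n
  · rw [ii_true hv, ii_true ⟨by rw [cone_self]; trivial, hv⟩, one_mul, one_mul]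
    refine hA x v v (fun e => ?_) (self_mem_cone _ _) (by rw [dd_self]; omega)
    rw [e, dd_self] at hv
    omega
  · simp [ii_false hv]

end Vale.Agent.P165
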