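import Vale.Agent.P165.Def2

open Classical
open scoped ENNReal

namespace Vale.Agent.P165

open Vale.Agent.P151

variable {V : Type*} {α : Type*} [DecidableEq α]

lemma dd_self (u : FreeGroup α) : dd u u = 0 := by simp [dd]
lemma dd_comm (u v : FreeGroup α) : dd u v = dd v u := by
  unfold dd
  rw [← FreeGroup.norm_inv_eq]; simp
lemma dd_tri (u v w : FreeGroup α) : dd u w ≤ dd u v + dd v w := by
  unfold dd
  have : u⁻¹ * w = (u⁻¹ * v) * (v⁻¹ * w) := by group
  rw [this]; exact FreeGroup.norm_mul_le _ _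
lemma dd_eq_zero {u v : FreeGroup α} : dd u v = 0 ↔ u = v := by
  unfold dd
  rw [FreeGroup.norm_eq_zero, inv_mul_eq_one]
lemma dd_mul (g u v : FreeGroup α) : dd (g * u) (g * v) = dd u v := by
  unfold dd
  congr 1; group
lemma geo_mem {r u v : FreeGroup α} : v ∈ cone r u ↔ dd r v = dd r u + dd u v := Iff.rfl
lemma self_mem_cone (r u : FreeGroup α) : u ∈ cone r u := by simp [geo_mem, dd_self]
lemma cone_self (r : FreeGroup α) : cone r r = Set.univ := by ext v; simp [geo_mem, dd_self]
lemma root_not_mem_cone {r u : FreeGroup α} (h : r ≠ u) : r ∉ cone r u := by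
  rw [geo_mem, dd_self]
  intro e
  exact h (dd_eq_zero.1 (by omega))
lemma cone_trans {r u u' v : FreeGroup α} (h : u' ∈ cone r u) (h' : v ∈ cone r u') :
    v ∈ cone r u := by
  rw [geo_mem] at *
  have := dd_tri u u' v
  have := dd_tri r u v
  omega
lemma mem_cone_one {u v : FreeGroup α} : v ∈ cone 1 u ↔ u.toWord <+: v.toWord := by
  rw [geo_mem]
  simp only [dd, inv_one, one_mul]
  constructor
  · intro h
    have h1 := FreeGroup.toWord_mul_sublist u (u⁻¹ * v)
    rw [mul_inv_cancel_left] at h1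
    have h2 := h1.eq_of_length (by rw [List.length_append]; exact h)
    exact ⟨_, h2.symm⟩
  · rintro ⟨l, hl⟩
    have h1 : u⁻¹ * v = FreeGroup.mk l := by
      rw [inv_mul_eq_iff_eq_mul, ← FreeGroup.mk_toWord (x := v), ← hl, ← FreeGroup.mul_mk,
        FreeGroup.mk_toWord]
    have h2 : (u⁻¹ * v).norm ≤ l.length := h1 ▸ FreeGroup.norm_mk_le
    have h3 := FreeGroup.norm_mul_le u (u⁻¹ * v)
    rw [mul_inv_cancel_left] at h3
    have h4 : v.norm = u.norm + l.length := by
      unfold FreeGroup.norm; rw [← hl, List.length_append]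
    omega
lemma geo_cone_mul (g : FreeGroup α) {r u v : FreeGroup α} :
    g * v ∈ cone (g * r) (g * u) ↔ v ∈ cone r u := by
  simp only [geo_mem, dd_mul]
lemma geo_iff {r u v : FreeGroup α} :
    v ∈ cone r u ↔ (r⁻¹ * u).toWord <+: (r⁻¹ * v).toWord := by
  rw [← mem_cone_one, ← geo_cone_mul r⁻¹, inv_mul_cancel]
lemma cone_uniq {r u u' v : FreeGroup α} (h : v ∈ cone r u) (h' : v ∈ cone r u')
    (e : dd r u = dd r u') : u = u' := by
  rw [geo_iff] at h h'
  have := (List.prefix_of_prefix_length_le h h' e.le).eq_of_length e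
  exact mul_left_cancel (FreeGroup.toWord_injective this)
omit [DecidableEq α] in
lemma geo_left {c a : List (α × Bool)} (h : FreeGroup.IsReduced a) (hc : c <+: a) :
    FreeGroup.IsReduced c := by
  obtain ⟨l, rfl⟩ := hc
  exact (List.isChain_append.1 h).1
omit [DecidableEq α] in
lemma geo_tail {x : α × Bool} {a : List (α × Bool)} (h : FreeGroup.IsReduced (x :: a)) :
    FreeGroup.IsReduced a := (List.isChain_append.1 (show List.IsChain _ ([x] ++ a) from h)).2.1
lemma geo_word (r : FreeGroup α) {c : List (α × Bool)} (hc : FreeGroup.IsReduced c) :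
    (r⁻¹ * (r * FreeGroup.mk c)).toWord = c := by
  rw [inv_mul_cancel_left, FreeGroup.toWord_mk, hc.reduce_eq]
lemma exists_pre (r v : FreeGroup α) {j : ℕ} (hj : j ≤ dd r v) :
    ∃ u, dd r u = j ∧ v ∈ cone r u := by
  have hp := List.take_prefix j (r⁻¹ * v).toWord
  have hw := geo_word r (geo_left FreeGroup.isReduced_toWord hp)
  refine ⟨r * FreeGroup.mk ((r⁻¹ * v).toWord.take j), ?_, ?_⟩
  · unfold dd FreeGroup.norm
    rw [hw, List.length_take]
    exact min_eq_left hj
  · rw [geo_iff, hw]; exact hp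
lemma cone_nest {r u u' v : FreeGroup α} (h : v ∈ cone r u) (h' : v ∈ cone r u')
    (e : dd r u ≤ dd r u') : u' ∈ cone r u := by
  rw [geo_iff] at *
  exact List.prefix_of_prefix_length_le h h' e
lemma geo_invRev {a : List (α × Bool)} (ha : FreeGroup.IsReduced a) :
    FreeGroup.IsReduced (FreeGroup.invRev a) :=
  FreeGroup.IsReduced.of_reduce_eq (by rw [FreeGroup.reduce_invRev, ha.reduce_eq])
lemma geo_split (a : List (α × Bool)) : ∀ b : List (α × Bool), FreeGroup.IsReduced a →
    FreeGroup.IsReduced b → ∃ c a' b', a = c ++ a' ∧ b = c ++ b' ∧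
      FreeGroup.IsReduced (FreeGroup.invRev a' ++ b') := by
  induction a with
  | nil => exact fun b _ hb => ⟨[], [], b, rfl, rfl, by simpa using hb⟩
  | cons x a ih =>
    intro b ha hb
    cases b with
    | nil => exact ⟨[], x :: a, [], rfl, rfl, by rw [List.append_nil]; exact geo_invRev ha⟩
    | cons y b =>
      by_cases hxy : x = y
      · subst hxy
        obtain ⟨c, a', b', h1, h2, h3⟩ := ih b (geo_tail ha) (geo_tail hb)
        exact ⟨x :: c, a', b', by rw [h1]; rfl, by rw [h2]; rfl, h3⟩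
      · refine ⟨[], x :: a, y :: b, rfl, rfl, ?_⟩
        refine List.isChain_append.2 ⟨geo_invRev ha, hb, ?_⟩
        intro p hp q hq
        simp [FreeGroup.invRev] at hp hq
        subst hp hq
        intro h1
        by_contra h2
        apply hxy
        obtain ⟨x1, x2⟩ := x
        obtain ⟨y1, y2⟩ := y
        simp only at h1 h2
        subst h1
        cases x2 <;> cases y2 <;> simp_all
lemma tripod (r v t : FreeGroup α) :
    ∃ u, v ∈ cone r u ∧ t ∈ cone r u ∧ dd r v + dd r t = dd v t + 2 * dd r u := by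
  obtain ⟨c, a, b, h1, h2, h3⟩ := geo_split (r⁻¹ * v).toWord (r⁻¹ * t).toWord
    FreeGroup.isReduced_toWord FreeGroup.isReduced_toWord
  have hc : FreeGroup.IsReduced c :=
    geo_left FreeGroup.isReduced_toWord ⟨a, h1.symm⟩
  have hw := geo_word r hc
  refine ⟨r * FreeGroup.mk c, ?_, ?_, ?_⟩
  · rw [geo_iff, hw]; exact ⟨a, h1.symm⟩
  · rw [geo_iff, hw]; exact ⟨b, h2.symm⟩
  · have e1 : r⁻¹ * v = FreeGroup.mk c * FreeGroup.mk a := by
      rw [FreeGroup.mul_mk, ← h1, FreeGroup.mk_toWord]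
    have e2 : r⁻¹ * t = FreeGroup.mk c * FreeGroup.mk b := by
      rw [FreeGroup.mul_mk, ← h2, FreeGroup.mk_toWord]
    have e3 : v⁻¹ * t = FreeGroup.mk (FreeGroup.invRev a ++ b) := by
      have : v⁻¹ * t = (r⁻¹ * v)⁻¹ * (r⁻¹ * t) := by group
      rw [this, e1, e2, ← FreeGroup.mul_mk, ← FreeGroup.inv_mk]; group
    unfold dd FreeGroup.norm
    rw [hw, h1, h2, e3, FreeGroup.toWord_mk, h3.reduce_eq]
    simp only [List.length_append, FreeGroup.invRev_length]
    omega
lemma cone_cut {r u w w' : FreeGroup α} (hw : w ∉ cone r u) (hw' : w' ∈ cone r u) :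
    dd w w' = dd w u + dd u w' := by
  obtain ⟨m, h1, h2, h3⟩ := tripod r w w'
  by_cases hle : dd r u ≤ dd r m
  · exact absurd (cone_trans (cone_nest hw' h2 hle) h1) hw
  · have h4 := cone_nest h2 hw' (by omega)
    rw [geo_mem] at h1 h2 h4 hw'
    have := dd_tri w m u
    have := dd_tri w u w'
    have := dd_comm w m
    omega
lemma geo_pred {r u : FreeGroup α} (h : r ≠ u) :
    ∃ q, dd r q + 1 = dd r u ∧ dd q u = 1 ∧ (∀ z ∈ cone r u, dd z q = dd z u + 1) ∧
      ∀ z ∉ cone r u, dd z u = dd z q + 1 := by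
  have h0 : dd r u ≠ 0 := fun e => h (dd_eq_zero.1 e)
  obtain ⟨q, hq, hu⟩ := exists_pre r u (j := dd r u - 1) (by omega)
  have hqu : dd q u = 1 := by rw [geo_mem] at hu; omega
  refine ⟨q, by omega, hqu, fun z hz => ?_, fun z hz => ?_⟩
  · have hq' : q ∉ cone r u := by rw [geo_mem]; omega
    have := cone_cut hq' hz
    have := dd_comm z q
    have := dd_comm z u
    omega
  · obtain ⟨m, h1, h2, h3⟩ := tripod r z u
    by_cases hle : dd r u ≤ dd r m
    · exact absurd (cone_trans (cone_nest (self_mem_cone r u) h2 hle) h1) hz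
    · have h4 := cone_nest h2 hu (by omega)
      rw [geo_mem] at h1 h2 h4
      have := dd_tri z m q
      have := dd_tri z q u
      have := dd_comm z m
      omega
lemma cone_reroot {r u w : FreeGroup α} (hw : w ∉ cone r u) : cone w u = cone r u := by
  have h : r ≠ u := by
    rintro rfl
    exact hw (by rw [cone_self]; trivial)
  obtain ⟨q, -, -, -, h4⟩ := geo_pred h
  ext v
  refine ⟨fun hv => ?_, fun hv => cone_cut hw hv⟩
  by_contra hv'
  rw [geo_mem] at hv
  have := h4 w hw
  have := h4 v hv'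
  have := dd_tri w q v
  have := dd_comm v q
  have := dd_comm v u
  omega
lemma cone_half {r u : FreeGroup α} (h : r ≠ u) :
    ∃ q, dd q u = 1 ∧ cone r u = half q u ∧ (cone r u)ᶜ = half u q := by
  obtain ⟨q, -, h2, h3, h4⟩ := geo_pred h
  refine ⟨q, h2, ?_, ?_⟩
  · ext z
    change _ ↔ dd z u < dd z q
    refine ⟨fun hz => by have := h3 z hz; omega, fun hz => ?_⟩
    by_contra hz'
    have := h4 z hz'
    omega
  · ext z
    change _ ↔ dd z q < dd z u
    refine ⟨fun hz => by have := h4 z hz; omega, fun hz hz' => ?_⟩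
    have := h3 z hz'
    omega
lemma geo_adj {m a : FreeGroup α} (h : dd m a = 1) :
    (∀ z ∈ cone m a, dd z m = dd z a + 1) ∧ ∀ z ∉ cone m a, dd z a = dd z m + 1 := by
  have hne : m ≠ a := fun e => by rw [dd_eq_zero.2 e] at h; omega
  obtain ⟨q, h1, -, h3, h4⟩ := geo_pred hne
  have : m = q := dd_eq_zero.1 (by omega)
  subst this
  exact ⟨h3, h4⟩
lemma cone_disjoint {m a m' a' : FreeGroup α} (h : dd m a = 1) (h' : dd m' a' = 1) (hm : m ≠ m')
    (h1 : m' ∉ cone m a) (h2 : m ∉ cone m' a') : Disjoint (cone m a) (cone m' a') := by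
  rw [Set.disjoint_left]
  intro v hv hv'
  have e1 := cone_cut h1 hv
  have e2 := cone_cut h2 hv'
  have e3 := (geo_adj h).2 m' h1
  have e4 := (geo_adj h').2 m h2
  have e5 : dd m m' ≠ 0 := fun e => hm (dd_eq_zero.1 e)
  rw [geo_mem] at hv hv'
  omega

end Vale.Agent.P165
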