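import Vale.Agent.P165.Spr
import Vale.Agent.P165.Inv
import Vale.Agent.P165.Geo

open Classical
open scoped ENNReal

namespace Vale.Agent.P165

open Vale.Agent.P151

universe u

variable {V : Type*} {α : Type*} [DecidableEq α]

variable {Γ : SimpleGraph V}

lemma decay_half {M C : ℝ≥0∞} (hM : M ≠ ⊤) (h : M ≤ C + 2⁻¹ * M) : M ≤ 2 * C := by
  have h1 : 2⁻¹ * M + 2⁻¹ * M ≤ C + 2⁻¹ * M := by
    rwa [← add_mul, ENNReal.inv_two_add_inv_two, one_mul]
  have h2 : 2⁻¹ * M ≤ C :=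
    (ENNReal.add_le_add_iff_right (ENNReal.mul_ne_top (by simp) hM)).1 h1
  calc M = 2 * (2⁻¹ * M) := by
        rw [← mul_assoc, ENNReal.mul_inv_cancel (by simp) (by simp), one_mul]
    _ ≤ 2 * C := by gcongr

lemma decay_eta {c : ℝ≥0∞} (hc : c ≠ ⊤) :
    ∃ η : ℝ, 0 < η ∧ η ≤ 1 ∧ ENNReal.ofReal η * c ≤ 2⁻¹ := by
  have h0 : 0 ≤ c.toReal := ENNReal.toReal_nonneg
  refine ⟨1 / (2 * (c.toReal + 1)), by positivity, ?_, ?_⟩
  · rw [div_le_one (by positivity)]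
    linarith
  · rw [← ENNReal.ofReal_toReal hc, ← ENNReal.ofReal_mul (by positivity),
      ENNReal.toReal_ofReal h0, ← ENNReal.ofReal_ofNat, ← ENNReal.ofReal_inv_of_pos two_pos]
    refine ENNReal.ofReal_le_ofReal ?_
    rw [div_mul_eq_mul_div, div_le_iff₀ (by positivity)]
    linarith
/-- the tilted bound survives a uniform amount of sprinkling -/
theorem decay {π : V → FreeGroup α} {L Δ : ℕ} (hΔ : ∀ a, ∑' b, ii (Γ.Adj a b) ≤ Δ)
    (hL : ∀ a b, Γ.Adj a b → dd (π a) (π b) ≤ L) {C θ : ℝ≥0∞} (hC : C ≠ ⊤) (hθ : θ ≠ 0)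
    (hθ1 : θ < 1) : ∃ η : ℝ, 0 < η ∧ η ≤ 1 ∧ ∀ p q : ℝ, 0 ≤ p → p ≤ 1 → 0 ≤ q →
      q ≤ p + η * (1 - p) →
      (∀ x t, ∑' y, θ ^ dd (π y) t * tau (wU p Γ.edgeSet) x y ≤ C * θ ^ dd (π x) t) →
      ∀ x y, tau (wU q Γ.edgeSet) x y ≤ 2 * C * θ ^ dd (π x) (π y) := by
  have hθt : θ ≠ ⊤ := hθ1.ne_top
  have hi : θ⁻¹ ≠ ⊤ := ENNReal.inv_ne_top.2 hθ
  have hcan : ∀ n : ℕ, θ⁻¹ ^ n * θ ^ n = 1 := fun n => by
    rw [← mul_pow, ENNReal.inv_mul_cancel hθ hθt, one_pow]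
  obtain ⟨η, hη0, hη1, hη⟩ := decay_eta (c := Δ * θ⁻¹ ^ L * C)
    (ENNReal.mul_ne_top (ENNReal.mul_ne_top (by simp) (ENNReal.pow_ne_top hi)) hC)
  refine ⟨η, hη0, hη1, fun p q hp0 hp1 hq0 hq h x y => ?_⟩
  have hp'0 : 0 ≤ p + η * (1 - p) := hq0.trans hq
  have hp'1 : p + η * (1 - p) ≤ 1 := by nlinarith
  refine (tau_mono_wU hq0 hq hp'1 subset_rfl x y).trans ?_
  rw [tau_eq_iSup hp'0 hp'1]
  refine iSup_le fun F => ?_
  obtain ⟨T, hT⟩ : ∃ T : V → ℝ≥0∞, ∀ x, T x = tau (wU (p + η * (1 - p)) (Γ.edgeSet ∩ F)) x y :=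
    ⟨_, fun _ => rfl⟩
  obtain ⟨M, hM⟩ : ∃ M, M = ⨆ x, T x * θ⁻¹ ^ dd (π x) (π y) := ⟨_, rfl⟩
  have hTM : ∀ x, T x ≤ M * θ ^ dd (π x) (π y) := fun x => by
    calc T x = T x * θ⁻¹ ^ dd (π x) (π y) * θ ^ dd (π x) (π y) := by
          rw [mul_assoc, hcan, mul_one]
      _ ≤ _ := by
          gcongr
          rw [hM]
          exact le_iSup (fun x => T x * θ⁻¹ ^ dd (π x) (π y)) x
  have hfin : M ≠ ⊤ := by
    obtain ⟨W, hW⟩ := tau_fin_supp (p + η * (1 - p)) Γ.edgeSet F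
    refine ne_top_of_le_ne_top (b := ∑ x ∈ insert y W, θ⁻¹ ^ dd (π x) (π y))
      (ENNReal.sum_ne_top.2 fun x _ => ENNReal.pow_ne_top hi) ?_
    rw [hM]
    refine iSup_le fun x => ?_
    by_cases hx : x ∈ insert y W
    · refine le_trans ?_ (Finset.single_le_sum (f := fun x => θ⁻¹ ^ dd (π x) (π y))
        (fun _ _ => zero_le) hx)
      refine mul_le_of_le_one_left' ?_
      rw [hT]
      exact tau_le_one (wU_ok hp'0 hp'1 _) _ _
    · rw [Finset.mem_insert, not_or] at hx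
      rw [hT, hW x y hx.1 (Or.inl hx.2), zero_mul]
      exact zero_le
  have hstep : ∀ x, T x ≤ (C + 2⁻¹ * M) * θ ^ dd (π x) (π y) := fun x => by
    have h1 := sprinkle (w' := wU (p + η * (1 - p)) (Γ.edgeSet ∩ F))
      (wU_ok hp0 hp1 (Γ.edgeSet ∩ F)) (wU_ok hη0.le hη1 (Γ.edgeSet ∩ F)) (fun e => by
        unfold wU
        split_ifs <;> ring) x y
    simp only [← hT] at h1
    have hτ : ∀ a, tau (wU p (Γ.edgeSet ∩ F)) x a ≤ tau (wU p Γ.edgeSet) x a := fun a =>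
      tau_mono_wU hp0 le_rfl hp1 Set.inter_subset_left x a
    rw [add_mul]
    refine h1.trans (add_le_add ((hτ y).trans (le_trans ?_ (h x (π y)))) ?_)
    · refine le_trans ?_ (ENNReal.le_tsum y)
      rw [dd_self, pow_zero, one_mul]
    · have h2 : ∀ a b, tau (wU p (Γ.edgeSet ∩ F)) x a *
          (ENNReal.ofReal (wU η (Γ.edgeSet ∩ F) s(a, b)) * T b) ≤
          θ ^ dd (π a) (π y) * tau (wU p Γ.edgeSet) x a * (ENNReal.ofReal η * M * θ⁻¹ ^ L) *
            ii (Γ.Adj a b) := fun a b => by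
        by_cases he : s(a, b) ∈ Γ.edgeSet ∩ F
        · have hab : Γ.Adj a b := he.1
          have h3 : θ ^ dd (π b) (π y) ≤ θ⁻¹ ^ L * θ ^ dd (π a) (π y) := by
            calc θ ^ dd (π b) (π y) = θ⁻¹ ^ L * θ ^ (L + dd (π b) (π y)) := by
                  rw [pow_add, ← mul_assoc, hcan, one_mul]
              _ ≤ _ := by
                  have := dd_tri (π a) (π b) (π y)
                  have := hL a b hab
                  exact mul_le_mul_right (pow_le_pow_of_le_one zero_le hθ1.le (by omega)) _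
          rw [ii_true hab, wU, if_pos he]
          calc _ ≤ tau (wU p Γ.edgeSet) x a *
                (ENNReal.ofReal η * (M * (θ⁻¹ ^ L * θ ^ dd (π a) (π y)))) := by
                gcongr
                · exact hτ a
                · exact (hTM b).trans (mul_le_mul_right h3 _)
            _ = _ := by ring
        · rw [wU, if_neg he]
          simp
      calc _ ≤ ∑' a, θ ^ dd (π a) (π y) * tau (wU p Γ.edgeSet) x a *
            (ENNReal.ofReal η * M * θ⁻¹ ^ L) * Δ := by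
            refine ENNReal.tsum_le_tsum fun a => ?_
            refine (ENNReal.tsum_le_tsum (h2 a)).trans ?_
            rw [ENNReal.tsum_mul_left]
            exact mul_le_mul_right (hΔ a) _
        _ ≤ C * θ ^ dd (π x) (π y) * (ENNReal.ofReal η * M * θ⁻¹ ^ L) * Δ := by
            rw [ENNReal.tsum_mul_right, ENNReal.tsum_mul_right]
            gcongr
            exact h x (π y)
        _ = ENNReal.ofReal η * (Δ * θ⁻¹ ^ L * C) * M * θ ^ dd (π x) (π y) := by ring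
        _ ≤ _ := by gcongr
  have hM2 : M ≤ 2 * C := by
    refine decay_half hfin ?_
    conv_lhs => rw [hM]
    refine iSup_le fun x => ?_
    calc T x * θ⁻¹ ^ dd (π x) (π y) ≤
          (C + 2⁻¹ * M) * θ ^ dd (π x) (π y) * θ⁻¹ ^ dd (π x) (π y) := by
          gcongr
          exact hstep x
      _ = _ := by rw [mul_assoc, mul_comm (θ ^ _), hcan, mul_one]
  rw [← hT]
  exact (hTM x).trans (mul_le_mul_left hM2 _)

end Vale.Agent.P165
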