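import Vale.Agent.P165.Defs
import Vale.Agent.P151.Bridge

/-! Internal definitions. -/

open Classical
open scoped ENNReal

namespace Vale.Agent.P165

open Vale.Agent.P151

variable {V : Type*} {α : Type*} [DecidableEq α]

/-- indicator -/
noncomputable def ii (P : Prop) : ℝ≥0∞ := if P then 1 else 0

lemma ii_true {P : Prop} (h : P) : ii P = 1 := if_pos h
lemma ii_false {P : Prop} (h : ¬ P) : ii P = 0 := if_neg h
lemma ii_le_one (P : Prop) : ii P ≤ 1 := by unfold ii; split_ifs <;> simp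
lemma ii_mono {P Q : Prop} (h : P → Q) : ii P ≤ ii Q := by
  by_cases hP : P
  · rw [ii_true hP, ii_true (h hP)]
  · rw [ii_false hP]; exact zero_le
lemma ii_congr {P Q : Prop} (h : P ↔ Q) : ii P = ii Q := by rw [propext h]
lemma ii_and (P Q : Prop) : ii (P ∧ Q) = ii P * ii Q := by
  by_cases hP : P <;> by_cases hQ : Q <;> simp [ii, hP, hQ]

/-- weight `p` on the edges of `U`, zero elsewhere -/
noncomputable def wU (p : ℝ) (U : Set (Sym2 V)) : Sym2 V → ℝ := fun e => if e ∈ U then p else 0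

lemma wU_ok {p : ℝ} (h0 : 0 ≤ p) (h1 : p ≤ 1) (U : Set (Sym2 V)) : Ok (wU p U) := by
  intro e; unfold wU; split_ifs <;> simp [h0, h1]

/-- two-point function -/
noncomputable def tau (w : Sym2 V → ℝ) (x y : V) : ℝ≥0∞ :=
  ⨆ F : Finset (Sym2 V), ENNReal.ofReal (Pr F w (fun ω => Conn ω x y))

/-- two-point function inside the preimage of `R` -/
noncomputable def tR (Γ : SimpleGraph V) (π : V → FreeGroup α) (p : ℝ) (R : Set (FreeGroup α))
    (x y : V) : ℝ≥0∞ := tau (wU p (inE Γ (π ⁻¹' R))) x y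

/-- susceptibility -/
noncomputable def chi (Γ : SimpleGraph V) (p : ℝ) : ℝ≥0∞ :=
  ⨆ x, ∑' y, tau (wU p Γ.edgeSet) x y

/-- the Duminil-Copin and Tassion quantity -/
noncomputable def phi (Γ : SimpleGraph V) (p : ℝ) (x : V) (S : Finset V) : ℝ≥0∞ :=
  ∑' a, ∑' b, ii (Γ.Adj a b ∧ a ∈ S ∧ b ∉ S) *
    (ENNReal.ofReal p * tau (wU p (inE Γ (S : Set V))) x a)

/-- the vertices behind `u`, seen from `r` -/
def cone (r u : FreeGroup α) : Set (FreeGroup α) := {v | dd r v = dd r u + dd u v}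

/-- free directions -/
def PP (C : Type*) [Group C] : Prop :=
  ∃ (E : Fin 4 → Set C) (H : Finset C), (∀ l z, ∃ h ∈ H, h * z ∈ E l) ∧
    ∀ S : Finset C, ∃ S' ⊆ S, S.card ≤ 2 * S'.card ∧ ∃ l : C → Fin 4,
      ∀ m ∈ S', ∀ m' ∈ S', m ≠ m' → ∀ z ∈ E (l m), ∀ z' ∈ E (l m'), m * z ≠ m' * z'

/-- the lower gluing bound -/
def Low (π : V → FreeGroup α) (τ : Set (FreeGroup α) → V → V → ℝ≥0∞) (K : ℕ → ℝ≥0∞) : Prop :=
  ∀ (d : ℕ) (r u r' u' : FreeGroup α) (x x' : V) (R : Set (FreeGroup α)), r ≠ u → r' ≠ u' →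
    Disjoint R (cone r u) → dd (π x') u' ≤ d → π x' ∉ cone r' u' →
    (∑' w, ii (dd (π w) u ≤ d) * τ R x w) * (∑' y, τ (cone r' u')ᶜ x' y)
      ≤ K d * ∑' y, ii (π y ∈ cone r u) * τ Set.univ x y

/-- the properties of the restricted two-point functions used in the tree argument -/
structure Ker (Γ : SimpleGraph V) (π : V → FreeGroup α) (τ : Set (FreeGroup α) → V → V → ℝ≥0∞)
    (L Δ : ℕ) (K : ℕ → ℝ≥0∞) : Prop where
  lip : ∀ a b, Γ.Adj a b → dd (π a) (π b) ≤ L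
  deg : ∀ a, ∑' b, ii (Γ.Adj a b) ≤ Δ
  mono : ∀ R R' x y, R ⊆ R' → τ R x y ≤ τ R' x y
  supp : ∀ R x y, π x ∈ R → π y ∉ R → τ R x y = 0
  one : ∀ R x, 1 ≤ τ R x x
  up : ∀ R' R x y, R' ⊆ R → π x ∈ R' → τ R x y ≤ τ R' x y +
    ∑' a, ∑' b, ii (Γ.Adj a b ∧ π a ∈ R' ∧ π b ∉ R' ∧ π b ∈ R) * (τ R' x a * τ R b y)
  low : Low π τ K
  fin : (⨆ x, ∑' y, τ Set.univ x y) ≠ ⊤

/-- expected number of points near `u` reached from `x` outside the cone behind `u` -/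
noncomputable def ee (π : V → FreeGroup α) (τ : Set (FreeGroup α) → V → V → ℝ≥0∞) (L : ℕ)
    (x : V) (u : FreeGroup α) : ℝ≥0∞ :=
  ∑' w, ii (dd (π w) u ≤ L) * τ (cone (π x) u)ᶜ x w

/-- expected number of points of the cluster of `x` in the cone behind `u` -/
noncomputable def nu (π : V → FreeGroup α) (τ : Set (FreeGroup α) → V → V → ℝ≥0∞)
    (x : V) (u : FreeGroup α) : ℝ≥0∞ :=
  ∑' y, ii (π y ∈ cone (π x) u) * τ Set.univ x y

end Vale.Agent.P165
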