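import Vale.Agent.P165.Def2

/-! Internal definitions for the second part (arbitrary kernels). -/

open Classical
open scoped ENNReal

namespace Vale.Agent.P165

open Vale.Agent.P151

universe u

variable {V : Type*} {α : Type*} [DecidableEq α]

/-- connected to a vertex of the list -/
def cv (ω : Set (Sym2 V)) (l : List V) (x : V) : Prop := ∃ y ∈ l, Conn ω y x

/-- two-copy family attached to an exploration stack (head first) -/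
def fam (γ : List V) (c b : V) (ω₁ ω₂ : Set (Sym2 V)) : Prop :=
  ∃ γ₂ u γ₁, γ = γ₂ ++ u :: γ₁ ∧ cv ω₁ (u :: γ₁) c ∧
    (Conn ω₂ c b ∨ (cv ω₂ (γ₂ ++ [u]) c ∧ cv ω₂ (γ₂ ++ [u]) b))

/-- probability under two independent copies -/
noncomputable def Pr2 {E : Type*} (F : Finset E) (w : E → ℝ) (A : Set E → Set E → Prop) : ℝ :=
  Ex F w (fun ω₁ => Pr F w (fun ω₂ => A ω₁ ω₂))

/-- equivariant projection to the tree -/
structure Sj (Γ : SimpleGraph V) {G : Type u} [Group G] [MulAction G V] (φ : G →* FreeGroup α)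
    (π : V → FreeGroup α) : Prop where
  geom : Geom Γ G
  surj : Function.Surjective φ
  eqv : ∀ g v, π (g • v) = φ g * π v

/-- expected number of returns near the apex inside a half-tree -/
noncomputable def mm (π : V → FreeGroup α) (τ : Set (FreeGroup α) → V → V → ℝ≥0∞) (D : ℕ) :
    ℝ≥0∞ :=
  ⨆ (q : FreeGroup α) (u : FreeGroup α) (w : V) (_ : dd q u = 1 ∧ dd (π w) u ≤ D),
    ∑' w', ii (dd (π w') u ≤ D) * τ (half q u) w w'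

/-- lower gluing with two radii -/
def Low2 (π : V → FreeGroup α) (τ : Set (FreeGroup α) → V → V → ℝ≥0∞) (d₁ d₂ : ℕ) (K : ℝ≥0∞) :
    Prop :=
  ∀ (r u r' u' : FreeGroup α) (x x' : V) (R : Set (FreeGroup α)), r ≠ u → r' ≠ u' →
    Disjoint R (cone r u) → dd (π x') u' ≤ d₂ → π x' ∉ cone r' u' →
    (∑' w, ii (dd (π w) u ≤ d₁) * τ R x w) * (∑' y, τ (cone r' u')ᶜ x' y)
      ≤ K * ∑' y, ii (π y ∈ cone r u) * τ Set.univ x y

/-- Harnack property -/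
def HarP (Γ : SimpleGraph V) (π : V → FreeGroup α) (p₀ : ℝ) (D₀ : ℕ) : Prop :=
  ∀ D, ∃ C : ℝ≥0∞, C ≠ ⊤ ∧ ∀ p, p₀ ≤ p → p ≤ 1 → mm π (tR Γ π p) D ≤ C * mm π (tR Γ π p) D₀

section
variable {G : Type u} [Group G] [MulAction G V]

/-- translate of a finite set of edges -/
def tr (g : G) (P : Finset (Sym2 V)) : Set (Sym2 V) := Sym2.map (g • ·) '' (P : Set (Sym2 V))

/-- translate of a set of vertices -/
def sh (g : G) (A : Set V) : Set V := {v | g⁻¹ • v ∈ A}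

/-- square root of the two-point function inside `A` -/
noncomputable def sq (Γ : SimpleGraph V) (p : ℝ) (A : Set V) (x y : V) : ℝ :=
  Real.sqrt (tau (wU p (inE Γ A)) x y).toReal

end

/-- data of the branching construction -/
structure Cf (V : Type*) (G : Type u) [Group G] where
  N : Subgroup G
  A : Set V
  B : Set V
  w : V
  w' : V
  z : V
  Q1 : Finset (Sym2 V)
  Q2 : Finset (Sym2 V)
  I : Finset G
  Pa : G → Finset (Sym2 V)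
  Pb : G → Finset (Sym2 V)

variable {G : Type u} [Group G] [MulAction G V]

/-- geometry of the branching construction -/
structure Cf.Fine (c : Cf V G) (Γ : SimpleGraph V) : Prop where
  nor : c.N.Normal
  invA : ∀ n ∈ c.N, ∀ v : V, n • v ∈ c.A ↔ v ∈ c.A
  invB : ∀ n ∈ c.N, ∀ v : V, n • v ∈ c.B ↔ v ∈ c.B
  dis : Disjoint c.A c.B
  zB : c.z ∈ c.B
  q1 : (c.Q1 : Set (Sym2 V)) ⊆ Γ.edgeSet
  q1d : Disjoint (c.Q1 : Set (Sym2 V)) (inE Γ c.B)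
  q2 : (c.Q2 : Set (Sym2 V)) ⊆ inE Γ c.B
  qc : ∀ ω : Set (Sym2 V), (c.Q1 : Set (Sym2 V)) ⊆ ω → (c.Q2 : Set (Sym2 V)) ⊆ ω → Conn ω c.w' c.z
  subA : ∀ f ∈ c.I, sh f c.A ⊆ c.B
  subB : ∀ f ∈ c.I, sh f c.B ⊆ c.B
  q1s : ∀ f ∈ c.I, tr f c.Q1 ⊆ inE Γ c.B
  q2d : ∀ f ∈ c.I, Disjoint (c.Q2 : Set (Sym2 V)) (inE Γ (sh f c.B))
  pa : ∀ f ∈ c.I, (c.Pa f : Set (Sym2 V)) ⊆ inE Γ c.B
  paA : ∀ f ∈ c.I, Disjoint (c.Pa f : Set (Sym2 V)) (inE Γ (sh f c.A))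
  paB : ∀ f ∈ c.I, Disjoint (c.Pa f : Set (Sym2 V)) (inE Γ (sh f c.B))
  pb : ∀ f ∈ c.I, (c.Pb f : Set (Sym2 V)) ⊆ inE Γ c.B
  pbB : ∀ f ∈ c.I, Disjoint (c.Pb f : Set (Sym2 V)) (inE Γ (sh f c.B))
  pc : ∀ f ∈ c.I, ∀ ω : Set (Sym2 V), (c.Pa f : Set (Sym2 V)) ⊆ ω → (c.Pb f : Set (Sym2 V)) ⊆ ω →
    Conn ω c.z (f • c.w)
  dj : ∀ f ∈ c.I, ∀ f' ∈ c.I, f ≠ f' → Disjoint (sh f c.B) (sh f' c.B)

/-- energy of `S` in the direction `f` -/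
noncomputable def Cf.en (c : Cf V G) (Γ : SimpleGraph V) (p : ℝ) (f : G) (S : Finset G) : ℝ :=
  ∑ n ∈ S, ∑ n' ∈ S, sq Γ p c.A ((f⁻¹ * n * f) • c.w) ((f⁻¹ * n' * f) • c.w)

/-- good sets -/
def Cf.good (c : Cf V G) (Γ : SimpleGraph V) (p : ℝ) (M : ℕ) (E : ℝ) (S : Finset G) : Prop :=
  (∀ n ∈ S, n ∈ c.N) ∧ S.card = M ∧ ∑ f ∈ c.I, c.en Γ p f S ≤ c.I.card * E

/-- at least `M` returns -/
def Cf.Big (c : Cf V G) (Γ : SimpleGraph V) (M : ℕ) (g : G) (ω : Set (Sym2 V)) : Prop :=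
  ∃ S : Finset G, (∀ n ∈ S, n ∈ c.N) ∧ S.card = M ∧
    ∀ n ∈ S, Conn (ω ∩ inE Γ (sh g c.A)) (g • c.w) ((g * n) • c.w')

/-- a good set of returns -/
def Cf.Gd (c : Cf V G) (Γ : SimpleGraph V) (p : ℝ) (M : ℕ) (E : ℝ) (g : G)
    (ω : Set (Sym2 V)) : Prop :=
  ∃ S, c.good Γ p M E S ∧
    ∀ n ∈ S, Conn (ω ∩ inE Γ (sh g c.A)) (g • c.w) ((g * n) • c.w') ∧ tr (g * n) c.Q1 ⊆ ω

/-- success in the direction `f` -/
def Cf.Suc (c : Cf V G) (Γ : SimpleGraph V) (p : ℝ) (M : ℕ) (E : ℝ) (f : G) (S : Finset G)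
    (ω : Set (Sym2 V)) : Prop :=
  ∃ n ∈ S, tr n c.Q2 ⊆ ω ∧ tr n (c.Pa f) ⊆ ω ∧ tr n (c.Pb f) ⊆ ω ∧ c.Gd Γ p M E (n * f) ω

/-- `y` is reached from `S` in the fresh region -/
def Cf.ev (c : Cf V G) (Γ : SimpleGraph V) (S : Finset G) (y : V) (ω : Set (Sym2 V)) : Prop :=
  ∃ n ∈ S, tr n c.Q2 ⊆ ω ∧ Conn (ω ∩ inE Γ c.B) (n • c.z) y

/-- expected number of points reached from `S` in the fresh region -/
noncomputable def Cf.psi (c : Cf V G) (Γ : SimpleGraph V) (p : ℝ) (S : Finset G) : ℝ≥0∞ :=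
  ∑' y, ii (y ∈ c.B) *
    ⨆ F : Finset (Sym2 V), ENNReal.ofReal (Pr F (wU p Γ.edgeSet) (c.ev Γ S y))

end Vale.Agent.P165
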