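import Vale.Agent.P165.Defs

/-! Definitions used in the statement: cocompact irreducible actions on regular trees. -/

namespace Vale.Agent.P165

universe u

variable {α : Type*} [DecidableEq α]

/-- An action on the regular tree by automorphisms, with finitely many orbits, such that every
half-tree can be moved into every other one. -/
structure TreeAct {G : Type u} [Group G] (ρ : G →* Equiv.Perm (FreeGroup α)) : Prop where
  iso : ∀ g u v, dd (ρ g u) (ρ g v) = dd u v
  cof : ∃ s : Finset (FreeGroup α), ∀ v, ∃ g, ρ g v ∈ s
  irr : ∀ s t s' t', dd s t = 1 → dd s' t' = 1 → ∃ g, ∀ v ∈ half s' t', ρ g v ∈ half s t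

/-- `G` has such an action on a regular tree of finite even degree at least four. -/
def ActsOnTree (G : Type u) [Group G] : Prop :=
  ∃ (α : Type) (_ : Finite α) (_ : Nontrivial α) (_ : DecidableEq α)
    (ρ : G →* Equiv.Perm (FreeGroup α)), TreeAct ρ

end Vale.Agent.P165
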