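import Vale.Agent.P165.Def3
import Vale.Agent.P165.Defs4

/-! Internal definitions for the third part (arbitrary tree actions). -/

open Classical
open scoped ENNReal

namespace Vale.Agent.P165

open Vale.Agent.P151

universe u

variable {V : Type*} {α : Type*} [DecidableEq α]

/-- equivariant projection to the tree -/
structure Tj (Γ : SimpleGraph V) {G : Type u} [Group G] [MulAction G V]
    (ρ : G →* Equiv.Perm (FreeGroup α)) (π : V → FreeGroup α) : Prop where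
  geom : Geom Γ G
  act : TreeAct ρ
  eqv : ∀ g v, π (g • v) = ρ g (π v)

/-- pointwise stabiliser of a list of tree vertices -/
def fx {G : Type u} [Group G] (ρ : G →* Equiv.Perm (FreeGroup α)) (l : List (FreeGroup α)) :
    Subgroup G where
  carrier := {g | ∀ t ∈ l, ρ g t = t}
  one_mem' := by simp
  mul_mem' := by
    intro a b h1 h2 t ht
    simp [h1 t ht, h2 t ht]
  inv_mem' := by
    intro a h1 t ht
    rw [map_inv, Equiv.Perm.inv_eq_iff_eq]; exact (h1 t ht).symm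

lemma mem_fx {G : Type u} [Group G] {ρ : G →* Equiv.Perm (FreeGroup α)} {l : List (FreeGroup α)}
    {g : G} : g ∈ fx ρ l ↔ ∀ t ∈ l, ρ g t = t := Iff.rfl

/-- correctly oriented copies at a level in the window -/
def Ori {G : Type u} [Group G] (ρ : G →* Equiv.Perm (FreeGroup α)) (q u a t : FreeGroup α)
    (ℓ ℓ' : ℕ) (g : G) : Prop :=
  ρ g q ∈ cone u t ∧ ℓ ≤ dd u (ρ g q) ∧ dd u (ρ g q) ≤ ℓ' ∧ ρ g u ∈ cone u (ρ g q) ∧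
    ρ g a ∈ cone u (ρ g q)

/-- data of the branching construction -/
structure Cg (V : Type*) (G : Type u) [Group G] extends Cf V G where
  C : Subgroup G
  s : G → G → G
  R : Finset G
  D : ℕ

variable {G : Type u} [Group G] [MulAction G V]

/-- geometry of the branching construction -/
structure Cg.Fine (c : Cg V G) (Γ : SimpleGraph V) : Prop where
  le : c.N ≤ c.C
  invA : ∀ n ∈ c.C, ∀ v : V, n • v ∈ c.A ↔ v ∈ c.A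
  invB : ∀ n ∈ c.N, ∀ v : V, n • v ∈ c.B ↔ v ∈ c.B
  dis : Disjoint c.A c.B
  zB : c.z ∈ c.B
  q1 : (c.Q1 : Set (Sym2 V)) ⊆ Γ.edgeSet
  q1d : Disjoint (c.Q1 : Set (Sym2 V)) (inE Γ c.B)
  q2 : (c.Q2 : Set (Sym2 V)) ⊆ inE Γ c.B
  qc : ∀ ω : Set (Sym2 V), (c.Q1 : Set (Sym2 V)) ⊆ ω → (c.Q2 : Set (Sym2 V)) ⊆ ω → Conn ω c.w' c.z
  subA : ∀ f ∈ c.I, sh f c.A ⊆ c.B
  subB : ∀ f ∈ c.I, sh f c.B ⊆ c.B
  q1s : ∀ f ∈ c.I, ∀ n ∈ c.N, tr (f * n) c.Q1 ⊆ inE Γ c.B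
  q2d : ∀ f ∈ c.I, Disjoint (c.Q2 : Set (Sym2 V)) (inE Γ (sh f c.B))
  pa : ∀ f ∈ c.I, (c.Pa f : Set (Sym2 V)) ⊆ inE Γ c.B
  paA : ∀ f ∈ c.I, Disjoint (c.Pa f : Set (Sym2 V)) (inE Γ (sh f c.A))
  paB : ∀ f ∈ c.I, Disjoint (c.Pa f : Set (Sym2 V)) (inE Γ (sh f c.B))
  pb : ∀ f ∈ c.I, (c.Pb f : Set (Sym2 V)) ⊆ inE Γ c.B
  pbB : ∀ f ∈ c.I, Disjoint (c.Pb f : Set (Sym2 V)) (inE Γ (sh f c.B))
  pc : ∀ f ∈ c.I, ∀ ω : Set (Sym2 V), (c.Pa f : Set (Sym2 V)) ⊆ ω → (c.Pb f : Set (Sym2 V)) ⊆ ω →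
    Conn ω c.z (f • c.w)
  perm : ∀ n ∈ c.N, ∀ f ∈ c.I, c.s n f ∈ c.I ∧ f⁻¹ * n * c.s n f ∈ c.C
  cos : ∀ ν ∈ c.C, ∃ γ ∈ c.R, γ⁻¹ * ν ∈ c.N
  ov : ∀ m : G → G, (∀ f ∈ c.I, m f ∈ c.N) → ∀ y : V,
    (c.I.filter fun f => y ∈ sh (m f * c.s (m f) f) c.B).card ≤ c.D

/-- energy of `S` in the direction `f` -/
noncomputable def Cg.en (c : Cg V G) (Γ : SimpleGraph V) (p : ℝ) (f : G) (S : Finset G) : ℝ :=
  ∑ n ∈ S, ∑ n' ∈ S, sq Γ p c.A ((f⁻¹ * n * c.s n f) • c.w) ((f⁻¹ * n' * c.s n' f) • c.w)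

/-- good sets -/
def Cg.good (c : Cg V G) (Γ : SimpleGraph V) (p : ℝ) (M : ℕ) (E : ℝ) (S : Finset G) : Prop :=
  (∀ n ∈ S, n ∈ c.N) ∧ S.card = M ∧ ∑ f ∈ c.I, c.en Γ p f S ≤ c.I.card * E

/-- a good set of returns -/
def Cg.Gd (c : Cg V G) (Γ : SimpleGraph V) (p : ℝ) (M : ℕ) (E : ℝ) (g : G)
    (ω : Set (Sym2 V)) : Prop :=
  ∃ S, c.good Γ p M E S ∧
    ∀ n ∈ S, Conn (ω ∩ inE Γ (sh g c.A)) (g • c.w) ((g * n) • c.w') ∧ tr (g * n) c.Q1 ⊆ ω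

/-- success in the direction `f` -/
def Cg.Suc (c : Cg V G) (Γ : SimpleGraph V) (p : ℝ) (M : ℕ) (E : ℝ) (f : G) (S : Finset G)
    (ω : Set (Sym2 V)) : Prop :=
  ∃ n ∈ S, tr n c.Q2 ⊆ ω ∧ tr n (c.Pa (c.s n f)) ⊆ ω ∧ tr n (c.Pb (c.s n f)) ⊆ ω ∧
    c.Gd Γ p M E (n * c.s n f) ω

end Vale.Agent.P165
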