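import Vale.Agent.P151.Defs

/-! Definitions used in the statement: uniqueness threshold, groups acting on trees. -/

namespace Vale.Agent.P165

universe u

variable {V : Type*}

/-- The configuration `ω` has exactly one infinite open cluster. -/
def UniqueInf (ω : Set (Sym2 V)) : Prop :=
  ∃ x : V, {y | (SimpleGraph.fromEdgeSet ω).Reachable x y}.Infinite ∧
    ∀ z : V, {y | (SimpleGraph.fromEdgeSet ω).Reachable z y}.Infinite →
      (SimpleGraph.fromEdgeSet ω).Reachable x z

/-- The uniqueness threshold. -/
noncomputable def pu (Γ : SimpleGraph V) : unitInterval :=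
  sInf {p : unitInterval | ProbabilityTheory.setBernoulli Γ.edgeSet p {ω | UniqueInf ω} = 1}

/-- `Γ` is connected and locally finite, and `G` acts on it by automorphisms, freely and with
finitely many orbits of vertices. -/
structure Geom (Γ : SimpleGraph V) (G : Type*) [Group G] [MulAction G V] : Prop where
  conn : Γ.Connected
  locfin : ∀ v, (Γ.neighborSet v).Finite
  adj : ∀ (g : G) (x y : V), Γ.Adj (g • x) (g • y) ↔ Γ.Adj x y
  free : ∀ (g : G) (x : V), g • x = x → g = 1
  cof : ∃ s : Finset V, ∀ v, ∃ g : G, g • v ∈ s

/-- `C` is a free group on at least two generators (any cardinality). -/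
def NonabFree (C : Type u) [Group C] : Prop :=
  ∃ (β : Type u) (_ : Nontrivial β), Nonempty (C ≃* FreeGroup β)

variable {α : Type*} [DecidableEq α]

/-- The graph distance of the regular tree whose vertices are the reduced words over `α`. -/
def dd (u v : FreeGroup α) : ℕ := (u⁻¹ * v).norm

/-- For an edge `{s, t}` of the tree: the half-tree on the side of `t`. -/
def half (s t : FreeGroup α) : Set (FreeGroup α) := {v | dd v t < dd v s}

/-- The elements fixing both `s` and `t`. -/
def edgeStab {G : Type*} [Group G] (ρ : G →* Equiv.Perm (FreeGroup α)) (s t : FreeGroup α) :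
    Subgroup G where
  carrier := {g | ρ g s = s ∧ ρ g t = t}
  one_mem' := by simp
  mul_mem' := by
    rintro a b ⟨h1, h2⟩ ⟨h3, h4⟩
    simp [h1, h2, h3, h4]
  inv_mem' := by
    rintro a ⟨h1, h2⟩
    refine ⟨?_, ?_⟩
    · rw [map_inv, Equiv.Perm.inv_eq_iff_eq]; exact h1.symm
    · rw [map_inv, Equiv.Perm.inv_eq_iff_eq]; exact h2.symm

/-- An action on the regular tree by automorphisms, with finitely many orbits, such that every
half-tree can be moved into every other one and all edge stabilisers are nonabelian free groups. -/
structure TreeAction {G : Type u} [Group G] (ρ : G →* Equiv.Perm (FreeGroup α)) : Prop where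
  iso : ∀ g u v, dd (ρ g u) (ρ g v) = dd u v
  cof : ∃ s : Finset (FreeGroup α), ∀ v, ∃ g, ρ g v ∈ s
  irr : ∀ s t s' t', dd s t = 1 → dd s' t' = 1 → ∃ g, ∀ v ∈ half s' t', ρ g v ∈ half s t
  edge : ∀ s t, dd s t = 1 → NonabFree (edgeStab ρ s t)

/-- `G` has such an action on a regular tree of finite even degree at least four. -/
def TreeOfFree (G : Type u) [Group G] : Prop :=
  ∃ (α : Type) (_ : Finite α) (_ : Nontrivial α) (_ : DecidableEq α)
    (ρ : G →* Equiv.Perm (FreeGroup α)), TreeAction ρ

/-- `G` is an extension of a nonabelian free group by a nonabelian free group of finite rank. -/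
def FreeByFree (G : Type u) [Group G] : Prop :=
  ∃ (α : Type) (_ : Finite α) (_ : Nontrivial α) (φ : G →* FreeGroup α),
    Function.Surjective φ ∧ NonabFree φ.ker

end Vale.Agent.P165
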