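import Vale.Agent.P165.Def3

open Classical
open scoped ENNReal

namespace Vale.Agent.P165

open Vale.Agent.P151

universe u

variable {V : Type*} {α : Type*} [DecidableEq α]

lemma fam_le {E : Type*} (F : Finset E) {w : E → ℝ} (hw : Ok w) {A B C D : Set E → Set E → Prop}
    (h : ∀ ω₁ ω₂, ind (A ω₁ ω₂) + ind (B ω₁ ω₂) ≤ ind (C ω₁ ω₂) + ind (D ω₁ ω₂)) :
    Pr2 F w A + Pr2 F w B ≤ Pr2 F w C + Pr2 F w D := by
  unfold Pr2 Pr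
  rw [← Ex_add, ← Ex_add]
  refine Ex_mono hw fun ω₁ _ => ?_
  rw [← Ex_add, ← Ex_add]
  exact Ex_mono hw fun ω₂ _ => h ω₁ ω₂

lemma fam_mono {E : Type*} (F : Finset E) {w : E → ℝ} (hw : Ok w) {A B : Set E → Set E → Prop}
    (h : ∀ ω₁ ω₂, A ω₁ ω₂ → B ω₁ ω₂) : Pr2 F w A ≤ Pr2 F w B :=
  Ex_mono hw fun ω₁ _ => Pr_mono hw fun ω₂ _ => h ω₁ ω₂

/-- abstract two-copy step -/
lemma Pr2_step {E : Type*} {F : Finset E} {e : E} (he : e ∉ F) {w : E → ℝ} (hw : Ok w)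
    {A A₁ A₀ : Set E → Set E → Prop}
    (hA : ∀ ω₁ ω₂ η₁ η₂, ω₁ ⊆ η₁ → ω₂ ⊆ η₂ → A ω₁ ω₂ → A η₁ η₂)
    (h₁ : ∀ ω₁ ω₂, A₁ ω₁ ω₂ → A (insert e ω₁) ω₂ ∨ A ω₁ (insert e ω₂))
    (h₀ : ∀ ω₁ ω₂, A₀ ω₁ ω₂ → A ω₁ ω₂) :
    w e * Pr2 F w A₁ + (1 - w e) * Pr2 F w A₀ ≤ Pr2 (insert e F) w A := by
  have e1 : Pr2 (insert e F) w A =
      w e * (w e * Pr2 F w (fun ω₁ ω₂ => A (insert e ω₁) (insert e ω₂)) +
        (1 - w e) * Pr2 F w (fun ω₁ ω₂ => A (insert e ω₁) ω₂)) +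
      (1 - w e) * (w e * Pr2 F w (fun ω₁ ω₂ => A ω₁ (insert e ω₂)) + (1 - w e) * Pr2 F w A) := by
    unfold Pr2 Pr
    simp only [Ex_insert he, Ex_add, Ex_const_mul]
  have a1 : Pr2 F w A₁ ≤ Pr2 F w (fun ω₁ ω₂ => A (insert e ω₁) (insert e ω₂)) :=
    fam_mono F hw fun ω₁ ω₂ h => (h₁ ω₁ ω₂ h).elim
      (hA _ _ _ _ subset_rfl (Set.subset_insert _ _)) (hA _ _ _ _ (Set.subset_insert _ _) subset_rfl)
  have a2 : Pr2 F w A₁ + Pr2 F w A ≤ Pr2 F w (fun ω₁ ω₂ => A (insert e ω₁) ω₂) +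
      Pr2 F w (fun ω₁ ω₂ => A ω₁ (insert e ω₂)) := by
    refine fam_le F hw fun ω₁ ω₂ => ?_
    by_cases h : A ω₁ ω₂
    · rw [ind_true h, ind_true (hA _ _ _ _ (Set.subset_insert _ _) subset_rfl h),
        ind_true (hA _ _ _ _ subset_rfl (Set.subset_insert _ _) h)]
      linarith [ind_le_one (A₁ ω₁ ω₂)]
    · rw [ind_false h, add_zero]
      exact (ind_mono (h₁ ω₁ ω₂)).trans (ind_or_le _ _)
  have a3 : Pr2 F w A₀ ≤ Pr2 F w A := fam_mono F hw h₀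
  obtain ⟨p0, p1⟩ := hw e
  have b1 := mul_le_mul_of_nonneg_left a1 (mul_nonneg p0 p0)
  have b2 := mul_le_mul_of_nonneg_left a2 (mul_nonneg p0 (sub_nonneg.2 p1))
  have b3 := mul_le_mul_of_nonneg_left a3 (sub_nonneg.2 p1)
  rw [e1]
  linarith

lemma Pr2_nonneg {E : Type*} (F : Finset E) {w : E → ℝ} (hw : Ok w) (A : Set E → Set E → Prop) :
    0 ≤ Pr2 F w A := Ex_nonneg hw fun _ _ => Pr_nonneg hw _

lemma Pr2_mono {E : Type*} (F : Finset E) {w : E → ℝ} (hw : Ok w) {A B : Set E → Set E → Prop}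
    (h : ∀ ω₁ ω₂, A ω₁ ω₂ → B ω₁ ω₂) : Pr2 F w A ≤ Pr2 F w B := fam_mono F hw h

lemma fam_head {b u : V} {γ γ₁ γ₂ : List V} (h : b :: γ = γ₂ ++ u :: γ₁) : b ∈ γ₂ ++ [u] := by
  cases γ₂ with
  | nil => simp_all
  | cons x l => simp_all

lemma fam_cv {ω η : Set (Sym2 V)} (h : ω ⊆ η) {l : List V} {x : V} (hx : cv ω l x) : cv η l x :=
  hx.imp fun _ hy => ⟨hy.1, hy.2.mono h⟩

lemma fam_push {ω : Set (Sym2 V)} {h v : V} {l : List V} {x : V} (hl : h ∈ l)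
    (hx : cv ω (v :: l) x) : cv (insert s(h, v) ω) l x := by
  obtain ⟨y, hy, hc⟩ := hx
  rcases List.mem_cons.1 hy with rfl | hy
  · exact ⟨h, hl, (Conn.single (Set.mem_insert _ _)).trans (hc.mono (Set.subset_insert _ _))⟩
  · exact ⟨y, hy, hc.mono (Set.subset_insert _ _)⟩

lemma fam_one {ω : Set (Sym2 V)} {u c b : V} (h : Conn ω c b ∨ (cv ω [u] c ∧ cv ω [u] b)) :
    Conn ω c b := by
  rcases h with h | ⟨⟨y, hy, h1⟩, y', hy', h2⟩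
  · exact h
  · rw [List.mem_singleton] at hy hy'
    subst hy hy'
    exact h1.symm.trans h2

lemma fam_step {F : Finset (Sym2 V)} {h v : V} (he : s(h, v) ∉ F) {w : Sym2 V → ℝ} (hw : Ok w)
    (γ : List V) (c b : V) :
    w s(h, v) * Pr2 F w (fam (v :: h :: γ) c b) + (1 - w s(h, v)) * Pr2 F w (fam (h :: γ) c b)
      ≤ Pr2 (insert s(h, v) F) w (fam (h :: γ) c b) := by
  have key := Pr2_step he hw (A := fam (h :: γ) c b) (A₁ := fam (v :: h :: γ) c b)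
    (A₀ := fam (h :: γ) c b) ?_ ?_ fun _ _ h => h
  · refine key.trans (le_of_eq (congrArg (fun F' => Pr2 F' w (fam (h :: γ) c b)) ?_))
    ext x; simp only [Finset.mem_insert]
  · rintro ω₁ ω₂ η₁ η₂ s1 s2 ⟨γ₂, u, γ₁, e, h1, h2⟩
    exact ⟨γ₂, u, γ₁, e, fam_cv s1 h1, h2.imp (Conn.mono s2) fun h => ⟨fam_cv s2 h.1, fam_cv s2 h.2⟩⟩
  · rintro ω₁ ω₂ ⟨γ₂, u, γ₁, e, h1, h2⟩
    cases γ₂ with
    | nil =>
      obtain ⟨rfl, rfl⟩ := List.cons.inj e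
      exact Or.inl ⟨[], h, γ, rfl, fam_push List.mem_cons_self h1, Or.inl (fam_one h2)⟩
    | cons x l =>
      obtain ⟨rfl, e'⟩ := List.cons.inj e
      exact Or.inr ⟨l, u, γ₁, e', h1, h2.imp (Conn.mono (Set.subset_insert _ _))
        fun k => ⟨fam_push (fam_head e') k.1, fam_push (fam_head e') k.2⟩⟩

lemma fam_pop (F : Finset (Sym2 V)) {w : Sym2 V → ℝ} (hw : Ok w) (h : V) (γ : List V) (c b : V) :
    Pr2 F w (fam γ c b) ≤ Pr2 F w (fam (h :: γ) c b) := by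
  refine fam_mono F hw ?_
  rintro ω₁ ω₂ ⟨γ₂, u, γ₁, e, h1, h2⟩
  have k : ∀ x, cv ω₂ (γ₂ ++ [u]) x → cv ω₂ (h :: γ₂ ++ [u]) x := fun x hx =>
    hx.imp fun y hy => ⟨List.mem_cons_of_mem _ hy.1, hy.2⟩
  exact ⟨h :: γ₂, u, γ₁, by rw [e]; rfl, h1, h2.imp id fun t => ⟨k _ t.1, k _ t.2⟩⟩

lemma fam_prod {E : Type*} (F : Finset E) (w : E → ℝ) (A B : Set E → Prop) :
    Pr2 F w (fun ω₁ ω₂ => A ω₁ ∧ B ω₂) = Pr F w A * Pr F w B := by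
  unfold Pr2 Pr
  simp only [ind_and, Ex_const_mul, Ex_mul_const]

lemma fam_start (F : Finset (Sym2 V)) (w : Sym2 V → ℝ) (a c b : V) :
    Pr2 F w (fam [a] c b) = Pr F w (fun ω => Conn ω a c) * Pr F w (fun ω => Conn ω c b) := by
  rw [← fam_prod]
  congr 1
  funext ω₁ ω₂
  refine propext ⟨?_, fun h => ⟨[], a, [], rfl, ⟨a, List.mem_cons_self, h.1⟩, Or.inl h.2⟩⟩
  rintro ⟨γ₂, u, γ₁, e, ⟨y, hy, h1⟩, h2⟩
  cases γ₂ with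
  | nil =>
    obtain ⟨rfl, rfl⟩ := List.cons.inj e
    rw [List.mem_singleton] at hy
    subst hy
    exact ⟨h1, fam_one h2⟩
  | cons x l => simp at e

lemma fam_end (F : Finset (Sym2 V)) {w : Sym2 V → ℝ} (hw : Ok w) (γ : List V) (c b : V) :
    (Pr F w (fun ω => cv ω (b :: γ) c)) ^ 2 ≤ 2 * Pr2 F w (fam (b :: γ) c b) := by
  have k : ∀ ω₁ ω₂ γ₂ u γ₁, b :: γ = γ₂ ++ u :: γ₁ → cv ω₁ (u :: γ₁) c → Conn ω₂ u c →
      fam (b :: γ) c b ω₁ ω₂ := fun ω₁ ω₂ γ₂ u γ₁ e h1 h2 =>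
    ⟨γ₂, u, γ₁, e, h1, Or.inr ⟨⟨u, by simp, h2⟩, b, fam_head e, Conn.refl _ _⟩⟩
  have sw : Pr2 F w (fun ω₁ ω₂ => fam (b :: γ) c b ω₂ ω₁) = Pr2 F w (fam (b :: γ) c b) :=
    Ex_swap F w F w fun ω₁ ω₂ => ind (fam (b :: γ) c b ω₂ ω₁)
  have h0 := Pr2_nonneg F hw fun _ _ => False
  have h1 := fam_le F hw (A := fun ω₁ ω₂ => cv ω₁ (b :: γ) c ∧ cv ω₂ (b :: γ) c)
    (B := fun _ _ => False) (C := fam (b :: γ) c b) (D := fun ω₁ ω₂ => fam (b :: γ) c b ω₂ ω₁) (by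
      intro ω₁ ω₂
      rw [ind_false not_false, add_zero]
      refine (ind_mono ?_).trans (ind_or_le _ _)
      rintro ⟨⟨y₁, m₁, c₁⟩, y₂, m₂, c₂⟩
      obtain ⟨s, t, e⟩ := List.append_of_mem m₂
      rw [e] at m₁
      rcases List.mem_append.1 m₁ with m | m
      · obtain ⟨s', t', e'⟩ := List.append_of_mem m
        exact Or.inr (k _ _ s' y₁ (t' ++ y₂ :: t) (by rw [e, e']; simp) ⟨y₂, by simp, c₂⟩ c₁)
      · exact Or.inl (k _ _ s y₂ t e ⟨y₁, m, c₁⟩ c₂))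
  rw [fam_prod, sw] at h1
  linarith

lemma fam_mem (F : Finset (Sym2 V)) (w : Sym2 V → ℝ) {γ : List V} {v b : V} (hv : v ∈ b :: γ) :
    Pr2 F w (fam (b :: γ) v b) = 1 := by
  obtain ⟨s, t, e⟩ := List.append_of_mem hv
  have k : ∀ ω₁ ω₂, fam (b :: γ) v b ω₁ ω₂ := fun ω₁ ω₂ =>
    ⟨s, v, t, e, ⟨v, List.mem_cons_self, Conn.refl _ _⟩,
      Or.inr ⟨⟨v, by simp, Conn.refl _ _⟩, b, fam_head e, Conn.refl _ _⟩⟩
  unfold Pr2 Pr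
  simp only [ind_true (k _ _), Ex_const]

lemma cv_push {ω : Set (Sym2 V)} {h v : V} {γ : List V} {x : V} :
    cv (insert s(h, v) ω) (h :: γ) x ↔ cv ω (v :: h :: γ) x := by
  refine ⟨?_, fam_push List.mem_cons_self⟩
  rintro ⟨y, hy, hc⟩
  induction hc with
  | refl => exact ⟨y, List.mem_cons_of_mem _ hy, Conn.refl _ _⟩
  | @tail a b _ h2 ih =>
    rcases h2 with h2 | h2
    · rcases Sym2.eq_iff.1 h2 with ⟨-, rfl⟩ | ⟨-, rfl⟩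
      · exact ⟨b, by simp, Conn.refl _ _⟩
      · exact ⟨b, by simp, Conn.refl _ _⟩
    · exact ih.imp fun z hz => ⟨hz.1, hz.2.tail h2⟩

lemma cv_pop {F : Finset (Sym2 V)} {h : V} (hF : ∀ v, s(h, v) ∉ F) {ω : Set (Sym2 V)}
    (hω : ω ⊆ F) {γ : List V} {x : V} (hx : x ≠ h) : cv ω (h :: γ) x ↔ cv ω γ x := by
  refine ⟨?_, fun k => k.imp fun y hy => ⟨List.mem_cons_of_mem _ hy.1, hy.2⟩⟩
  rintro ⟨y, hy, hc⟩
  rcases List.mem_cons.1 hy with rfl | hy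
  · rcases Relation.ReflTransGen.cases_head hc with e | ⟨v, hv, -⟩
    · exact absurd e.symm hx
    · exact absurd (hω hv) (hF v)
  · exact ⟨y, hy, hc⟩

end Vale.Agent.P165
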