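import Vale.Agent.P165.Geo

open Classical
open scoped ENNReal

namespace Vale.Agent.P165

open Vale.Agent.P151

universe u

variable {V : Type*} {α : Type*} [DecidableEq α]

lemma freeP_count {ι γ : Type*} [LinearOrder γ] (S T L : Finset ι) (f : ι → List γ)
    (hf : Function.Injective f)
    (hT : ∀ m ∈ T, ∃ x y, x < y ∧ (∃ s ∈ S, f m ++ [x] <+: f s) ∧ ∃ s ∈ S, f m ++ [y] <+: f s)
    (hL : ∀ w ∈ S, (∀ x, ∀ s ∈ S, ¬ f w ++ [x] <+: f s) → w ∈ L) : T.card ≤ L.card := by
  have h1 : ∀ m : T, ∃ w ∈ S, ∃ x y, x < y ∧ f m ++ [x] <+: f w ∧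
      (∃ s ∈ S, f m ++ [y] <+: f s) ∧ ∀ s ∈ S, f m ++ [x] <+: f s → f s ≤ f w := by
    rintro ⟨m, hm⟩
    obtain ⟨x, y, hxy, ⟨s, hs, hs'⟩, h2⟩ := hT m hm
    obtain ⟨w, hw, hw'⟩ := Finset.exists_max_image (S.filter fun s => f m ++ [x] <+: f s) f
      ⟨s, Finset.mem_filter.2 ⟨hs, hs'⟩⟩
    exact ⟨w, (Finset.mem_filter.1 hw).1, x, y, hxy, (Finset.mem_filter.1 hw).2, h2,
      fun s hs hs' => hw' s (Finset.mem_filter.2 ⟨hs, hs'⟩)⟩
  choose g g1 x y g2 g3 g4 g5 using h1
  have h2 : ∀ m m' : T, g m = g m' → ¬ (f m).length < (f m').length := by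
    intro m m' e hlt
    obtain ⟨s, hs, t, ht⟩ := g4 m'
    obtain ⟨t', ht'⟩ := g3 m'
    have k1 : f m ++ [x m] <+: f m' :=
      List.prefix_of_prefix_length_le (g3 m) (e ▸ (List.prefix_append _ _).trans (g3 m'))
        (by simpa using hlt)
    have k2 := g5 m s hs (k1.trans ((List.prefix_append _ _).trans ⟨t, ht⟩))
    rw [e, ← ht, ← ht', List.append_assoc, List.append_assoc] at k2
    exact absurd k2 (not_le.2 (List.Lex.append_left _ (List.Lex.rel (g2 m')) _))
  rw [← Finset.card_attach]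
  refine Finset.card_le_card_of_injOn g (fun m _ => hL _ (g1 m) fun z s hs hz => ?_)
    fun m _ m' _ e => ?_
  · have k := g5 m s hs ((g3 m).trans ((List.prefix_append _ _).trans hz))
    obtain ⟨t, ht⟩ := hz
    rw [← ht, List.append_assoc] at k
    refine absurd k (not_le.2 ?_)
    have k2 := List.Lex.append_left (· < ·) (List.Lex.nil (a := z) (l := t)) (f (g m))
    rw [List.append_nil] at k2
    exact k2
  · have k1 := h2 m m' e
    have k2 := h2 m' m e.symm
    refine Subtype.ext (hf (List.IsPrefix.eq_of_length (List.prefix_of_prefix_length_le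
      ((List.prefix_append _ _).trans (g3 m)) (e ▸ (List.prefix_append _ _).trans (g3 m'))
      (by omega)) (by omega)))

lemma freeP_ext {m z : FreeGroup α} {x : α × Bool} (hz : z ∈ FreeGroup.startsWith x)
    (h : ∀ y ∈ m.toWord.getLast?, y.1 ≠ x.1) : m.toWord ++ [x] <+: (m * z).toWord := by
  have h1 : z.toWord[0]? = some x := hz
  have h2 : FreeGroup.IsReduced (m.toWord ++ z.toWord) :=
    List.IsChain.append FreeGroup.isReduced_toWord FreeGroup.isReduced_toWord fun y hy w hw e => by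
      rw [List.head?_eq_getElem?, h1] at hw
      obtain rfl : x = w := Option.some.inj hw
      exact absurd e (h y hy)
  rw [FreeGroup.toWord_mul, h2.reduce_eq, List.prefix_append_right_inj]
  generalize z.toWord = L at h1
  cases L with
  | nil => simp at h1
  | cons a t =>
    obtain rfl : a = x := by simpa using h1
    exact ⟨t, rfl⟩

lemma freeP_cone {m v : FreeGroup α} {x : α × Bool} :
    v ∈ cone m (m * FreeGroup.mk [x]) ↔ m⁻¹ * v ∈ FreeGroup.startsWith x := by
  have h1 : v ∈ cone m (m * FreeGroup.mk [x]) ↔ m⁻¹ * v ∈ cone 1 (FreeGroup.mk [x]) := by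
    simp only [cone, Set.mem_setOf_eq]
    rw [← dd_mul m 1 (m⁻¹ * v), ← dd_mul m 1 (FreeGroup.mk [x]),
      ← dd_mul m (FreeGroup.mk [x]) (m⁻¹ * v), mul_one, mul_inv_cancel_left]
  rw [h1, mem_cone_one, FreeGroup.toWord_mk, FreeGroup.reduce_singleton]
  change _ ↔ (m⁻¹ * v).toWord[0]? = some x
  generalize (m⁻¹ * v).toWord = L
  cases L with
  | nil => simp
  | cons a t => simp [eq_comm]

lemma freeP_dd (m : FreeGroup α) (x : α × Bool) : dd m (m * FreeGroup.mk [x]) = 1 := by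
  rw [dd, inv_mul_cancel_left, FreeGroup.norm, FreeGroup.toWord_mk, FreeGroup.reduce_singleton]
  rfl

lemma pp_free (β : Type*) [Nontrivial β] : PP (FreeGroup β) := by
  obtain ⟨a, b, hab⟩ := exists_pair_ne β
  obtain ⟨lt, hlt⟩ : ∃ lt : Fin 4 → β × Bool,
      lt = ![(a, true), (a, false), (b, true), (b, false)] := ⟨_, rfl⟩
  have h0 : ∀ c : β, ∃ l l', lt l ≠ lt l' ∧ c ≠ (lt l).1 ∧ c ≠ (lt l').1 := by
    intro c
    by_cases h : c = a
    · exact ⟨2, 3, by simp [hlt], by simp [hlt, h, hab], by simp [hlt, h, hab]⟩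
    · exact ⟨0, 1, by simp [hlt], by simp [hlt, h], by simp [hlt, h]⟩
  have h1 : ∀ m : FreeGroup β, ∃ l l', lt l ≠ lt l' ∧ (∀ y ∈ m.toWord.getLast?, y.1 ≠ (lt l).1) ∧
      ∀ y ∈ m.toWord.getLast?, y.1 ≠ (lt l').1 := by
    intro m
    obtain ⟨l, l', k1, k2, k3⟩ := h0 (m.toWord.getLast?.getD (a, true)).1
    refine ⟨l, l', k1, fun y hy => ?_, fun y hy => ?_⟩
    · rwa [Option.mem_def.1 hy] at k2
    · rwa [Option.mem_def.1 hy] at k3
  refine ⟨fun l => FreeGroup.startsWith (lt l),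
    Finset.univ.image (fun l => FreeGroup.mk [lt l]) ∪
      Finset.univ.image (fun p : Fin 4 × Fin 4 => FreeGroup.mk [lt p.1] * FreeGroup.mk [lt p.2]),
    fun l z => ?_, fun S => ?_⟩
  · by_cases hz : z ∈ FreeGroup.startsWith ((lt l).1, !(lt l).2)
    · obtain ⟨l', -, -, k, -⟩ := h0 (lt l).1
      refine ⟨_, Finset.mem_union_right _ (Finset.mem_image.2 ⟨(l, l'), Finset.mem_univ _, rfl⟩),
        ?_⟩
      rw [mul_assoc]
      have k1 : z ∉ FreeGroup.startsWith ((lt l').1, !(lt l').2) :=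
        Set.disjoint_left.1 (FreeGroup.startsWith.disjoint_iff_ne.2 fun e =>
          k (Prod.mk.inj e).1) hz
      have k2 : lt l' ≠ ((lt l).1, !(lt l).2) := fun e => k (congrArg Prod.fst e).symm
      exact FreeGroup.startsWith_mk_mul _ (Set.disjoint_left.1
        (FreeGroup.startsWith.disjoint_iff_ne.2 k2) (FreeGroup.startsWith_mk_mul _ k1))
    · exact ⟨_, Finset.mem_union_left _ (Finset.mem_image.2 ⟨l, Finset.mem_univ _, rfl⟩),
        FreeGroup.startsWith_mk_mul _ hz⟩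
  · have h2 : ∀ m : FreeGroup β, ∃ l, (∃ l', ∀ s ∈ S, m⁻¹ * s ∉ FreeGroup.startsWith (lt l')) →
        ∀ s ∈ S, m⁻¹ * s ∉ FreeGroup.startsWith (lt l) := by
      intro m
      by_cases h : ∃ l', ∀ s ∈ S, m⁻¹ * s ∉ FreeGroup.startsWith (lt l')
      · exact ⟨h.choose, fun _ => h.choose_spec⟩
      · exact ⟨0, fun h' => absurd h' h⟩
    choose l hl using h2
    refine ⟨S.filter fun m => ∃ l', ∀ s ∈ S, m⁻¹ * s ∉ FreeGroup.startsWith (lt l'),
      Finset.filter_subset _ _, ?_, l, fun m hm m' hm' hne z hz z' hz' e => ?_⟩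
    · letI : LinearOrder (β × Bool) := linearOrderOfSTO WellOrderingRel
      have k := freeP_count S
        (S.filter fun m => ¬ ∃ l', ∀ s ∈ S, m⁻¹ * s ∉ FreeGroup.startsWith (lt l'))
        (S.filter fun m => ∃ l', ∀ s ∈ S, m⁻¹ * s ∉ FreeGroup.startsWith (lt l'))
        FreeGroup.toWord FreeGroup.toWord_injective (fun m hm => ?_) fun w hw h => ?_
      · have k2 := Finset.card_filter_add_card_filter_not (s := S)
          (fun m => ∃ l', ∀ s ∈ S, m⁻¹ * s ∉ FreeGroup.startsWith (lt l'))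
        omega
      · have k1 := (Finset.mem_filter.1 hm).2
        push Not at k1
        obtain ⟨l1, l2, k2, k3, k4⟩ := h1 m
        obtain ⟨s1, hs1, k5⟩ := k1 l1
        obtain ⟨s2, hs2, k6⟩ := k1 l2
        have k7 := freeP_ext k5 k3
        have k8 := freeP_ext k6 k4
        rw [mul_inv_cancel_left] at k7 k8
        rcases lt_or_gt_of_ne k2 with k9 | k9
        · exact ⟨_, _, k9, ⟨s1, hs1, k7⟩, s2, hs2, k8⟩
        · exact ⟨_, _, k9, ⟨s2, hs2, k8⟩, s1, hs1, k7⟩
      · obtain ⟨l1, -, -, k3, -⟩ := h1 w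
        refine Finset.mem_filter.2 ⟨hw, l1, fun s hs k => h (lt l1) s hs ?_⟩
        have k7 := freeP_ext k k3
        rwa [mul_inv_cancel_left] at k7
    · obtain ⟨a1, a2⟩ := Finset.mem_filter.1 hm
      obtain ⟨b1, b2⟩ := Finset.mem_filter.1 hm'
      have k0 := cone_disjoint (freeP_dd m (lt (l m))) (freeP_dd m' (lt (l m')))
        hne (fun k => hl m a2 m' b1 (freeP_cone.1 k)) fun k => hl m' b2 m a1 (freeP_cone.1 k)
      have k1 : m * z ∈ cone m (m * FreeGroup.mk [lt (l m)]) :=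
        freeP_cone.2 (by rwa [inv_mul_cancel_left])
      have k2 : m * z ∈ cone m' (m' * FreeGroup.mk [lt (l m')]) :=
        freeP_cone.2 (by rwa [e, inv_mul_cancel_left])
      exact Set.disjoint_left.1 k0 k1 k2

lemma pp_of_nonab {C : Type u} [Group C] (h : NonabFree C) : PP C := by
  obtain ⟨β, _, ⟨e⟩⟩ := h
  obtain ⟨E, H, h1, h2⟩ := pp_free β
  refine ⟨fun l => e ⁻¹' E l, H.image e.symm, fun l z => ?_, fun S => ?_⟩
  · obtain ⟨h, hh, k⟩ := h1 l (e z)
    exact ⟨e.symm h, Finset.mem_image_of_mem _ hh, by simpa using k⟩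
  · obtain ⟨S', k1, k2, l, k3⟩ := h2 (S.image e)
    refine ⟨S'.image e.symm, fun m hm => ?_, ?_, fun m => l (e m),
      fun m hm m' hm' hne z hz z' hz' k => ?_⟩
    · obtain ⟨x, hx, rfl⟩ := Finset.mem_image.1 hm
      obtain ⟨y, hy, rfl⟩ := Finset.mem_image.1 (k1 hx)
      simpa using hy
    · rwa [Finset.card_image_of_injective _ e.symm.injective,
        ← Finset.card_image_of_injective S e.injective]
    · obtain ⟨x, hx, rfl⟩ := Finset.mem_image.1 hm
      obtain ⟨x', hx', rfl⟩ := Finset.mem_image.1 hm'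
      refine k3 x hx x' hx' (fun g => hne (by rw [g])) (e z) (by simpa using hz) (e z')
        (by simpa using hz') ?_
      simpa using congrArg e k

/-- a free action has an equivariant coordinate -/
lemma exists_coord {C : Type*} [Group C] [MulAction C V] (h : ∀ (g : C) (x : V), g • x = x → g = 1) :
    ∃ κ : V → C, ∀ (m : C) (y : V), κ (m • y) = m * κ y := by
  have h1 : ∀ y : V, ∃ g : C, g • (Quotient.mk (MulAction.orbitRel C V) y).out = y := fun y =>
    (MulAction.orbitRel C V).symm (Quotient.mk_out (s := MulAction.orbitRel C V) y)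
  choose κ hκ using h1
  refine ⟨κ, fun m y => ?_⟩
  have h2 : Quotient.mk (MulAction.orbitRel C V) (m • y) = Quotient.mk (MulAction.orbitRel C V) y :=
    Quotient.sound ⟨m, rfl⟩
  have h3 := hκ (m • y)
  rw [h2] at h3
  have h4 := h ((m * κ y)⁻¹ * κ (m • y)) (Quotient.mk (MulAction.orbitRel C V) y).out (by
    rw [mul_smul, h3, inv_smul_eq_iff, mul_smul, hκ])
  exact (inv_mul_eq_one.1 h4).symm

end Vale.Agent.P165
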