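import Vale.Agent.P165.Tau

open Classical
open scoped ENNReal

namespace Vale.Agent.P165

open Vale.Agent.P151

universe u

variable {V : Type*} {α : Type*} [DecidableEq α]

lemma force_open {p : ℝ} (h0 : 0 ≤ p) (h1 : p ≤ 1) {U : Set (Sym2 V)} {F s : Finset (Sym2 V)}
    (hs : s ⊆ F) (hU : (s : Set (Sym2 V)) ⊆ U) {n : ℕ} (hn : s.card ≤ n)
    {A : Set (Sym2 V) → Prop} (hA : ∀ ω η, ω ⊆ η → A ω → A η) :
    p ^ n * Pr F (wU p U) A ≤ Pr F (wU p U) (fun ω => (s : Set (Sym2 V)) ⊆ ω ∧ A ω) := by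
  have hw := wU_ok h0 h1 U
  have a1 := harris F hw (f := fun ω => ind ((s : Set (Sym2 V)) ⊆ ω)) (g := fun ω => ind (A ω))
    (fun _ _ h => ind_mono fun h' => h'.trans h) (fun _ _ h => ind_mono (hA _ _ h))
  have a2 := Pr_open hs (wU p U)
  have a3 : ∏ e ∈ s, wU p U e = p ^ s.card := by
    rw [← Finset.prod_const]
    exact Finset.prod_congr rfl fun e he => if_pos (hU he)
  unfold Pr at a2 ⊢
  simp only [ind_and]
  refine le_trans ?_ a1
  rw [a2, a3]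
  exact mul_le_mul_of_nonneg_right (pow_le_pow_of_le_one h0 h1 hn) (Pr_nonneg hw _)

lemma sel_fin {ι : Type*} {p : ℝ} (h0 : 0 ≤ p) (h1 : p ≤ 1) {U U₁ U₂ : Set (Sym2 V)}
    (hU₁ : U₁ ⊆ U) (hU₂ : U₂ ⊆ U) (hd : Disjoint U₁ U₂) (o : V) (x : ι → V)
    (P : ι → Finset (Sym2 V)) (hP : ∀ m, (P m : Set (Sym2 V)) ⊆ U) {n : ℕ}
    (hn : ∀ m, (P m).card ≤ n) (F : Finset (Sym2 V)) (X : Finset ι) (hF : ∀ m ∈ X, P m ⊆ F)
    (Yf : Finset V) {b : ℝ} (hb : 0 ≤ b)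
    (hs : ∀ S ⊆ X, ∃ S' ⊆ S, S.card ≤ 2 * S'.card ∧ ∃ (z : ι → V) (Ys : ι → Finset V),
      (∀ m ∈ S', (∀ ω : Set (Sym2 V), (P m : Set (Sym2 V)) ⊆ ω → Conn ω (x m) (z m)) ∧
        Ys m ⊆ Yf ∧ b ≤ ∑ y ∈ Ys m, Pr F (wU p U₂) (fun ω => Conn ω (z m) y)) ∧
      ∀ m ∈ S', ∀ m' ∈ S', m ≠ m' → Disjoint (Ys m) (Ys m')) :
    p ^ (2 * n) * ((∑ m ∈ X, Pr F (wU p U₁) (fun ω => Conn ω o (x m))) * b)
      ≤ 2 * ∑ y ∈ Yf, Pr F (wU p U) (fun ω => Conn ω o y) := by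
  have hw := wU_ok h0 h1 U
  let A : ι → Set (Sym2 V) → Prop := fun m ω =>
    (((P m).filter (· ∉ U₂) : Finset _) : Set (Sym2 V)) ⊆ ω ∧ Conn (ω ∩ U₁) o (x m)
  have key : ∀ ω : Set (Sym2 V), (∑ m ∈ X, ind (A m ω)) * (p ^ n * b)
      ≤ 2 * ∑ y ∈ Yf, Pr F (wU p U) (fun η => Conn (mix U₂ᶜ ω η) o y) := by
    intro ω
    obtain ⟨S', hS', hc, z, Ys, h2, h3⟩ := hs (X.filter (A · ω)) (Finset.filter_subset _ _)
    have e1 : ∑ m ∈ X, ind (A m ω) = ((X.filter (A · ω)).card : ℝ) := by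
      rw [Finset.card_filter]; push_cast
      exact Finset.sum_congr rfl fun m _ => by unfold ind; congr
    have e2 : ∀ m ∈ S', p ^ n * b
        ≤ ∑ y ∈ Ys m, Pr F (wU p U) (fun η => Conn (mix U₂ᶜ ω η) o y) := by
      intro m hm
      obtain ⟨hmX, hA1, hA2⟩ := Finset.mem_filter.1 (hS' hm)
      obtain ⟨c1, -, c3⟩ := h2 m hm
      refine (mul_le_mul_of_nonneg_left c3 (pow_nonneg h0 n)).trans ?_
      rw [Finset.mul_sum]
      refine Finset.sum_le_sum fun y _ => ?_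
      have d1 : Pr F (wU p U₂) (fun ω => Conn ω (z m) y)
          = Pr F (wU p U) (fun η => Conn (η ∩ U₂) (z m) y) := Ex_wU hU₂ p F _
      rw [d1]
      refine (force_open h0 h1 (s := (P m).filter (· ∈ U₂))
        ((Finset.filter_subset _ _).trans (hF m hmX))
        (fun e he => hP m (Finset.mem_filter.1 he).1)
        ((Finset.card_filter_le _ _).trans (hn m))
        (fun _ _ h h' => h'.mono (Set.inter_subset_inter_left _ h))).trans ?_
      refine Pr_mono hw fun η _ hη => ?_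
      refine ((hA2.mono ?_).trans (c1 _ ?_)).trans (hη.2.mono ?_)
      · rintro e ⟨he1, he2⟩
        exact Or.inl ⟨he1, fun h => Set.disjoint_left.1 hd he2 h⟩
      · intro e he
        by_cases h : e ∈ U₂
        · exact Or.inr ⟨hη.1 (by simpa using ⟨he, h⟩), fun h' => h' h⟩
        · exact Or.inl ⟨hA1 (by simpa using ⟨he, h⟩), h⟩
      · rintro e ⟨he1, he2⟩
        exact Or.inr ⟨he1, fun h' => h' he2⟩
    have e3 : (S'.card : ℝ) * (p ^ n * b)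
        ≤ ∑ y ∈ Yf, Pr F (wU p U) (fun η => Conn (mix U₂ᶜ ω η) o y) := by
      have := Finset.sum_le_sum e2
      rw [Finset.sum_const, nsmul_eq_mul, ← Finset.sum_biUnion
        (fun m hm m' hm' h => h3 m hm m' hm' h)] at this
      refine this.trans (Finset.sum_le_sum_of_subset_of_nonneg ?_ fun _ _ _ => Pr_nonneg hw _)
      exact Finset.biUnion_subset.2 fun m hm => (h2 m hm).2.1
    have e4 : ((X.filter (A · ω)).card : ℝ) ≤ 2 * S'.card := by exact_mod_cast hc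
    rw [e1]
    have : 0 ≤ p ^ n * b := mul_nonneg (pow_nonneg h0 n) hb
    nlinarith
  have k2 := Ex_mono (F := F) hw (fun ω _ => key ω)
  rw [Ex_mul_const, Ex_const_mul, Ex_sum, Ex_sum] at k2
  have k3 : ∀ y ∈ Yf, Ex F (wU p U) (fun ω => Pr F (wU p U) (fun η => Conn (mix U₂ᶜ ω η) o y))
      = Pr F (wU p U) (fun ω => Conn ω o y) := fun y _ =>
    (resample_fixed F (wU p U) U₂ᶜ (fun ω => ind (Conn ω o y))).symm
  rw [Finset.sum_congr rfl k3] at k2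
  refine le_trans ?_ k2
  have k4 : p ^ n * ∑ m ∈ X, Pr F (wU p U₁) (fun ω => Conn ω o (x m))
      ≤ ∑ m ∈ X, Ex F (wU p U) (fun ω => ind (A m ω)) := by
    rw [Finset.mul_sum]
    refine Finset.sum_le_sum fun m hm => ?_
    have d1 : Pr F (wU p U₁) (fun ω => Conn ω o (x m))
        = Pr F (wU p U) (fun η => Conn (η ∩ U₁) o (x m)) := Ex_wU hU₁ p F _
    rw [d1]
    exact force_open h0 h1 (s := (P m).filter (· ∉ U₂))
        ((Finset.filter_subset _ _).trans (hF m hm))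
        (fun e he => hP m (Finset.mem_filter.1 he).1)
        ((Finset.card_filter_le _ _).trans (hn m))
        (fun _ _ h h' => h'.mono (Set.inter_subset_inter_left _ h))
  have := mul_le_mul_of_nonneg_right k4 (mul_nonneg (pow_nonneg h0 n) hb)
  refine le_trans (le_of_eq ?_) this
  ring

/-- gluing from below along an adaptively selected subfamily -/
theorem sel {ι : Type*} {p : ℝ} (h0 : 0 ≤ p) (h1 : p ≤ 1) {U U₁ U₂ : Set (Sym2 V)}
    (hU₁ : U₁ ⊆ U) (hU₂ : U₂ ⊆ U) (hd : Disjoint U₁ U₂) (o : V) (x : ι → V)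
    (P : ι → Finset (Sym2 V)) (hP : ∀ m, (P m : Set (Sym2 V)) ⊆ U) {n : ℕ}
    (hn : ∀ m, (P m).card ≤ n) (Y : Set V) (b : ℝ≥0∞)
    (hs : ∀ S : Finset ι, ∃ S' ⊆ S, S.card ≤ 2 * S'.card ∧ ∃ (z : ι → V) (Ys : ι → Set V),
      (∀ m ∈ S', (∀ ω : Set (Sym2 V), (P m : Set (Sym2 V)) ⊆ ω → Conn ω (x m) (z m)) ∧
        Ys m ⊆ Y ∧ b ≤ ∑' y, ii (y ∈ Ys m) * tau (wU p U₂) (z m) y) ∧
      ∀ m ∈ S', ∀ m' ∈ S', m ≠ m' → Disjoint (Ys m) (Ys m')) :
    ENNReal.ofReal (p ^ (2 * n)) * ((∑' m, tau (wU p U₁) o (x m)) * b)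
      ≤ 2 * ∑' y, ii (y ∈ Y) * tau (wU p U) o y := by
  by_cases hc : ENNReal.ofReal (p ^ (2 * n)) = 0
  · rw [hc, zero_mul]; exact zero_le
  rw [mul_comm, ← ENNReal.le_div_iff_mul_le (Or.inl hc) (Or.inl ENNReal.ofReal_ne_top)]
  refine ENNReal.mul_le_of_forall_lt fun a' ha b' hb => ?_
  rw [ENNReal.le_div_iff_mul_le (Or.inl hc) (Or.inl ENNReal.ofReal_ne_top), mul_comm]
  rw [ENNReal.tsum_eq_iSup_sum, lt_iSup_iff] at ha
  obtain ⟨X, hX⟩ := ha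
  choose S' hS' hcard z Ys h2 h3 using hs
  have fin : ∀ S m, ∃ Y' : Finset V, m ∈ S' S → (Y' : Set V) ⊆ Ys S m ∧
      b' < ∑ y ∈ Y', tau (wU p U₂) (z S m) y := by
    intro S m
    by_cases hm : m ∈ S' S
    · have := hb.trans_le (h2 S m hm).2.2
      rw [ENNReal.tsum_eq_iSup_sum, lt_iSup_iff] at this
      obtain ⟨Y0, hY0⟩ := this
      refine ⟨Y0.filter (· ∈ Ys S m), fun _ => ⟨fun y hy => (Finset.mem_filter.1 hy).2, ?_⟩⟩
      refine hY0.trans_le (le_of_eq ?_)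
      rw [Finset.sum_filter]
      refine Finset.sum_congr rfl fun y _ => ?_
      unfold ii; split_ifs <;> simp
    · exact ⟨∅, fun h => absurd h hm⟩
  choose Y' hY' using fin
  have ev1 := sum_tau_approx (wU_ok h0 h1 U₁) X (fun _ => o) x hX
  have ev2 : ∀ᶠ F : Finset (Sym2 V) in Filter.atTop, ∀ S ∈ X.powerset, ∀ m ∈ S' S,
      b' < ENNReal.ofReal (∑ y ∈ Y' S m, Pr F (wU p U₂) (fun ω => Conn ω (z S m) y)) := by
    rw [Filter.eventually_all_finset]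
    intro S _
    rw [Filter.eventually_all_finset]
    intro m hm
    exact sum_tau_approx (wU_ok h0 h1 U₂) (Y' S m) (fun _ => z S m) id (hY' S m hm).2
  have ev3 : ∀ᶠ F : Finset (Sym2 V) in Filter.atTop, ∀ m ∈ X, P m ⊆ F := by
    rw [Filter.eventually_all_finset]
    exact fun m _ => Filter.eventually_ge_atTop (P m)
  obtain ⟨F, f1, f2, f3⟩ := (ev1.and (ev2.and ev3)).exists
  have hbt : b' ≠ ⊤ := hb.ne_top
  let Yf : Finset V := X.powerset.biUnion fun S => (S' S).biUnion fun m => Y' S m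
  have main := sel_fin h0 h1 hU₁ hU₂ hd o x P hP hn F X f3 Yf (b := b'.toReal)
    ENNReal.toReal_nonneg (fun S hS => ⟨S' S, hS' S, hcard S, z S, Y' S, fun m hm =>
      ⟨(h2 S m hm).1, fun y hy => Finset.mem_biUnion.2 ⟨S, Finset.mem_powerset.2 hS,
        Finset.mem_biUnion.2 ⟨m, hm, hy⟩⟩,
        ENNReal.toReal_le_of_le_ofReal (Finset.sum_nonneg fun _ _ => Pr_nonneg (wU_ok h0 h1 _) _)
          (f2 S (Finset.mem_powerset.2 hS) m hm).le⟩,
      fun m hm m' hm' h => Finset.disjoint_coe.1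
        ((h3 S m hm m' hm' h).mono (hY' S m hm).1 (hY' S m' hm').1)⟩)
  have hs0 : 0 ≤ ∑ m ∈ X, Pr F (wU p U₁) (fun ω => Conn ω o (x m)) :=
    Finset.sum_nonneg fun _ _ => Pr_nonneg (wU_ok h0 h1 _) _
  have m2 := ENNReal.ofReal_le_ofReal main
  rw [ENNReal.ofReal_mul (pow_nonneg h0 _), ENNReal.ofReal_mul hs0, ENNReal.ofReal_toReal hbt,
    ENNReal.ofReal_mul (by norm_num), ENNReal.ofReal_ofNat,
    ENNReal.ofReal_sum_of_nonneg (s := Yf) (fun _ _ => Pr_nonneg (wU_ok h0 h1 _) _)] at m2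
  refine le_trans (by gcongr) (m2.trans ?_)
  gcongr
  refine le_trans (Finset.sum_le_sum fun y hy => ?_) (ENNReal.sum_le_tsum Yf)
  obtain ⟨S, -, hy⟩ := Finset.mem_biUnion.1 hy
  obtain ⟨m, hm, hy⟩ := Finset.mem_biUnion.1 hy
  rw [ii_true ((h2 S m hm).2.1 ((hY' S m hm).1 hy)), one_mul]
  exact Pr_le_tau _ F o y

end Vale.Agent.P165
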