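import Vale.Agent.P165.Def2

open Classical
open scoped ENNReal

namespace Vale.Agent.P165

open Vale.Agent.P151

universe u

variable {V : Type*} {α : Type*} [DecidableEq α]

lemma Ex_cut {E : Type*} (F : Finset E) {w w' : E → ℝ} {U : Set E} (h : ∀ e ∈ U, w e = w' e)
    (h0 : ∀ e ∉ U, w e = 0) (f : Set E → ℝ) : Ex F w f = Ex F w' (fun ω => f (ω ∩ U)) := by
  induction F using Finset.induction_on generalizing f with
  | empty => simp
  | insert a F ha ih =>
    rw [Ex_insert ha, Ex_insert ha, ih, ih f]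
    by_cases hU : a ∈ U
    · have : ∀ ω : Set E, insert a ω ∩ U = insert a (ω ∩ U) := by
        intro ω; ext e; by_cases h : e = a <;> simp [h, hU]
      simp only [this, h a hU]
    · have : ∀ ω : Set E, insert a ω ∩ U = ω ∩ U := by
        intro ω; ext e; by_cases h : e = a <;> simp [h, hU]
      simp only [this]
      rw [h0 a hU]
      ring

lemma Ex_wU {U U' : Set (Sym2 V)} (h : U ⊆ U') (p : ℝ) (F : Finset (Sym2 V))
    (f : Set (Sym2 V) → ℝ) : Ex F (wU p U) f = Ex F (wU p U') (fun ω => f (ω ∩ U)) :=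
  Ex_cut F (fun e he => by simp [wU, he, h he]) (fun e he => by simp [wU, he]) f

lemma Ex_mono_F {w : Sym2 V → ℝ} (hw : Ok w) {F F' : Finset (Sym2 V)} (h : F ⊆ F')
    {f : Set (Sym2 V) → ℝ} (hf : Monotone f) : Ex F w f ≤ Ex F' w f := by
  rw [← Ex_restrict' (F := F') (F' := F) w (U := (F : Set (Sym2 V)))
    (fun e => ⟨fun he => ⟨h he, he⟩, fun he => he.2⟩) f]
  exact Ex_mono hw fun ω _ => hf Set.inter_subset_left

lemma conn_ind_mono (x y : V) : Monotone fun ω : Set (Sym2 V) => ind (Conn ω x y) :=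
  fun _ _ h => ind_mono (Conn.mono h)

lemma Pr_conn_mono_F {w : Sym2 V → ℝ} (hw : Ok w) (x y : V) :
    Monotone fun F : Finset (Sym2 V) => Pr F w (fun ω => Conn ω x y) :=
  fun _ _ h => Ex_mono_F hw h (conn_ind_mono x y)

lemma Pr_le_tau (w : Sym2 V → ℝ) (F : Finset (Sym2 V)) (x y : V) :
    ENNReal.ofReal (Pr F w (fun ω => Conn ω x y)) ≤ tau w x y :=
  le_iSup (fun F : Finset (Sym2 V) => ENNReal.ofReal (Pr F w (fun ω => Conn ω x y))) F

lemma tau_le_one {w : Sym2 V → ℝ} (hw : Ok w) (x y : V) : tau w x y ≤ 1 :=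
  iSup_le fun _ => ENNReal.ofReal_le_one.2 (Pr_le_one hw _)

lemma tau_self (w : Sym2 V → ℝ) (x : V) : tau w x x = 1 := by
  have : ∀ F : Finset (Sym2 V), Pr F w (fun ω => Conn ω x x) = 1 := fun F => by
    unfold Pr
    simp only [ind_true (Conn.refl _ x), Ex_const]
  simp [tau, this]

lemma tau_symm (w : Sym2 V → ℝ) (x y : V) : tau w x y = tau w y x := by
  unfold tau
  refine iSup_congr fun F => ?_
  rw [Pr_congr fun ω _ => (⟨Conn.symm, Conn.symm⟩ : Conn ω x y ↔ Conn ω y x)]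

lemma tau_mono {w w' : Sym2 V → ℝ} (hw : Ok w) (hw' : Ok w') (h : ∀ e, w e ≤ w' e) (x y : V) :
    tau w x y ≤ tau w' x y :=
  iSup_mono fun F => ENNReal.ofReal_le_ofReal
    (Ex_mono_w F hw hw' (fun e _ => h e) (conn_ind_mono x y))

lemma tau_mono_wU {p q : ℝ} (h0 : 0 ≤ p) (hpq : p ≤ q) (h1 : q ≤ 1) {U U' : Set (Sym2 V)}
    (h : U ⊆ U') (x y : V) : tau (wU p U) x y ≤ tau (wU q U') x y := by
  refine tau_mono (wU_ok h0 (hpq.trans h1) U) (wU_ok (h0.trans hpq) h1 U') (fun e => ?_) x y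
  unfold wU
  by_cases he : e ∈ U
  · rw [if_pos he, if_pos (h he)]; exact hpq
  · rw [if_neg he]
    split_ifs
    · exact h0.trans hpq
    · exact le_rfl

lemma Ex_supp {E : Type*} (F : Finset E) (w : E → ℝ) (f : Set E → ℝ) :
    Ex F w f = Ex F w (fun ω => f (ω ∩ {e | w e ≠ 0})) :=
  Ex_cut F (fun _ _ => rfl) (fun e he => by simpa using he) f

lemma tau_zero {w : Sym2 V → ℝ} {S : Set V} {x y : V} (hx : x ∈ S) (hy : y ∉ S)
    (h : ∀ a ∈ S, ∀ b ∉ S, w s(a, b) = 0) : tau w x y = 0 := by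
  have : ∀ F : Finset (Sym2 V), Pr F w (fun ω => Conn ω x y) = 0 := fun F => by
    unfold Pr
    rw [Ex_supp]
    refine Eq.trans (Ex_congr fun ω _ => ind_false fun hc => hy ?_) (Ex_const F w 0)
    clear hy
    induction hc with
    | refl => exact hx
    | tail _ h2 ih =>
      by_contra hb
      exact h2.2 (h _ ih _ hb)
  simp [tau, this]

lemma tau_eq_Pr {w : Sym2 V → ℝ} (hw : Ok w) {F : Finset (Sym2 V)} (h : ∀ e ∉ F, w e = 0)
    (x y : V) : tau w x y = ENNReal.ofReal (Pr F w (fun ω => Conn ω x y)) := by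
  refine le_antisymm (iSup_le fun F' => ENNReal.ofReal_le_ofReal ?_) (Pr_le_tau w F x y)
  refine (Pr_conn_mono_F hw x y (Finset.subset_union_right (s₁ := F))).trans ?_
  refine le_of_eq ?_
  refine (Ex_cut (F ∪ F') (U := (F : Set (Sym2 V))) (fun _ _ => rfl) h _).trans ?_
  exact Ex_restrict' (F := F ∪ F') (F' := F) w (U := (F : Set (Sym2 V)))
    (fun e => ⟨fun he => ⟨Finset.mem_union_left _ he, he⟩, fun he => he.2⟩)
    (fun ω => ind (Conn ω x y))

lemma tau_eq_iSup {p : ℝ} (h0 : 0 ≤ p) (h1 : p ≤ 1) (U : Set (Sym2 V)) (x y : V) :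
    tau (wU p U) x y = ⨆ F : Finset (Sym2 V), tau (wU p (U ∩ F)) x y := by
  refine le_antisymm (iSup_le fun F => le_trans ?_ (le_iSup _ F))
    (iSup_le fun F => tau_mono_wU h0 le_rfl h1 Set.inter_subset_left x y)
  refine le_trans (le_of_eq ?_) (Pr_le_tau _ F x y)
  congr 1
  refine Ex_congr_w _ fun e he => ?_
  simp [wU, he]

lemma tsum_tau_eq_iSup {p : ℝ} (h0 : 0 ≤ p) (h1 : p ≤ 1) (U : Set (Sym2 V)) (x : V) :
    ∑' y, tau (wU p U) x y = ⨆ F : Finset (Sym2 V), ∑' y, tau (wU p (U ∩ F)) x y := by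
  refine le_antisymm ?_ (iSup_le fun F => ENNReal.tsum_le_tsum fun y =>
    tau_mono_wU h0 le_rfl h1 Set.inter_subset_left x y)
  rw [ENNReal.tsum_eq_iSup_sum]
  refine iSup_le fun s => ?_
  simp only [tau_eq_iSup h0 h1 U x]
  rw [ENNReal.finsetSum_iSup_of_monotone
    (f := fun y (F : Finset (Sym2 V)) => tau (wU p (U ∩ F)) x y)
    fun y F F' h => tau_mono_wU h0 le_rfl h1
      (Set.inter_subset_inter_right _ (Finset.coe_subset.2 h)) x y]
  exact iSup_mono fun F => ENNReal.sum_le_tsum s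

/-- with finitely many edges only finitely many vertices are not isolated -/
lemma tau_fin_supp (p : ℝ) (U : Set (Sym2 V)) (F : Finset (Sym2 V)) :
    ∃ W : Finset V, ∀ x y, x ≠ y → (x ∉ W ∨ y ∉ W) → tau (wU p (U ∩ F)) x y = 0 := by
  have key : ∀ x y : V, x ≠ y → x ∉ F.biUnion Sym2.toFinset → tau (wU p (U ∩ F)) x y = 0 := by
    intro x y hxy hx
    refine tau_zero (S := {x}) rfl (fun h => hxy h.symm) fun a ha b _ => ?_
    rw [Set.mem_singleton_iff] at ha
    subst ha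
    refine if_neg fun h => hx ?_
    exact Finset.mem_biUnion.2 ⟨_, h.2, by simp⟩
  refine ⟨F.biUnion Sym2.toFinset, fun x y hxy h => ?_⟩
  rcases h with h | h
  · exact key x y hxy h
  · rw [tau_symm]
    exact key y x hxy.symm h

lemma sum_tau_approx {ι : Type*} {w : Sym2 V → ℝ} (hw : Ok w) (s : Finset ι) (x y : ι → V)
    {a : ℝ≥0∞} (ha : a < ∑ i ∈ s, tau w (x i) (y i)) :
    ∀ᶠ F : Finset (Sym2 V) in Filter.atTop,
      a < ENNReal.ofReal (∑ i ∈ s, Pr F w (fun ω => Conn ω (x i) (y i))) := by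
  unfold tau at ha
  rw [ENNReal.finsetSum_iSup_of_monotone
    (f := fun i (F : Finset (Sym2 V)) => ENNReal.ofReal (Pr F w (fun ω => Conn ω (x i) (y i))))
    fun i F F' h => ENNReal.ofReal_le_ofReal (Pr_conn_mono_F hw _ _ h)] at ha
  obtain ⟨F0, hF0⟩ := lt_iSup_iff.1 ha
  filter_upwards [Filter.eventually_ge_atTop F0] with F hF
  rw [ENNReal.ofReal_sum_of_nonneg fun i _ => Pr_nonneg hw _]
  exact hF0.trans_le (Finset.sum_le_sum fun i _ =>
    ENNReal.ofReal_le_ofReal (Pr_conn_mono_F hw _ _ hF))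

lemma conn_image (f : V → V) {ω : Set (Sym2 V)} {a b : V} (h : Conn ω a b) :
    Conn (Sym2.map f '' ω) (f a) (f b) := by
  induction h with
  | refl => exact Conn.refl _ _
  | tail _ h2 ih => exact ih.tail ⟨_, h2, by simp⟩

lemma tau_map_le (γ : V ≃ V) (w : Sym2 V → ℝ) (x y : V) :
    tau (fun e => w (e.map γ)) x y ≤ tau w (γ x) (γ y) := by
  refine iSup_le fun F => le_trans (le_of_eq ?_)
    (Pr_le_tau w (F.map ⟨Sym2.map γ, Sym2.map.injective γ.injective⟩) _ _)
  congr 1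
  unfold Pr
  rw [Ex_map]
  refine Ex_congr fun ω _ => ind_congr ⟨fun h => conn_image γ h, fun h => ?_⟩
  have := conn_image γ.symm h
  simp only [Function.Embedding.coeFn_mk, Set.image_image, Sym2.map_map, Equiv.symm_comp_self,
    Sym2.map_id, id_eq, Set.image_id', Equiv.symm_apply_apply] at this
  simpa using this

lemma tau_map (γ : V ≃ V) (w : Sym2 V → ℝ) (x y : V) :
    tau w (γ x) (γ y) = tau (fun e => w (e.map γ)) x y := by
  refine le_antisymm ?_ (tau_map_le γ w x y)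
  have := tau_map_le γ.symm (fun e => w (e.map γ)) (γ x) (γ y)
  simpa [Sym2.map_map] using this

lemma exists_path {Γ : SimpleGraph V} (hc : Γ.Connected) (x y : V) :
    ∃ P : Finset (Sym2 V), (P : Set (Sym2 V)) ⊆ Γ.edgeSet ∧
      ∀ ω : Set (Sym2 V), (P : Set (Sym2 V)) ⊆ ω → Conn ω x y := by
  obtain ⟨p⟩ := hc x y
  induction p with
  | nil => exact ⟨∅, by simp, fun ω _ => Conn.refl _ _⟩
  | @cons a b c hadj _ ih =>
    obtain ⟨P, h1, h2⟩ := ih
    refine ⟨insert s(a, b) P, ?_, fun ω hω => ?_⟩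
    · rw [Finset.coe_insert]
      exact Set.insert_subset hadj h1
    · rw [Finset.coe_insert, Set.insert_subset_iff] at hω
      exact (Conn.single hω.1).trans (h2 ω hω.2)

lemma pow_le_tau {p : ℝ} (h0 : 0 ≤ p) (h1 : p ≤ 1) {U : Set (Sym2 V)} {P : Finset (Sym2 V)}
    (hP : (P : Set (Sym2 V)) ⊆ U) {x y : V}
    (h : ∀ ω : Set (Sym2 V), (P : Set (Sym2 V)) ⊆ ω → Conn ω x y) :
    ENNReal.ofReal (p ^ P.card) ≤ tau (wU p U) x y := by
  refine le_trans (ENNReal.ofReal_le_ofReal ?_) (Pr_le_tau _ P x y)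
  refine le_trans (le_of_eq ?_) (Pr_mono (wU_ok h0 h1 U) fun ω _ => h ω)
  rw [Pr_open subset_rfl, Finset.prod_congr rfl (g := fun _ => p) (f := wU p U) fun e he => if_pos (hP he),
    Finset.prod_const]

end Vale.Agent.P165
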