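import Vale.Agent.P165.Glad
import Vale.Agent.P165.Tau
import Vale.Agent.P165.Sel

open Classical
open scoped ENNReal

namespace Vale.Agent.P165

open Vale.Agent.P151

universe u

variable {V : Type*} {α : Type*} [DecidableEq α]

lemma glue_quad {ι : Type*} (X : Finset ι) (v : ι → ℝ) (k : ι → ι → ℝ)
    (hk0 : ∀ m m', 0 ≤ k m m') (hks : ∀ m m', k m m' = k m' m) {M : ℝ}
    (hM : ∀ m ∈ X, ∑ m' ∈ X, k m m' ≤ M) :
    ∑ m ∈ X, ∑ m' ∈ X, v m * v m' * k m m' ≤ M * ∑ m ∈ X, v m ^ 2 := by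
  have h1 : ∑ m ∈ X, ∑ m' ∈ X, v m * v m' * k m m'
      ≤ ∑ m ∈ X, ∑ m' ∈ X, (v m ^ 2 * k m m' / 2 + v m' ^ 2 * k m' m / 2) := by
    refine Finset.sum_le_sum fun m _ => Finset.sum_le_sum fun m' _ => ?_
    rw [hks m' m]
    nlinarith [mul_nonneg (sq_nonneg (v m - v m')) (hk0 m m')]
  have h2 : ∑ m ∈ X, ∑ m' ∈ X, v m' ^ 2 * k m' m / 2
      = ∑ m ∈ X, ∑ m' ∈ X, v m ^ 2 * k m m' / 2 := Finset.sum_comm
  simp only [Finset.sum_add_distrib] at h1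
  rw [h2, ← Finset.sum_add_distrib] at h1
  refine h1.trans ?_
  rw [Finset.mul_sum]
  refine Finset.sum_le_sum fun m hm => ?_
  rw [← Finset.sum_div, ← Finset.mul_sum]
  nlinarith [mul_le_mul_of_nonneg_left (hM m hm) (sq_nonneg (v m))]

lemma glue_indep {p : ℝ} {U U₁ U₂ : Set (Sym2 V)} (hU₁ : U₁ ⊆ U) (hU₂ : U₂ ⊆ U)
    (hd : Disjoint U₁ U₂) (F : Finset (Sym2 V)) (A B : Set (Sym2 V) → Prop) :
    Pr F (wU p U) (fun ω => A (ω ∩ U₁) ∧ B (ω ∩ U₂))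
      = Pr F (wU p U₁) A * Pr F (wU p U₂) B := by
  have e1 : ∀ ω η : Set (Sym2 V), mix U₁ ω η ∩ U₁ = ω ∩ U₁ := by
    intro ω η; ext e; simp only [Set.mem_inter_iff, mem_mix]; tauto
  have e2 : ∀ ω η : Set (Sym2 V), mix U₁ ω η ∩ U₂ = η ∩ U₂ := by
    intro ω η; ext e
    have : e ∈ U₁ → e ∉ U₂ := fun h => Set.disjoint_left.1 hd h
    simp only [Set.mem_inter_iff, mem_mix]; tauto
  unfold Pr
  simp only [ind_and]
  rw [Ex_indep F _ U₁ (f := fun ω => ind (A (ω ∩ U₁))) (g := fun ω => ind (B (ω ∩ U₂)))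
    (fun ω η => by simp only [e1]) (fun ω η => by simp only [e2]), Ex_wU hU₁, Ex_wU hU₂]

lemma glue_one {ι : Type*} {p : ℝ} (h0 : 0 ≤ p) (h1 : p ≤ 1) {U U₁ U₂ : Set (Sym2 V)}
    (hU₁ : U₁ ⊆ U) (hU₂ : U₂ ⊆ U) (hd : Disjoint U₁ U₂) (o : V) (x z : ι → V)
    (P : ι → Finset (Sym2 V)) (hP : ∀ m, (P m : Set (Sym2 V)) ⊆ U) {n : ℕ}
    (hn : ∀ m, (P m).card ≤ n)
    (hc : ∀ m, ∀ ω : Set (Sym2 V), (P m : Set (Sym2 V)) ⊆ ω → Conn ω (x m) (z m))
    (F : Finset (Sym2 V)) (X : Finset ι) (hF : ∀ m ∈ X, P m ⊆ F) {M : ℝ} (hM : 0 < M)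
    (hμ₁ : ∀ m ∈ X, ∑ m' ∈ X, Pr F (wU p U₁) (fun ω => Conn ω (x m) (x m')) ≤ M)
    (hμ₂ : ∀ m ∈ X, ∑ m' ∈ X, Pr F (wU p U₂) (fun ω => Conn ω (z m) (z m')) ≤ M) (y : V) :
    p ^ (2 * n) * ∑ m ∈ X, Pr F (wU p U₁) (fun ω => Conn ω o (x m)) *
        Pr F (wU p U₂) (fun ω => Conn ω (z m) y)
      ≤ 9 * M * Pr F (wU p U) (fun ω => Conn ω o y) := by
  have hw := wU_ok h0 h1 U
  have hw₁ := wU_ok h0 h1 U₁
  have hw₂ := wU_ok h0 h1 U₂
  let A : ι → Set (Sym2 V) → Prop := fun m ω =>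
    (P m : Set (Sym2 V)) ⊆ ω ∧ (Conn (ω ∩ U₁) o (x m) ∧ Conn (ω ∩ U₂) (z m) y)
  obtain ⟨S, hS⟩ : ∃ S, S = ∑ m ∈ X, Pr F (wU p U₁) (fun ω => Conn ω o (x m)) *
        Pr F (wU p U₂) (fun ω => Conn ω (z m) y) := ⟨_, rfl⟩
  have sy : ∀ (w : Sym2 V → ℝ) (a b : V),
      Pr F w (fun ω => Conn ω a b) = Pr F w (fun ω => Conn ω b a) := fun w a b =>
    Pr_congr fun ω _ => ⟨Conn.symm, Conn.symm⟩
  have k1 : p ^ n * S ≤ Ex F (wU p U) (fun ω => ∑ m ∈ X, ind (A m ω)) := by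
    rw [Ex_sum, hS, Finset.mul_sum]
    refine Finset.sum_le_sum fun m hm => ?_
    rw [← glue_indep hU₁ hU₂ hd F]
    exact force_open h0 h1 (hF m hm) (hP m) (hn m) (fun _ _ h h' =>
      ⟨h'.1.mono (Set.inter_subset_inter_left _ h), h'.2.mono (Set.inter_subset_inter_left _ h)⟩)
  have k2 : Ex F (wU p U) (fun ω => (∑ m ∈ X, ind (A m ω)) * (∑ m ∈ X, ind (A m ω)))
      ≤ 9 * M * S := by
    simp only [Finset.sum_mul_sum, Ex_sum]
    let v : ι → ℝ := fun m => Real.sqrt (Pr F (wU p U₁) (fun ω => Conn ω o (x m))) *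
      Real.sqrt (Pr F (wU p U₂) (fun ω => Conn ω y (z m)))
    let k : ι → ι → ℝ := fun m m' => Real.sqrt (Pr F (wU p U₁) (fun ω => Conn ω (x m) (x m'))) *
      Real.sqrt (Pr F (wU p U₂) (fun ω => Conn ω (z m) (z m')))
    have q1 : ∀ m m', Ex F (wU p U) (fun ω => ind (A m ω) * ind (A m' ω))
        ≤ 9 * (v m * v m' * k m m') := by
      intro m m'
      have a1 : Ex F (wU p U) (fun ω => ind (A m ω) * ind (A m' ω))
          ≤ Pr F (wU p U) (fun ω => (fun η => Conn η o (x m) ∧ Conn η o (x m')) (ω ∩ U₁) ∧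
            (fun η => Conn η y (z m) ∧ Conn η y (z m')) (ω ∩ U₂)) := by
        refine Ex_mono hw fun ω _ => ?_
        rw [← ind_and]
        exact ind_mono fun h => ⟨⟨h.1.2.1, h.2.2.1⟩, h.1.2.2.symm, h.2.2.2.symm⟩
      have a2 := glue_indep (p := p) hU₁ hU₂ hd F (fun η => Conn η o (x m) ∧ Conn η o (x m'))
        (fun η => Conn η y (z m) ∧ Conn η y (z m'))
      refine (a1.trans_eq a2).trans ((mul_le_mul (gladkov_sqrt hw₁ F o (x m) (x m'))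
        (gladkov_sqrt hw₂ F y (z m) (z m')) (Pr_nonneg hw₂ _) (by positivity)).trans
        (le_of_eq ?_))
      simp only [v, k]
      ring
    have q2 := glue_quad X v k (fun m m' => by positivity)
      (fun m m' => by simp only [k]; rw [sy _ (x m), sy _ (z m)]) (M := M) (fun m hm => by
        have b1 := hμ₁ m hm
        have b2 := hμ₂ m hm
        have b3 : ∑ m' ∈ X, k m m' ≤ ∑ m' ∈ X,
            (Pr F (wU p U₁) (fun ω => Conn ω (x m) (x m')) / 2 +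
              Pr F (wU p U₂) (fun ω => Conn ω (z m) (z m')) / 2) := by
          refine Finset.sum_le_sum fun m' _ => ?_
          have c1 := Real.sq_sqrt (Pr_nonneg (F := F) hw₁ (fun ω => Conn ω (x m) (x m')))
          have c2 := Real.sq_sqrt (Pr_nonneg (F := F) hw₂ (fun ω => Conn ω (z m) (z m')))
          simp only [k]
          nlinarith [sq_nonneg (Real.sqrt (Pr F (wU p U₁) (fun ω => Conn ω (x m) (x m'))) -
            Real.sqrt (Pr F (wU p U₂) (fun ω => Conn ω (z m) (z m'))))]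
        rw [Finset.sum_add_distrib, ← Finset.sum_div, ← Finset.sum_div] at b3
        linarith)
    have q3 : ∑ m ∈ X, v m ^ 2 = S := by
      rw [hS]
      refine Finset.sum_congr rfl fun m _ => ?_
      simp only [v]
      rw [mul_pow, Real.sq_sqrt (Pr_nonneg hw₁ _), Real.sq_sqrt (Pr_nonneg hw₂ _), sy _ y]
    rw [q3] at q2
    refine (Finset.sum_le_sum fun m _ => Finset.sum_le_sum fun m' _ => q1 m m').trans ?_
    have q4 : ∑ m ∈ X, ∑ m' ∈ X, 9 * (v m * v m' * k m m')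
        = 9 * ∑ m ∈ X, ∑ m' ∈ X, v m * v m' * k m m' := by
      rw [Finset.mul_sum]
      exact Finset.sum_congr rfl fun m _ => by rw [Finset.mul_sum]
    rw [q4]
    linarith
  have k3 : ∀ ω : Set (Sym2 V), 2 * p ^ n * (9 * M) * (∑ m ∈ X, ind (A m ω))
      - (p ^ n) ^ 2 * ((∑ m ∈ X, ind (A m ω)) * (∑ m ∈ X, ind (A m ω)))
      ≤ (9 * M) ^ 2 * ind (Conn ω o y) := by
    intro ω
    by_cases h : Conn ω o y
    · rw [ind_true h]
      nlinarith [sq_nonneg (9 * M - p ^ n * ∑ m ∈ X, ind (A m ω))]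
    · rw [ind_false h, Finset.sum_eq_zero fun m _ => ind_false fun hA => h
        (((hA.2.1.mono Set.inter_subset_left).trans (hc m ω hA.1)).trans
          (hA.2.2.mono Set.inter_subset_left))]
      simp
  have k4 := Ex_mono (F := F) hw (fun ω _ => k3 ω)
  rw [Ex_sub, Ex_const_mul, Ex_const_mul, Ex_const_mul] at k4
  rw [← hS]
  have hq : 0 ≤ p ^ n := pow_nonneg h0 n
  have k5 := mul_le_mul_of_nonneg_left k1 (by positivity : 0 ≤ 2 * p ^ n * (9 * M))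
  have k6 := mul_le_mul_of_nonneg_left k2 (sq_nonneg (p ^ n))
  have k7 : (9 * M) * (p ^ (2 * n) * S)
      ≤ (9 * M) * (9 * M * Pr F (wU p U) (fun ω => Conn ω o y)) := by
    unfold Pr
    rw [pow_mul']
    nlinarith
  exact le_of_mul_le_mul_left k7 (by positivity)

/-- gluing from below by the second moment method -/
theorem glue2 {ι : Type*} {p : ℝ} (h0 : 0 ≤ p) (h1 : p ≤ 1) {U U₁ U₂ : Set (Sym2 V)}
    (hU₁ : U₁ ⊆ U) (hU₂ : U₂ ⊆ U) (hd : Disjoint U₁ U₂) (o : V) (x z : ι → V)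
    (P : ι → Finset (Sym2 V)) (hP : ∀ m, (P m : Set (Sym2 V)) ⊆ U) {n : ℕ}
    (hn : ∀ m, (P m).card ≤ n)
    (hc : ∀ m, ∀ ω : Set (Sym2 V), (P m : Set (Sym2 V)) ⊆ ω → Conn ω (x m) (z m))
    (Y : Set V) (b μ : ℝ≥0∞)
    (hb : ∀ m, b ≤ ∑' y, ii (y ∈ Y) * tau (wU p U₂) (z m) y)
    (hμ₁ : ∀ m, ∑' m', tau (wU p U₁) (x m) (x m') ≤ μ)
    (hμ₂ : ∀ m, ∑' m', tau (wU p U₂) (z m) (z m') ≤ μ) :
    ENNReal.ofReal (p ^ (2 * n)) * ((∑' m, tau (wU p U₁) o (x m)) * b)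
      ≤ 9 * μ * ∑' y, ii (y ∈ Y) * tau (wU p U) o y := by
  by_cases hz : ENNReal.ofReal (p ^ (2 * n)) = 0
  · rw [hz, zero_mul]; exact zero_le
  rw [mul_comm, ← ENNReal.le_div_iff_mul_le (Or.inl hz) (Or.inl ENNReal.ofReal_ne_top)]
  refine ENNReal.mul_le_of_forall_lt fun a' ha b' hb' => ?_
  rw [ENNReal.le_div_iff_mul_le (Or.inl hz) (Or.inl ENNReal.ofReal_ne_top), mul_comm]
  rw [ENNReal.tsum_eq_iSup_sum, lt_iSup_iff] at ha
  obtain ⟨X, hX⟩ := ha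
  have hw := wU_ok h0 h1 U
  have hw₁ := wU_ok h0 h1 U₁
  have hw₂ := wU_ok h0 h1 U₂
  have fin : ∀ m, ∃ Y' : Finset V, (Y' : Set V) ⊆ Y ∧
      b' < ∑ y ∈ Y', tau (wU p U₂) (z m) y := by
    intro m
    have := hb'.trans_le (hb m)
    rw [ENNReal.tsum_eq_iSup_sum, lt_iSup_iff] at this
    obtain ⟨Y0, hY0⟩ := this
    refine ⟨Y0.filter (· ∈ Y), fun y hy => (Finset.mem_filter.1 hy).2, ?_⟩
    refine hY0.trans_le (le_of_eq ?_)
    rw [Finset.sum_filter]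
    refine Finset.sum_congr rfl fun y _ => ?_
    unfold ii; split_ifs <;> simp
  choose Y' hY' using fin
  have ev1 := sum_tau_approx hw₁ X (fun _ => o) x hX
  have ev2 : ∀ᶠ F : Finset (Sym2 V) in Filter.atTop, ∀ m ∈ X,
      b' < ENNReal.ofReal (∑ y ∈ Y' m, Pr F (wU p U₂) (fun ω => Conn ω (z m) y)) := by
    rw [Filter.eventually_all_finset]
    intro m _
    exact sum_tau_approx hw₂ (Y' m) (fun _ => z m) id (hY' m).2
  have ev3 : ∀ᶠ F : Finset (Sym2 V) in Filter.atTop, ∀ m ∈ X, P m ⊆ F := by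
    rw [Filter.eventually_all_finset]
    exact fun m _ => Filter.eventually_ge_atTop (P m)
  obtain ⟨F, f1, f2, f3⟩ := (ev1.and (ev2.and ev3)).exists
  have hbt : b' ≠ ⊤ := hb'.ne_top
  obtain ⟨m0, hm0⟩ : X.Nonempty := by
    by_contra hne
    rw [Finset.not_nonempty_iff_eq_empty.1 hne] at hX
    simp at hX
  have hμt : min μ (X.card : ℝ≥0∞) ≠ ⊤ :=
    ne_top_of_le_ne_top (ENNReal.natCast_ne_top _) (min_le_right _ _)
  have row : ∀ (w : Sym2 V → ℝ), Ok w → ∀ t : ι → V, (∀ m, ∑' m', tau w (t m) (t m') ≤ μ) →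
      ∀ m ∈ X, ∑ m' ∈ X, Pr F w (fun ω => Conn ω (t m) (t m'))
        ≤ (min μ (X.card : ℝ≥0∞)).toReal := by
    intro w hw t ht m _
    rw [← ENNReal.ofReal_le_iff_le_toReal hμt,
      ENNReal.ofReal_sum_of_nonneg fun _ _ => Pr_nonneg hw _]
    refine (Finset.sum_le_sum fun m' _ => Pr_le_tau w F (t m) (t m')).trans (le_min ?_ ?_)
    · exact (ENNReal.sum_le_tsum X).trans (ht m)
    · refine (Finset.sum_le_sum fun m' _ => tau_le_one hw (t m) (t m')).trans ?_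
      simp
  have hM : 0 < (min μ (X.card : ℝ≥0∞)).toReal := by
    refine ENNReal.toReal_pos (ne_of_gt (lt_min ?_ ?_)) hμt
    · refine lt_of_lt_of_le zero_lt_one (le_trans ?_ (hμ₁ m0))
      rw [← tau_self (wU p U₁) (x m0)]
      exact ENNReal.le_tsum (f := fun m' => tau (wU p U₁) (x m0) (x m')) m0
    · exact_mod_cast Finset.card_pos.2 ⟨m0, hm0⟩
  let Yf : Finset V := X.biUnion Y'
  have main : p ^ (2 * n) * ((∑ m ∈ X, Pr F (wU p U₁) (fun ω => Conn ω o (x m))) * b'.toReal)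
      ≤ 9 * (min μ (X.card : ℝ≥0∞)).toReal *
        ∑ y ∈ Yf, Pr F (wU p U) (fun ω => Conn ω o y) := by
    have s1 := Finset.sum_le_sum (s := Yf) fun y _ => glue_one h0 h1 hU₁ hU₂ hd o x z P hP hn hc
      F X f3 hM (row _ hw₁ x hμ₁) (row _ hw₂ z hμ₂) y
    rw [← Finset.mul_sum, ← Finset.mul_sum, Finset.sum_comm] at s1
    refine le_trans (mul_le_mul_of_nonneg_left ?_ (pow_nonneg h0 _)) s1
    rw [Finset.sum_mul]
    refine Finset.sum_le_sum fun m hm => ?_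
    rw [← Finset.mul_sum]
    refine mul_le_mul_of_nonneg_left ?_ (Pr_nonneg hw₁ _)
    refine (ENNReal.toReal_le_of_le_ofReal (Finset.sum_nonneg fun _ _ => Pr_nonneg hw₂ _)
      (f2 m hm).le).trans ?_
    exact Finset.sum_le_sum_of_subset_of_nonneg (Finset.subset_biUnion_of_mem Y' hm)
      fun _ _ _ => Pr_nonneg hw₂ _
  have hs0 : 0 ≤ ∑ m ∈ X, Pr F (wU p U₁) (fun ω => Conn ω o (x m)) :=
    Finset.sum_nonneg fun _ _ => Pr_nonneg hw₁ _
  have m2 := ENNReal.ofReal_le_ofReal main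
  rw [ENNReal.ofReal_mul (pow_nonneg h0 _), ENNReal.ofReal_mul hs0, ENNReal.ofReal_toReal hbt,
    ENNReal.ofReal_mul (by positivity), ENNReal.ofReal_mul (by norm_num), ENNReal.ofReal_ofNat,
    ENNReal.ofReal_toReal hμt,
    ENNReal.ofReal_sum_of_nonneg (s := Yf) (fun _ _ => Pr_nonneg hw _)] at m2
  refine le_trans (by gcongr) (m2.trans ?_)
  refine mul_le_mul' (mul_le_mul' le_rfl (min_le_left _ _)) ?_
  refine le_trans (Finset.sum_le_sum fun y hy => ?_) (ENNReal.sum_le_tsum Yf)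
  obtain ⟨m, -, hy⟩ := Finset.mem_biUnion.1 hy
  rw [ii_true ((hY' m).1 hy), one_mul]
  exact Pr_le_tau _ F o y

end Vale.Agent.P165
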