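import Vale.Agent.P165.TrB
import Vale.Agent.P165.Glad

open Classical
open scoped ENNReal

namespace Vale.Agent.P165

open Vale.Agent.P151

universe u

variable {V : Type*} {α : Type*} [DecidableEq α]
variable {Γ : SimpleGraph V} {G : Type u} [Group G] [MulAction G V]

lemma good_dy (k J : ℕ) :
    (k : ℝ) ≤ ∑ j ∈ Finset.range J, 2 ^ (j + 1) * ind (2 ^ j ≤ k) + (k : ℝ) * k / 2 ^ J := by
  have hs : ∀ j ∈ Finset.range J, (0 : ℝ) ≤ 2 ^ (j + 1) * ind (2 ^ j ≤ k) := fun j _ =>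
    mul_nonneg (by positivity) (ind_nonneg _)
  have hq : (0 : ℝ) ≤ (k : ℝ) * k / 2 ^ J := by positivity
  rcases Nat.eq_zero_or_pos k with rfl | hk
  · simpa using Finset.sum_nonneg hs
  by_cases hJ : k < 2 ^ J
  · have h1 : Nat.log 2 k < J := Nat.log_lt_of_lt_pow hk.ne' hJ
    have h2 := Finset.single_le_sum hs (Finset.mem_range.2 h1)
    rw [ind_true (Nat.pow_log_le_self 2 hk.ne'), mul_one] at h2
    have h3 : (k : ℝ) ≤ 2 ^ (Nat.log 2 k + 1) := by
      exact_mod_cast (Nat.lt_pow_succ_log_self (by norm_num) k).le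
    linarith
  · have h1 : (2 : ℝ) ^ J ≤ k := by exact_mod_cast not_lt.1 hJ
    have h2 : (k : ℝ) ≤ (k : ℝ) * k / 2 ^ J := by
      rw [le_div_iff₀ (by positivity)]
      exact mul_le_mul_of_nonneg_left h1 (by positivity)
    linarith [Finset.sum_nonneg hs]

lemma good_filter {ι : Type*} (T : Finset ι) (P : ι → Prop) (f : ι → ℝ) :
    ∑ n ∈ T.filter P, f n = ∑ n ∈ T, ind (P n) * f n := by
  rw [Finset.sum_filter]
  refine Finset.sum_congr rfl fun n _ => ?_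
  by_cases h : P n <;> simp [h]

lemma good_pair {E ι : Type*} (F : Finset E) (w : E → ℝ) (T : Finset ι) (ev : ι → Set E → Prop)
    (s : ι → ι → ℝ) :
    Ex F w (fun ω => ∑ n ∈ T.filter (fun n => ev n ω), ∑ n' ∈ T.filter (fun n => ev n ω), s n n') =
      ∑ n ∈ T, ∑ n' ∈ T, Pr F w (fun ω => ev n ω ∧ ev n' ω) * s n n' := by
  simp only [good_filter, Finset.mul_sum, Ex_sum]
  refine Finset.sum_congr rfl fun n _ => Finset.sum_congr rfl fun n' _ => ?_
  simp only [Pr, ind_and, ← mul_assoc]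
  exact Ex_mul_const _ _ _ _

lemma good_level {E ι : Type*} {F : Finset E} {w : E → ℝ} (hw : Ok w) (T : Finset ι)
    (ev : ι → Set E → Prop) {a : ℝ} {J : ℕ} (hJ0 : 1 ≤ J)
    (h1 : 2 * a ≤ ∑ n ∈ T, Pr F w (ev n))
    (h2 : ∑ n ∈ T, ∑ n' ∈ T, Pr F w (fun ω => ev n ω ∧ ev n' ω) ≤ a * 2 ^ J) :
    ∃ M : ℕ, 1 ≤ M ∧ a / (2 * J * M) ≤ Pr F w (fun ω => M ≤ (T.filter fun n => ev n ω).card) := by
  have e1 : Ex F w (fun ω => ((T.filter fun n => ev n ω).card : ℝ)) = ∑ n ∈ T, Pr F w (ev n) := by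
    simp only [Finset.card_eq_sum_ones, Nat.cast_sum, Nat.cast_one, good_filter, mul_one, Ex_sum]
    rfl
  have e2 : Ex F w (fun ω => ((T.filter fun n => ev n ω).card : ℝ) *
      (T.filter fun n => ev n ω).card / 2 ^ J) ≤ a := by
    have := good_pair F w T ev (fun _ _ => 1)
    simp only [Finset.sum_const, nsmul_eq_mul, mul_one] at this
    simp only [div_eq_mul_inv]
    rw [Ex_mul_const, this, ← div_eq_mul_inv, div_le_iff₀ (by positivity)]
    exact h2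
  have e3 := Ex_mono (F := F) hw fun ω _ => good_dy (T.filter fun n => ev n ω).card J
  rw [e1, Ex_add, Ex_sum] at e3
  simp only [Ex_const_mul] at e3
  have e4 : ∑ _j ∈ Finset.range J, a / J ≤ ∑ j ∈ Finset.range J, 2 ^ (j + 1) *
      Ex F w (fun ω => ind (2 ^ j ≤ (T.filter fun n => ev n ω).card)) := by
    have : (J : ℝ) ≠ 0 := by positivity
    rw [Finset.sum_const, Finset.card_range, nsmul_eq_mul, mul_div_cancel₀ _ this]
    linarith
  obtain ⟨j, -, hj⟩ := Finset.exists_le_of_sum_le (by simp; omega) e4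
  refine ⟨2 ^ j, Nat.one_le_two_pow, ?_⟩
  have hJ : (0 : ℝ) < J := by positivity
  rw [div_le_iff₀ hJ] at hj
  rw [div_le_iff₀ (by positivity)]
  refine hj.trans (le_of_eq ?_)
  simp only [Pr]
  push_cast
  ring

lemma good_sum {N : Subgroup G} {w : Sym2 V → ℝ} (hw : Ok w) {x y : V} {μ : ℝ} (hμ0 : 0 ≤ μ)
    (h : ∑' n : N, tau w x ((n : G) • y) ≤ ENNReal.ofReal μ) (T : Finset G) (g : G → G)
    (hg : ∀ n ∈ T, g n ∈ N) (hi : Function.Injective g) :
    ∑ n ∈ T, (tau w x (g n • y)).toReal ≤ μ := by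
  rw [← ENNReal.toReal_sum fun n _ => ne_top_of_le_ne_top ENNReal.one_ne_top (tau_le_one hw _ _)]
  refine ENNReal.toReal_le_of_le_ofReal hμ0 (le_trans ?_ h)
  have e := tsum_subtype (N : Set G) (fun m : G => tau w x (m • y))
  refine le_trans ?_ (le_of_eq e.symm)
  refine le_trans (le_of_eq ?_) (ENNReal.sum_le_tsum (T.image g))
  rw [Finset.sum_image fun a _ b _ hab => hi hab]
  refine Finset.sum_congr rfl fun n hn => ?_
  rw [Set.indicator_of_mem (hg n hn)]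

lemma good_row (hG : Geom Γ G) (c : Cf V G) (hc : c.Fine Γ) {p : ℝ} (h0 : 0 ≤ p) (h1 : p ≤ 1)
    {x : V} {μ : ℝ} (hμ0 : 0 ≤ μ)
    (h : ∑' n : c.N, tau (wU p (inE Γ c.A)) x ((n : G) • x) ≤ ENNReal.ofReal μ) (T : Finset G)
    (hT : ∀ n ∈ T, n ∈ c.N) (f : G) {n : G} (hn : n ∈ T) :
    ∑ n' ∈ T, sq Γ p c.A ((f⁻¹ * n * f) • x) ((f⁻¹ * n' * f) • x) ^ 2 ≤ μ := by
  have hm : ∀ n ∈ T, f⁻¹ * n * f ∈ c.N := fun n hn => by
    simpa using hc.nor.conj_mem n (hT n hn) f⁻¹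
  refine le_trans (le_of_eq ?_) (good_sum (wU_ok h0 h1 _) hμ0 h T
    (fun n' => (f⁻¹ * n * f)⁻¹ * (f⁻¹ * n' * f))
    (fun n' hn' => c.N.mul_mem (c.N.inv_mem (hm n hn)) (hm n' hn')) ?_)
  · refine Finset.sum_congr rfl fun n' _ => ?_
    have e : sh (f⁻¹ * n * f) c.A = c.A := by
      have := sh_inv hc.nor hc.invA (hm n hn) 1
      rwa [mul_one, sh_one] at this
    rw [sq, Real.sq_sqrt ENNReal.toReal_nonneg, ← tau_sh hG p (f⁻¹ * n * f) c.A x, e, smul_smul,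
      mul_inv_cancel_left]
  · intro a b hab
    simpa using hab

lemma good_amgm {ι : Type*} (T : Finset ι) (a : ι → ℝ) (s r : ι → ι → ℝ) {W μ : ℝ} (hμ0 : 0 ≤ μ)
    (ha : ∑ n ∈ T, a n ^ 2 ≤ W) (hs : ∀ n ∈ T, ∑ n' ∈ T, s n n' ^ 2 ≤ μ)
    (hr : ∀ n ∈ T, ∑ n' ∈ T, r n n' ^ 2 ≤ μ) (ss : ∀ n n', s n n' = s n' n)
    (rs : ∀ n n', r n n' = r n' n) :
    ∑ n ∈ T, ∑ n' ∈ T, a n * a n' * r n n' * s n n' ≤ W * μ := by
  have h1 : ∑ n ∈ T, ∑ n' ∈ T, a n ^ 2 * (s n n' ^ 2 + r n n' ^ 2) ≤ W * (2 * μ) := by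
    refine le_trans (Finset.sum_le_sum (g := fun n => a n ^ 2 * (2 * μ)) fun n hn => ?_) ?_
    · rw [← Finset.mul_sum, Finset.sum_add_distrib]
      exact mul_le_mul_of_nonneg_left (by linarith [hs n hn, hr n hn]) (sq_nonneg _)
    · rw [← Finset.sum_mul]
      exact mul_le_mul_of_nonneg_right ha (by positivity)
  have h2 : ∑ n ∈ T, ∑ n' ∈ T, a n' ^ 2 * (s n n' ^ 2 + r n n' ^ 2) ≤ W * (2 * μ) := by
    rw [Finset.sum_comm]
    refine le_trans (le_of_eq ?_) h1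
    refine Finset.sum_congr rfl fun n _ => Finset.sum_congr rfl fun n' _ => ?_
    rw [ss n' n, rs n' n]
  have h3 : ∑ n ∈ T, ∑ n' ∈ T, a n * a n' * r n n' * s n n' ≤
      ∑ n ∈ T, ∑ n' ∈ T, (a n ^ 2 * (s n n' ^ 2 + r n n' ^ 2) / 4 +
        a n' ^ 2 * (s n n' ^ 2 + r n n' ^ 2) / 4) := by
    refine Finset.sum_le_sum fun n _ => Finset.sum_le_sum fun n' _ => ?_
    nlinarith [sq_nonneg (a n * s n n' - a n' * r n n'), sq_nonneg (a n * r n n' - a n' * s n n')]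
  simp only [Finset.sum_add_distrib, ← Finset.sum_div] at h3
  linarith

lemma good_Pr_le {w : Sym2 V → ℝ} (hw : Ok w) (F : Finset (Sym2 V)) (x y : V) :
    Pr F w (fun ω => Conn ω x y) ≤ (tau w x y).toReal :=
  (ENNReal.ofReal_le_iff_le_toReal
    (ne_top_of_le_ne_top ENNReal.one_ne_top (tau_le_one hw _ _))).1 (Pr_le_tau w F x y)

lemma good_sq_symm (p : ℝ) (A : Set V) (x y : V) : sq Γ p A x y = sq Γ p A y x := by
  rw [sq, sq, tau_symm]

/-- a single return -/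
def goodEv (Γ : SimpleGraph V) (c : Cf V G) (n : G) (ω : Set (Sym2 V)) : Prop :=
  Conn (ω ∩ inE Γ c.A) c.w (n • c.w') ∧ tr n c.Q1 ⊆ ω

theorem good_prob (hG : Geom Γ G) (c : Cf V G) (hc : c.Fine Γ) {p : ℝ} (h0 : 0 < p) (h1 : p ≤ 1)
    {W μ m₂ : ℝ} (hW0 : 0 < W) (hμ0 : 0 < μ)
    (hW : ∑' n : c.N, tau (wU p (inE Γ c.A)) c.w ((n : G) • c.w') = ENNReal.ofReal W)
    (hμ : ∑' n : c.N, tau (wU p (inE Γ c.A)) c.w ((n : G) • c.w) ≤ ENNReal.ofReal μ)
    (hμ' : ∑' n : c.N, tau (wU p (inE Γ c.A)) c.w' ((n : G) • c.w') ≤ ENNReal.ofReal μ)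
    (hm : ∀ (F : Finset (Sym2 V)) (T : Finset G), (∀ n ∈ T, n ∈ c.N) →
      ∑ a ∈ T, ∑ b ∈ T, Pr F (wU p (inE Γ c.A))
        (fun ω => Conn ω c.w (a • c.w') ∧ Conn ω c.w (b • c.w')) ≤ m₂)
    {J : ℕ} (hJ0 : 1 ≤ J) (hJ : 4 * m₂ ≤ p ^ c.Q1.card * W * 2 ^ J) :
    ∃ M : ℕ, 1 ≤ M ∧ ∃ F : Finset (Sym2 V), p ^ c.Q1.card * W / (16 * J * M) ≤
      Pr F (wU p Γ.edgeSet) (c.Gd Γ p M (48 * μ * J * M / p ^ c.Q1.card) 1) := by
  have hwA : Ok (wU p (inE Γ c.A)) := wU_ok h0.le h1 _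
  have hw0 : Ok (wU p Γ.edgeSet) := wU_ok h0.le h1 _
  have hq : 0 < p ^ c.Q1.card := pow_pos h0 _
  have l1 : ENNReal.ofReal (W / 2) < ∑' n : c.N, tau (wU p (inE Γ c.A)) c.w ((n : G) • c.w') := by
    rw [hW, ENNReal.ofReal_lt_ofReal_iff hW0]
    linarith
  rw [ENNReal.tsum_eq_iSup_sum, lt_iSup_iff] at l1
  obtain ⟨s, hs⟩ := l1
  set T : Finset G := s.map (Function.Embedding.subtype _) with hTd
  have hT : ∀ n ∈ T, n ∈ c.N := fun n hn => by
    obtain ⟨m, -, rfl⟩ := Finset.mem_map.1 hn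
    exact m.2
  have hs' : ENNReal.ofReal (W / 2) < ∑ n ∈ T, tau (wU p (inE Γ c.A)) c.w (n • c.w') := by
    rw [hTd, Finset.sum_map]
    exact hs
  obtain ⟨F, hF1, hF2⟩ := ((sum_tau_approx hwA T (fun _ => c.w) (fun n => n • c.w') hs').and
    (Filter.eventually_ge_atTop (T.biUnion fun n => c.Q1.image (Sym2.map (n • ·))))).exists
  have hF1' := ((ENNReal.ofReal_lt_ofReal_iff_of_nonneg (by linarith)).1 hF1).le
  let ev : G → Set (Sym2 V) → Prop := goodEv Γ c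
  have a1 : ∀ n ∈ T, Pr F (wU p (inE Γ c.A)) (fun ω => Conn ω c.w (n • c.w')) * p ^ c.Q1.card ≤
      Pr F (wU p Γ.edgeSet) (ev n) := fun n hn => by
    have hsub : c.Q1.image (Sym2.map (n • ·)) ⊆ F :=
      (Finset.subset_biUnion_of_mem (fun n => c.Q1.image (Sym2.map (n • ·))) hn).trans hF2
    have hE : tr n c.Q1 ⊆ Γ.edgeSet := by
      have := (tr_sub hG n (P := c.Q1) (A := Set.univ)).2 (by rw [inE_univ]; exact hc.q1)
      have e : sh n (Set.univ : Set V) = Set.univ := by ext; simp [sh]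
      rwa [e, inE_univ] at this
    have b1 : Pr F (wU p Γ.edgeSet) (fun ω => tr n c.Q1 ⊆ ω) = p ^ c.Q1.card := by
      rw [tr_eq_image] at hE ⊢
      rw [Pr_open hsub, ← tr_card n c.Q1, ← Finset.prod_const]
      exact Finset.prod_congr rfl fun e he => if_pos (hE he)
    rw [← b1, ← Pr_inter]
    refine (harris F hw0 (fun ω η h => ind_mono fun h' => h'.mono (Set.inter_subset_inter_left _ h))
      (fun ω η h => ind_mono fun h' => h'.trans h)).trans (le_of_eq ?_)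
    simp only [Pr, ev, goodEv, ind_and]
  have a2 : ∀ n n', Pr F (wU p Γ.edgeSet) (fun ω => ev n ω ∧ ev n' ω) ≤ Pr F (wU p (inE Γ c.A))
      (fun ω => Conn ω c.w (n • c.w') ∧ Conn ω c.w (n' • c.w')) := fun n n' => by
    rw [← Pr_inter]
    exact Pr_mono hw0 fun ω _ h => ⟨h.1.1, h.2.1⟩
  obtain ⟨M, hM, hM'⟩ := good_level hw0 T ev (a := p ^ c.Q1.card * W / 4) hJ0
    (by
      refine le_trans ?_ (Finset.sum_le_sum a1)
      rw [← Finset.sum_mul]
      nlinarith)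
    (by
      refine le_trans (Finset.sum_le_sum fun n _ => Finset.sum_le_sum fun n' _ => a2 n n') ?_
      linarith [hm F T hT])
  refine ⟨M, hM, F, ?_⟩
  set E : ℝ := 48 * μ * J * M / p ^ c.Q1.card with hE
  have hE0 : 0 < E := by positivity
  let Y : Set (Sym2 V) → ℝ := fun ω => ∑ f ∈ c.I, c.en Γ p f (T.filter fun n => ev n ω)
  have a3 : Ex F (wU p Γ.edgeSet) Y ≤ c.I.card * (3 * (W * μ)) := by
    simp only [Y, Ex_sum]
    rw [← nsmul_eq_mul]
    refine Finset.sum_le_card_nsmul _ _ _ fun f _ => ?_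
    simp only [Cf.en]
    rw [good_pair]
    have := good_amgm T (fun n => √(Pr F (wU p (inE Γ c.A)) (fun ω => Conn ω c.w (n • c.w'))))
      (fun n n' => sq Γ p c.A ((f⁻¹ * n * f) • c.w) ((f⁻¹ * n' * f) • c.w))
      (fun n n' => sq Γ p c.A (n • c.w') (n' • c.w')) (W := W) hμ0.le ?_
      (fun n hn => good_row hG c hc h0.le h1 hμ0.le hμ T hT f hn)
      (fun n hn => by simpa using good_row hG c hc h0.le h1 hμ0.le hμ' T hT 1 hn)
      (fun _ _ => good_sq_symm _ _ _ _) (fun _ _ => good_sq_symm _ _ _ _)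
    · refine le_trans ?_ (mul_le_mul_of_nonneg_left this (by norm_num : (0 : ℝ) ≤ 3))
      simp only [Finset.mul_sum]
      refine Finset.sum_le_sum fun n _ => Finset.sum_le_sum fun n' _ => ?_
      rw [← mul_assoc]
      refine mul_le_mul_of_nonneg_right ((a2 n n').trans ((gladkov_sqrt hwA F _ _ _).trans ?_))
        (Real.sqrt_nonneg _)
      refine mul_le_mul_of_nonneg_left (mul_le_mul_of_nonneg_left ?_ (by positivity))
        (by norm_num)
      exact Real.sqrt_le_sqrt (good_Pr_le hwA F _ _)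
    · refine le_trans (Finset.sum_le_sum fun n _ => ?_)
        (good_sum hwA hW0.le hW.le T id hT Function.injective_id)
      rw [Real.sq_sqrt (Pr_nonneg hwA _)]
      exact good_Pr_le hwA F _ _
  have hY : ∀ ω, 0 ≤ Y ω := fun ω => Finset.sum_nonneg fun f _ => Finset.sum_nonneg fun _ _ =>
    Finset.sum_nonneg fun _ _ => Real.sqrt_nonneg _
  have a4 : Pr F (wU p Γ.edgeSet) (fun ω => c.I.card * E < Y ω) ≤
      p ^ c.Q1.card * W / (16 * J * M) := by
    rcases c.I.eq_empty_or_nonempty with hI | hI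
    · refine Ex_le_const hw0 fun ω _ => ?_
      rw [ind_false (by simp [Y, hI])]
      positivity
    · have hI' : (0 : ℝ) < c.I.card := by exact_mod_cast hI.card_pos
      have b1 : Pr F (wU p Γ.edgeSet) (fun ω => c.I.card * E < Y ω) * (c.I.card * E) ≤
          Ex F (wU p Γ.edgeSet) Y := by
        rw [Pr, ← Ex_mul_const]
        refine Ex_mono hw0 fun ω _ => ?_
        by_cases h : c.I.card * E < Y ω
        · rw [ind_true h, one_mul]; exact h.le
        · rw [ind_false h, zero_mul]; exact hY ω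
      have b2 : p ^ c.Q1.card * W / (16 * J * M) * (c.I.card * E) =
          c.I.card * (3 * (W * μ)) := by
        rw [hE]
        field_simp
        ring
      exact le_of_mul_le_mul_right (by linarith) (mul_pos hI' hE0)
  have a5 := Pr_le_add (F := F) hw0 (A := fun ω => M ≤ (T.filter fun n => ev n ω).card)
    (B := c.Gd Γ p M E 1) (C := fun ω => c.I.card * E < Y ω) fun ω _ h => by
      by_cases hlt : c.I.card * E < Y ω
      · exact Or.inr hlt
      obtain ⟨S, hS, hS'⟩ := Finset.exists_subset_card_eq h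
      refine Or.inl ⟨S, ⟨fun n hn => hT n (Finset.mem_filter.1 (hS hn)).1, hS', ?_⟩,
        fun n hn => ?_⟩
      · refine le_trans (Finset.sum_le_sum fun f _ => ?_) (not_lt.1 hlt)
        refine le_trans (Finset.sum_le_sum fun n _ => Finset.sum_le_sum_of_subset_of_nonneg hS
          fun _ _ _ => Real.sqrt_nonneg _) (Finset.sum_le_sum_of_subset_of_nonneg hS
          fun _ _ _ => Finset.sum_nonneg fun _ _ => Real.sqrt_nonneg _)
      · rw [sh_one, one_smul, one_mul]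
        exact (Finset.mem_filter.1 (hS hn)).2
  have b3 : p ^ c.Q1.card * W / 4 / (2 * J * M) = 2 * (p ^ c.Q1.card * W / (16 * J * M)) := by
    field_simp
    ring
  linarith

end Vale.Agent.P165
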