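import Vale.Agent.P165.Def5
import Vale.Agent.P165.Good

open Classical
open scoped ENNReal

namespace Vale.Agent.P165

open Vale.Agent.P151

universe u

variable {V : Type*} {α : Type*} [DecidableEq α]
variable {Γ : SimpleGraph V} {G : Type u} [Group G] [MulAction G V]


lemma goodT_row (hG : Geom Γ G) {K : Subgroup G} {A : Set V}
    (hA : ∀ n ∈ K, ∀ v : V, n • v ∈ A ↔ v ∈ A) {p : ℝ} (h0 : 0 ≤ p) (h1 : p ≤ 1)
    {x : V} {μ : ℝ} (hμ0 : 0 ≤ μ)
    (h : ∑' n : K, tau (wU p (inE Γ A)) x ((n : G) • x) ≤ ENNReal.ofReal μ) (T : Finset G)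
    (g : G → G) (hg : ∀ n ∈ T, g n ∈ K) (hi : Function.Injective g) {a : G} (ha : a ∈ K) :
    ∑ n' ∈ T, sq Γ p A (a • x) (g n' • x) ^ 2 ≤ μ := by
  refine le_trans (le_of_eq ?_) (good_sum (wU_ok h0 h1 _) hμ0 h T (fun n' => a⁻¹ * g n')
    (fun n' hn' => K.mul_mem (K.inv_mem ha) (hg n' hn')) ?_)
  · refine Finset.sum_congr rfl fun n' _ => ?_
    have e : sh a A = A := Set.ext fun v => hA _ (K.inv_mem ha) v
    rw [sq, Real.sq_sqrt ENNReal.toReal_nonneg, ← tau_sh hG p a A x, e, smul_smul,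
      mul_inv_cancel_left]
  · intro b b' hb
    exact hi (mul_left_cancel hb)

lemma goodT_row2 (hG : Geom Γ G) (c : Cg V G) (hc : c.Fine Γ) {p : ℝ} (h0 : 0 ≤ p) (h1 : p ≤ 1)
    {μ : ℝ} (hμ0 : 0 ≤ μ)
    (h : ∑' n : c.C, tau (wU p (inE Γ c.A)) c.w ((n : G) • c.w) ≤ ENNReal.ofReal μ)
    (T : Finset G) (hT : ∀ n ∈ T, n ∈ c.N) {f : G} (hf : f ∈ c.I) {n : G} (hn : n ∈ T) :
    ∑ n' ∈ T, sq Γ p c.A ((f⁻¹ * n * c.s n f) • c.w) ((f⁻¹ * n' * c.s n' f) • c.w) ^ 2 ≤
      c.I.card * μ := by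
  rw [← Finset.sum_fiberwise_of_maps_to (t := c.I) (g := fun n' => c.s n' f)
    (fun n' hn' => (hc.perm n' (hT n' hn') f hf).1), ← nsmul_eq_mul]
  refine Finset.sum_le_card_nsmul _ _ _ fun f' _ => ?_
  refine le_trans (le_of_eq ?_) (goodT_row hG hc.invA h0 h1 hμ0 h
    (T.filter fun n' => c.s n' f = f') (fun n' => f⁻¹ * n' * f') (fun n' hn' => ?_)
    (fun a b hab => by simpa using hab) (hc.perm n (hT n hn) f hf).2)
  · refine Finset.sum_congr rfl fun n' hn' => ?_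
    rw [(Finset.mem_filter.1 hn').2]
  · obtain ⟨b1, b2⟩ := Finset.mem_filter.1 hn'
    rw [← b2]
    exact (hc.perm n' (hT n' b1) f hf).2

theorem good_prob2 (hG : Geom Γ G) (c : Cg V G) (hc : c.Fine Γ) {p : ℝ} (h0 : 0 < p) (h1 : p ≤ 1)
    {W μ m₂ lam : ℝ} (hW0 : 0 < W) (hμ0 : 0 < μ) (hl0 : 0 < lam) (hl : (c.I.card : ℝ) ≤ lam ^ 2)
    (hW : ∑' n : c.N, tau (wU p (inE Γ c.A)) c.w ((n : G) • c.w') = ENNReal.ofReal W)
    (hμ : ∑' n : c.C, tau (wU p (inE Γ c.A)) c.w ((n : G) • c.w) ≤ ENNReal.ofReal μ)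
    (hμ' : ∑' n : c.N, tau (wU p (inE Γ c.A)) c.w' ((n : G) • c.w') ≤ ENNReal.ofReal μ)
    (hm : ∀ (F : Finset (Sym2 V)) (T : Finset G), (∀ n ∈ T, n ∈ c.N) →
      ∑ a ∈ T, ∑ b ∈ T, Pr F (wU p (inE Γ c.A))
        (fun ω => Conn ω c.w (a • c.w') ∧ Conn ω c.w (b • c.w')) ≤ m₂)
    {J : ℕ} (hJ0 : 1 ≤ J) (hJ : 4 * m₂ ≤ p ^ c.Q1.card * W * 2 ^ J) :
    ∃ M : ℕ, 1 ≤ M ∧ ∃ F : Finset (Sym2 V), p ^ c.Q1.card * W / (16 * J * M) ≤
      Pr F (wU p Γ.edgeSet) (c.Gd Γ p M (48 * μ * lam * J * M / p ^ c.Q1.card) 1) := by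
  have hwA : Ok (wU p (inE Γ c.A)) := wU_ok h0.le h1 _
  have hw0 : Ok (wU p Γ.edgeSet) := wU_ok h0.le h1 _
  have hq : 0 < p ^ c.Q1.card := pow_pos h0 _
  have l1 : ENNReal.ofReal (W / 2) < ∑' n : c.N, tau (wU p (inE Γ c.A)) c.w ((n : G) • c.w') := by
    rw [hW, ENNReal.ofReal_lt_ofReal_iff hW0]
    linarith
  rw [ENNReal.tsum_eq_iSup_sum, lt_iSup_iff] at l1
  obtain ⟨s, hs⟩ := l1
  set T : Finset G := s.map (Function.Embedding.subtype _) with hTd
  have hT : ∀ n ∈ T, n ∈ c.N := fun n hn => by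
    obtain ⟨m, -, rfl⟩ := Finset.mem_map.1 hn
    exact m.2
  have hs' : ENNReal.ofReal (W / 2) < ∑ n ∈ T, tau (wU p (inE Γ c.A)) c.w (n • c.w') := by
    rw [hTd, Finset.sum_map]
    exact hs
  obtain ⟨F, hF1, hF2⟩ := ((sum_tau_approx hwA T (fun _ => c.w) (fun n => n • c.w') hs').and
    (Filter.eventually_ge_atTop (T.biUnion fun n => c.Q1.image (Sym2.map (n • ·))))).exists
  have hF1' := ((ENNReal.ofReal_lt_ofReal_iff_of_nonneg (by linarith)).1 hF1).le
  let ev : G → Set (Sym2 V) → Prop := goodEv Γ c.toCf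
  have a1 : ∀ n ∈ T, Pr F (wU p (inE Γ c.A)) (fun ω => Conn ω c.w (n • c.w')) * p ^ c.Q1.card ≤
      Pr F (wU p Γ.edgeSet) (ev n) := fun n hn => by
    have hsub : c.Q1.image (Sym2.map (n • ·)) ⊆ F :=
      (Finset.subset_biUnion_of_mem (fun n => c.Q1.image (Sym2.map (n • ·))) hn).trans hF2
    have hE : tr n c.Q1 ⊆ Γ.edgeSet := by
      have := (tr_sub hG n (P := c.Q1) (A := Set.univ)).2 (by rw [inE_univ]; exact hc.q1)
      have e : sh n (Set.univ : Set V) = Set.univ := by ext; simp [sh]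
      rwa [e, inE_univ] at this
    have b1 : Pr F (wU p Γ.edgeSet) (fun ω => tr n c.Q1 ⊆ ω) = p ^ c.Q1.card := by
      rw [tr_eq_image] at hE ⊢
      rw [Pr_open hsub, ← tr_card n c.Q1, ← Finset.prod_const]
      exact Finset.prod_congr rfl fun e he => if_pos (hE he)
    rw [← b1, ← Pr_inter]
    refine (harris F hw0 (fun ω η h => ind_mono fun h' => h'.mono (Set.inter_subset_inter_left _ h))
      (fun ω η h => ind_mono fun h' => h'.trans h)).trans (le_of_eq ?_)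
    simp only [Pr, ev, goodEv, ind_and]
  have a2 : ∀ n n', Pr F (wU p Γ.edgeSet) (fun ω => ev n ω ∧ ev n' ω) ≤ Pr F (wU p (inE Γ c.A))
      (fun ω => Conn ω c.w (n • c.w') ∧ Conn ω c.w (n' • c.w')) := fun n n' => by
    rw [← Pr_inter]
    exact Pr_mono hw0 fun ω _ h => ⟨h.1.1, h.2.1⟩
  obtain ⟨M, hM, hM'⟩ := good_level hw0 T ev (a := p ^ c.Q1.card * W / 4) hJ0
    (by
      refine le_trans ?_ (Finset.sum_le_sum a1)
      rw [← Finset.sum_mul]
      nlinarith)
    (by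
      refine le_trans (Finset.sum_le_sum fun n _ => Finset.sum_le_sum fun n' _ => a2 n n') ?_
      linarith [hm F T hT])
  refine ⟨M, hM, F, ?_⟩
  set E : ℝ := 48 * μ * lam * J * M / p ^ c.Q1.card with hE
  have hE0 : 0 < E := by positivity
  let Y : Set (Sym2 V) → ℝ := fun ω => ∑ f ∈ c.I, c.en Γ p f (T.filter fun n => ev n ω)
  have a3 : Ex F (wU p Γ.edgeSet) Y ≤ c.I.card * (3 * (lam * (W * μ))) := by
    simp only [Y, Ex_sum]
    rw [← nsmul_eq_mul]
    refine Finset.sum_le_card_nsmul _ _ _ fun f hf => ?_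
    simp only [Cg.en]
    rw [good_pair]
    have := good_amgm T (fun n => √(Pr F (wU p (inE Γ c.A)) (fun ω => Conn ω c.w (n • c.w'))))
      (fun n n' => sq Γ p c.A ((f⁻¹ * n * c.s n f) • c.w) ((f⁻¹ * n' * c.s n' f) • c.w) / lam)
      (fun n n' => sq Γ p c.A (n • c.w') (n' • c.w')) (W := W) hμ0.le ?_
      (fun n hn => by
        simp only [div_pow]
        rw [← Finset.sum_div, div_le_iff₀ (by positivity)]
        refine (goodT_row2 hG c hc h0.le h1 hμ0.le hμ T hT hf hn).trans ?_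
        rw [mul_comm]
        exact mul_le_mul_of_nonneg_left hl hμ0.le)
      (fun n hn => goodT_row hG (fun m hm => hc.invA m (hc.le hm)) h0.le h1 hμ0.le hμ' T id hT
        Function.injective_id (hT n hn))
      (fun _ _ => by rw [good_sq_symm]) (fun _ _ => good_sq_symm _ _ _ _)
    · refine le_trans ?_ (mul_le_mul_of_nonneg_left (mul_le_mul_of_nonneg_left this hl0.le)
        (by norm_num : (0 : ℝ) ≤ 3))
      simp only [Finset.mul_sum]
      refine Finset.sum_le_sum fun n _ => Finset.sum_le_sum fun n' _ => ?_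
      rw [mul_left_comm lam, mul_div_cancel₀ _ hl0.ne', ← mul_assoc]
      refine mul_le_mul_of_nonneg_right ((a2 n n').trans ((gladkov_sqrt hwA F _ _ _).trans ?_))
        (Real.sqrt_nonneg _)
      refine mul_le_mul_of_nonneg_left (mul_le_mul_of_nonneg_left ?_ (by positivity))
        (by norm_num)
      exact Real.sqrt_le_sqrt (good_Pr_le hwA F _ _)
    · refine le_trans (Finset.sum_le_sum fun n _ => ?_)
        (good_sum hwA hW0.le hW.le T id hT Function.injective_id)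
      rw [Real.sq_sqrt (Pr_nonneg hwA _)]
      exact good_Pr_le hwA F _ _
  have hY : ∀ ω, 0 ≤ Y ω := fun ω => Finset.sum_nonneg fun f _ => Finset.sum_nonneg fun _ _ =>
    Finset.sum_nonneg fun _ _ => Real.sqrt_nonneg _
  have a4 : Pr F (wU p Γ.edgeSet) (fun ω => c.I.card * E < Y ω) ≤
      p ^ c.Q1.card * W / (16 * J * M) := by
    rcases c.I.eq_empty_or_nonempty with hI | hI
    · refine Ex_le_const hw0 fun ω _ => ?_
      rw [ind_false (by simp [Y, hI])]
      positivity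
    · have hI' : (0 : ℝ) < c.I.card := by exact_mod_cast hI.card_pos
      have b1 : Pr F (wU p Γ.edgeSet) (fun ω => c.I.card * E < Y ω) * (c.I.card * E) ≤
          Ex F (wU p Γ.edgeSet) Y := by
        rw [Pr, ← Ex_mul_const]
        refine Ex_mono hw0 fun ω _ => ?_
        by_cases h : c.I.card * E < Y ω
        · rw [ind_true h, one_mul]; exact h.le
        · rw [ind_false h, zero_mul]; exact hY ω
      have b2 : p ^ c.Q1.card * W / (16 * J * M) * (c.I.card * E) =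
          c.I.card * (3 * (lam * (W * μ))) := by
        rw [hE]
        field_simp
        ring
      exact le_of_mul_le_mul_right (by linarith) (mul_pos hI' hE0)
  have a5 := Pr_le_add (F := F) hw0 (A := fun ω => M ≤ (T.filter fun n => ev n ω).card)
    (B := c.Gd Γ p M E 1) (C := fun ω => c.I.card * E < Y ω) fun ω _ h => by
      by_cases hlt : c.I.card * E < Y ω
      · exact Or.inr hlt
      obtain ⟨S, hS, hS'⟩ := Finset.exists_subset_card_eq h
      refine Or.inl ⟨S, ⟨fun n hn => hT n (Finset.mem_filter.1 (hS hn)).1, hS', ?_⟩,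
        fun n hn => ?_⟩
      · refine le_trans (Finset.sum_le_sum fun f _ => ?_) (not_lt.1 hlt)
        refine le_trans (Finset.sum_le_sum fun n _ => Finset.sum_le_sum_of_subset_of_nonneg hS
          fun _ _ _ => Real.sqrt_nonneg _) (Finset.sum_le_sum_of_subset_of_nonneg hS
          fun _ _ _ => Finset.sum_nonneg fun _ _ => Real.sqrt_nonneg _)
      · rw [sh_one, one_smul, one_mul]
        exact (Finset.mem_filter.1 (hS hn)).2
  have b3 : p ^ c.Q1.card * W / 4 / (2 * J * M) = 2 * (p ^ c.Q1.card * W / (16 * J * M)) := by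
    field_simp
    ring
  linarith

end Vale.Agent.P165
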