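import Vale.Agent.P165.MmB

open Classical
open scoped ENNReal

namespace Vale.Agent.P165

open Vale.Agent.P151

universe u

variable {V : Type*} {α : Type*} [DecidableEq α]
variable {Γ : SimpleGraph V} {G : Type u} [Group G] [MulAction G V]
variable {φ : G →* FreeGroup α} {π : V → FreeGroup α}

lemma har_ball {q u x s : FreeGroup α} (hq : dd q u = 1) (hx : x ∈ half q u)
    (h : dd x s < dd x u) : s ∈ half q u := by
  rw [geo_half hq] at hx ⊢
  by_contra hs
  have e := cone_cut hs hx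
  rw [dd_comm s x, dd_comm u x] at e
  omega

lemma har_join {r n : ℕ} (hst : ∀ (x : V) (t : FreeGroup α),
    dd (π x) t ≤ 1 → ∃ (z : V) (P : Finset (Sym2 V)), π z = t ∧
      (P : Set (Sym2 V)) ⊆ inE Γ (π ⁻¹' {s | dd (π x) s ≤ r}) ∧ P.card ≤ n ∧
      ∀ ω : Set (Sym2 V), (P : Set (Sym2 V)) ⊆ ω → Conn ω x z)
    {q u : FreeGroup α} (hq : dd q u = 1) (d : ℕ) : ∀ x : V, π x ∈ half q u → dd (π x) u ≤ d →
    ∃ (z : V) (P : Finset (Sym2 V)), dd (π z) u ≤ r + 1 ∧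
      (P : Set (Sym2 V)) ⊆ inE Γ (π ⁻¹' half q u) ∧ P.card ≤ n * d ∧
      ∀ ω : Set (Sym2 V), (P : Set (Sym2 V)) ⊆ ω → Conn ω x z := by
  induction d with
  | zero =>
    intro x _ hd
    exact ⟨x, ∅, by omega, by simp, by simp, fun ω _ => Conn.refl _ _⟩
  | succ d ih =>
    intro x hx hd
    by_cases h : dd (π x) u ≤ r + 1
    · exact ⟨x, ∅, h, by simp, by simp, fun ω _ => Conn.refl _ _⟩
    have e0 := dd_comm u (π x)
    obtain ⟨t, ht, ht'⟩ := exists_pre u (π x) (j := dd u (π x) - 1) (Nat.sub_le _ _)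
    rw [geo_mem] at ht'
    have e1 := dd_comm t (π x)
    have e2 := dd_comm t u
    obtain ⟨z, P, hz, hP, hc, hconn⟩ := hst x t (by omega)
    obtain ⟨z', P', hz', hP', hc', hconn'⟩ := ih z
      (by rw [hz]; exact har_ball hq hx (by omega)) (by rw [hz]; omega)
    refine ⟨z', P ∪ P', hz', ?_, ?_, fun ω hω => ?_⟩
    · rw [Finset.coe_union]
      refine Set.union_subset (hP.trans ?_) hP'
      refine inE_mono fun v hv => har_ball hq hx ?_
      have hv' : dd (π x) (π v) ≤ r := hv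
      omega
    · have := Finset.card_union_le P P'
      rw [Nat.mul_succ]
      omega
    · rw [Finset.coe_union, Set.union_subset_iff] at hω
      exact Conn.trans (hconn ω hω.1) (hconn' ω hω.2)

lemma har_ker (hs : Sj Γ φ π) (p : ℝ) (R : Set (FreeGroup α)) (m : φ.ker) (x y : V) :
    tR Γ π p R x ((m : G) • y) = tR Γ π p R y ((m : G)⁻¹ • x) := by
  have h := hs.tR_smul p R (m : G) y ((m : G)⁻¹ • x)
  have hm : φ (m : G) = 1 := m.2
  rw [smul_inv_smul, hm] at h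
  simp only [one_mul, Set.ofPred_mem_eq] at h
  rw [← h]
  exact tau_symm _ _ _

theorem Sj.har [Finite α] [Nontrivial α] (hs : Sj Γ φ π) {p₀ : ℝ} (hp₀ : 0 < p₀) :
    ∃ D₀, HarP Γ π p₀ D₀ := by
  obtain ⟨r, n, hst⟩ := hs.step
  refine ⟨r + 1, fun D => ?_⟩
  obtain ⟨c₁, Cs, hCs, hb⟩ := hs.best D
  obtain ⟨o⟩ := hs.geom.conn.nonempty
  set a : ℝ≥0∞ := ENNReal.ofReal (p₀ ^ (n * D)) with ha
  have a0 : a ≠ 0 := (ENNReal.ofReal_pos.2 (pow_pos hp₀ _)).ne'
  have a1 : a ≠ ⊤ := ENNReal.ofReal_ne_top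
  have aa0 : a * a ≠ 0 := mul_ne_zero a0 a0
  have aa1 : a * a ≠ ⊤ := ENNReal.mul_ne_top a1 a1
  refine ⟨c₁ * (1 + (a * a)⁻¹), ENNReal.mul_ne_top (ENNReal.natCast_ne_top _)
    (ENNReal.add_ne_top.2 ⟨ENNReal.one_ne_top, ENNReal.inv_ne_top.2 aa0⟩), fun p hp h1 => ?_⟩
  have h0 : 0 ≤ p := hp₀.le.trans hp
  have hap : ∀ k, k ≤ n * D → a ≤ ENNReal.ofReal (p ^ k) := fun k hk =>
    ENNReal.ofReal_le_ofReal ((pow_le_pow_left₀ hp₀.le hp _).trans (pow_le_pow_of_le_one h0 h1 hk))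
  rcases hb p h0 h1 with h | ⟨c, hc, h⟩
  · refine h.trans ?_
    rw [mul_assoc]
    exact le_mul_of_one_le_right' (one_le_mul le_self_add (one_le_mm o π Γ p _))
  refine h.trans ?_
  rw [mul_assoc]
  refine mul_le_mul_right ?_ _
  obtain ⟨hq, hx, hxD, hyD⟩ := hCs c hc
  by_cases hy : π c.2.2 ∈ half c.1 1
  · obtain ⟨z, P, hz, hP, hPc, hPz⟩ := har_join hst hq D _ hx hxD
    obtain ⟨z', P', hz', hP', hPc', hPz'⟩ := har_join hst hq D _ hy hyD
    have key : a * a * ∑' m : φ.ker, tR Γ π p (half c.1 1) c.2.1 ((m : G) • c.2.2) ≤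
        mm π (tR Γ π p) (r + 1) := by
      refine le_trans ?_ (hs.orb_le_mm p hq hz hz')
      rw [← ENNReal.tsum_mul_left]
      refine ENNReal.tsum_le_tsum fun m => ?_
      have k1 : a * tR Γ π p (half c.1 1) c.2.1 ((m : G) • c.2.2) ≤
          tR Γ π p (half c.1 1) z ((m : G) • c.2.2) :=
        (mul_le_mul_left (hap _ hPc) _).trans (tau_harris h0 h1 hP hPz _)
      have k2 : a * tR Γ π p (half c.1 1) c.2.2 ((m : G)⁻¹ • z) ≤
          tR Γ π p (half c.1 1) z' ((m : G)⁻¹ • z) :=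
        (mul_le_mul_left (hap _ hPc') _).trans (tau_harris h0 h1 hP' hPz' _)
      rw [← har_ker hs, ← har_ker hs] at k2
      rw [mul_assoc]
      exact (mul_le_mul_right k1 _).trans k2
    refine le_trans ?_ (mul_le_mul_left le_add_self _)
    refine le_trans ?_ (mul_le_mul_right key _)
    rw [← mul_assoc, ENNReal.inv_mul_cancel aa0 aa1, one_mul]
  · have hz : ∀ m : φ.ker, tR Γ π p (half c.1 1) c.2.1 ((m : G) • c.2.2) = 0 := by
      intro m
      have hm : φ (m : G) = 1 := m.2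
      refine tau_zero (S := π ⁻¹' half c.1 1) hx ?_ fun a _ b hb => ?_
      · rw [Set.mem_preimage, hs.eqv, hm, one_mul]
        exact hy
      · exact if_neg fun he => hb (he.2 b (Sym2.mem_mk_right a b))
    simp [hz]

end Vale.Agent.P165
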