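import Vale.Agent.P165.MmT
import Vale.Agent.P165.Har

open Classical
open scoped ENNReal

namespace Vale.Agent.P165

open Vale.Agent.P151

universe u

variable {V : Type*} {α : Type*} [DecidableEq α]
variable {Γ : SimpleGraph V} {G : Type u} [Group G] [MulAction G V]
variable {ρ : G →* Equiv.Perm (FreeGroup α)} {π : V → FreeGroup α}

lemma harT_join {r n : ℕ} (hst : ∀ (x : V) (t : FreeGroup α),
    ∃ (z : V) (P : Finset (Sym2 V)), dd (π z) t ≤ r ∧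
      (P : Set (Sym2 V)) ⊆ inE Γ (π ⁻¹' {s | ∃ s', t ∈ cone (π x) s' ∧ dd s' s ≤ r}) ∧
      P.card ≤ n * dd (π x) t ∧
      ∀ ω : Set (Sym2 V), (P : Set (Sym2 V)) ⊆ ω → Conn ω x z)
    {q u : FreeGroup α} (hq : dd q u = 1) (d : ℕ) (x : V) (hx : π x ∈ half q u)
    (hd : dd (π x) u ≤ d) :
    ∃ (z : V) (P : Finset (Sym2 V)), dd (π z) u ≤ 2 * r + 1 ∧
      (P : Set (Sym2 V)) ⊆ inE Γ (π ⁻¹' half q u) ∧ P.card ≤ n * d ∧
      ∀ ω : Set (Sym2 V), (P : Set (Sym2 V)) ⊆ ω → Conn ω x z := by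
  by_cases h : dd (π x) u ≤ 2 * r + 1
  · exact ⟨x, ∅, h, by simp, by simp, fun ω _ => Conn.refl _ _⟩
  obtain ⟨t, ht, ht'⟩ := exists_pre (π x) u (j := dd (π x) u - (r + 1)) (Nat.sub_le _ _)
  rw [geo_mem] at ht'
  obtain ⟨z, P, hz, hP, hc, hconn⟩ := hst x t
  refine ⟨z, P, ?_, hP.trans (inE_mono fun v hv => har_ball hq hx ?_),
    hc.trans (Nat.mul_le_mul_left _ (by omega)), hconn⟩
  · have := dd_tri (π z) t u
    omega
  · obtain ⟨s', h1, h2⟩ := hv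
    rw [geo_mem] at h1
    have := dd_tri (π x) s' (π v)
    omega

lemma harT_half (hs : Tj Γ ρ π) {q u : FreeGroup α} {m : G} (hm : m ∈ fx ρ [u, q])
    (v : FreeGroup α) : ρ m v ∈ half q u ↔ v ∈ half q u := by
  have h1 : ρ m u = u := hm u (by simp)
  have h2 : ρ m q = q := hm q (by simp)
  change dd (ρ m v) u < dd (ρ m v) q ↔ dd v u < dd v q
  rw [← hs.act.iso m v u, ← hs.act.iso m v q, h1, h2]

lemma harT_ker (hs : Tj Γ ρ π) (p : ℝ) {q u : FreeGroup α} {m : G} (hm : m ∈ fx ρ [u, q])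
    (x y : V) : tR Γ π p (half q u) x (m • y) = tR Γ π p (half q u) y (m⁻¹ • x) := by
  have h := hs.tR_smul p (half q u) m y (m⁻¹ • x)
  have e : {v | ρ m v ∈ half q u} = half q u := Set.ext fun v => harT_half hs hm v
  rw [smul_inv_smul, e] at h
  rw [← h]
  exact tau_symm _ _ _

theorem Tj.har [Finite α] [Nontrivial α] (hs : Tj Γ ρ π) {p₀ : ℝ} (hp₀ : 0 < p₀) :
    ∃ D₀, HarP Γ π p₀ D₀ := by
  obtain ⟨r, n, hst⟩ := hs.walk
  refine ⟨2 * r + 1, fun D => ?_⟩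
  obtain ⟨c₁, Cs, hCs, hb⟩ := hs.best D (fun _ _ _ => [])
  obtain ⟨o⟩ := hs.geom.conn.nonempty
  set a : ℝ≥0∞ := ENNReal.ofReal (p₀ ^ (n * D)) with ha
  have a0 : a ≠ 0 := (ENNReal.ofReal_pos.2 (pow_pos hp₀ _)).ne'
  have a1 : a ≠ ⊤ := ENNReal.ofReal_ne_top
  have aa0 : a * a ≠ 0 := mul_ne_zero a0 a0
  have aa1 : a * a ≠ ⊤ := ENNReal.mul_ne_top a1 a1
  refine ⟨c₁ * (1 + (a * a)⁻¹), ENNReal.mul_ne_top (ENNReal.natCast_ne_top _)
    (ENNReal.add_ne_top.2 ⟨ENNReal.one_ne_top, ENNReal.inv_ne_top.2 aa0⟩), fun p hp h1 => ?_⟩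
  have h0 : 0 ≤ p := hp₀.le.trans hp
  have hap : ∀ k, k ≤ n * D → a ≤ ENNReal.ofReal (p ^ k) := fun k hk =>
    ENNReal.ofReal_le_ofReal ((pow_le_pow_left₀ hp₀.le hp _).trans (pow_le_pow_of_le_one h0 h1 hk))
  rcases hb p h0 h1 with h | ⟨c, hc, h⟩
  · refine h.trans ?_
    rw [mul_assoc]
    exact le_mul_of_one_le_right' (one_le_mul le_self_add (one_le_mm o π Γ p _))
  refine h.trans ?_
  rw [mul_assoc]
  refine mul_le_mul_right ?_ _
  obtain ⟨hq, hx, hxD, hyD⟩ := hCs c hc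
  by_cases hy : π c.2.2 ∈ half c.1.1 c.1.2
  · obtain ⟨z, P, hz, hP, hPc, hPz⟩ := harT_join hst hq D _ hx hxD
    obtain ⟨z', P', hz', hP', hPc', hPz'⟩ := harT_join hst hq D _ hy hyD
    have key : a * a * ∑' m : fx ρ [c.1.2, c.1.1],
        tR Γ π p (half c.1.1 c.1.2) c.2.1 ((m : G) • c.2.2) ≤ mm π (tR Γ π p) (2 * r + 1) := by
      refine le_trans ?_ (hs.orb_le_mm p hq (N := fx ρ [c.1.2, c.1.1])
        (fun m hm => hm _ (by simp)) hz hz')
      rw [← ENNReal.tsum_mul_left]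
      refine ENNReal.tsum_le_tsum fun m => ?_
      have k1 : a * tR Γ π p (half c.1.1 c.1.2) c.2.1 ((m : G) • c.2.2) ≤
          tR Γ π p (half c.1.1 c.1.2) z ((m : G) • c.2.2) :=
        (mul_le_mul_left (hap _ hPc) _).trans (tau_harris h0 h1 hP hPz _)
      have k2 : a * tR Γ π p (half c.1.1 c.1.2) c.2.2 ((m : G)⁻¹ • z) ≤
          tR Γ π p (half c.1.1 c.1.2) z' ((m : G)⁻¹ • z) :=
        (mul_le_mul_left (hap _ hPc') _).trans (tau_harris h0 h1 hP' hPz' _)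
      rw [← harT_ker hs p m.2, ← harT_ker hs p m.2] at k2
      rw [mul_assoc]
      exact (mul_le_mul_right k1 _).trans k2
    refine le_trans ?_ (mul_le_mul_left le_add_self _)
    refine le_trans ?_ (mul_le_mul_right key _)
    rw [← mul_assoc, ENNReal.inv_mul_cancel aa0 aa1, one_mul]
  · have hz : ∀ m : fx ρ [c.1.2, c.1.1],
        tR Γ π p (half c.1.1 c.1.2) c.2.1 ((m : G) • c.2.2) = 0 := by
      intro m
      refine tau_zero (S := π ⁻¹' half c.1.1 c.1.2) hx ?_ fun a _ b hb => ?_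
      · rw [Set.mem_preimage, hs.eqv, harT_half hs m.2]
        exact hy
      · exact if_neg fun he => hb (he.2 b (Sym2.mem_mk_right a b))
    simp [hz]

end Vale.Agent.P165
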