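import Vale.Agent.P165.Tau

open Classical
open scoped ENNReal

namespace Vale.Agent.P165

open Vale.Agent.P151

universe u

variable {V : Type*} {α : Type*} [DecidableEq α]

/-- two layers -/
lemma Ex_union {E : Type*} (F : Finset E) {w η w' : E → ℝ}
    (h : ∀ e, 1 - w' e = (1 - w e) * (1 - η e)) (f : Set E → ℝ) :
    Ex F w' f = Ex F w (fun ω => Ex F η (fun σ => f (ω ∪ σ))) := by
  induction F using Finset.induction_on generalizing f with
  | empty => simp
  | insert a F ha ih =>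
    have e1 : ∀ ω σ : Set E, insert a ω ∪ insert a σ = insert a (ω ∪ σ) := by
      intro ω σ; ext e; simp only [Set.mem_union, Set.mem_insert_iff]; tauto
    have e2 : ∀ ω σ : Set E, insert a ω ∪ σ = insert a (ω ∪ σ) := by
      intro ω σ; ext e; simp only [Set.mem_union, Set.mem_insert_iff]; tauto
    have e3 : ∀ ω σ : Set E, ω ∪ insert a σ = insert a (ω ∪ σ) := by
      intro ω σ; ext e; simp only [Set.mem_union, Set.mem_insert_iff]; tauto
    rw [Ex_insert ha, Ex_insert ha, ih, ih f]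
    simp only [Ex_insert ha]
    simp only [e1]
    simp only [e2, e3, Ex_add, Ex_const_mul]
    have := h a
    have hw : w' a = 1 - (1 - w a) * (1 - η a) := by linarith
    rw [hw]
    ring

lemma last_exit {ω σ : Set (Sym2 V)} {x y : V} (h : Conn (ω ∪ σ) x y) (hy : y ∉ cl {x} ω) :
    ∃ a b, a ∈ cl {x} ω ∧ s(a, b) ∈ σ ∧
      Conn (del (cl {x} ω) ω ∪ del (cl {x} ω) σ) b y := by
  induction h with
  | refl => exact absurd (self_mem_cl (Set.mem_singleton x) ω) hy
  | @tail c d _ h2 ih =>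
    by_cases hc : c ∈ cl {x} ω
    · rcases h2 with h2 | h2
      · exact absurd (cl_conn hc (Conn.single h2)) hy
      · exact ⟨c, d, hc, h2, Conn.refl _ _⟩
    · obtain ⟨a, b, h3, h4, h5⟩ := ih hc
      have ht : s(c, d) ∉ touch (cl {x} ω) := fun ht => (mk_mem_touch.1 ht).elim hc hy
      refine ⟨a, b, h3, h4, h5.tail ?_⟩
      rcases h2 with h2 | h2
      · exact Or.inl ⟨h2, ht⟩
      · exact Or.inr ⟨h2, ht⟩

lemma Ex_mem_le {E : Type*} (F : Finset E) {η : E → ℝ} (hη : Ok η) (e : E) :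
    Ex F η (fun σ => ind (e ∈ σ)) ≤ η e := by
  by_cases he : e ∈ F
  · have := Pr_open (F := F) (s := {e}) (by simpa using he) η
    simp only [Finset.coe_singleton, Set.singleton_subset_iff, Finset.prod_singleton] at this
    exact le_of_eq this
  · refine Ex_le_const hη fun σ hσ => ?_
    rw [ind_false fun h => he (hσ h)]
    exact (hη e).1

lemma spr_term (F : Finset (Sym2 V)) {w η w' : Sym2 V → ℝ} (hw : Ok w) (hη : Ok η)
    (h : ∀ e, 1 - w' e = (1 - w e) * (1 - η e)) (x y a b : V) :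
    Ex F w (fun ω => Ex F η (fun σ => ind (a ∈ cl {x} ω ∧ s(a, b) ∈ σ ∧
      Conn (del (cl {x} ω) ω ∪ del (cl {x} ω) σ) b y))) ≤
      Pr F w (fun ω => Conn ω x a) * (η s(a, b) * Pr F w' (fun ω => Conn ω b y)) := by
  rw [markov0 F w {x} (fun W ξ => Ex F η (fun σ => ind (a ∈ W ∧ s(a, b) ∈ σ ∧
    Conn (ξ ∪ del W σ) b y)))]
  unfold Pr
  rw [← Ex_mul_const]
  refine Ex_mono hw fun ω _ => ?_
  by_cases ha : a ∈ cl {x} ω
  swap
  · rw [ind_false (P := Conn ω x a) fun hc => ha (mem_cl_single.2 hc), zero_mul]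
    refine Ex_le_const hw fun ξ _ => Ex_le_const hη fun σ _ => ?_
    rw [ind_false fun hh => ha hh.1]
  rw [ind_true (mem_cl_single.1 ha), one_mul, Ex_union F h, ← Ex_const_mul]
  refine Ex_mono hw fun ξ _ => ?_
  simp only [ha, true_and, ind_and]
  rw [Ex_indep F η {s(a, b)} (f := fun σ => ind (s(a, b) ∈ σ))
    (g := fun σ => ind (Conn (del (cl {x} ω) ξ ∪ del (cl {x} ω) σ) b y))
    (fun σ σ' => ind_congr (by simp [mem_mix])) (fun σ σ' => by
      have : del (cl {x} ω) (mix {s(a, b)} σ σ') = del (cl {x} ω) σ' := by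
        ext e
        have ht : s(a, b) ∈ touch (cl {x} ω) := mk_mem_touch.2 (Or.inl ha)
        simp only [del, Set.mem_diff, mem_mix, Set.mem_singleton_iff]
        by_cases he : e = s(a, b)
        · simp [he, ht]
        · simp [he]
      rw [this])]
  refine mul_le_mul (Ex_mem_le F hη _) (Ex_mono hη fun σ _ => ind_mono (Conn.mono ?_))
    (Ex_nonneg hη fun _ _ => ind_nonneg _) (hη _).1
  exact Set.union_subset_union (del_subset _ _) (del_subset _ _)

lemma spr_fin (F : Finset (Sym2 V)) {w η w' : Sym2 V → ℝ} (hw : Ok w) (hη : Ok η)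
    (h : ∀ e, 1 - w' e = (1 - w e) * (1 - η e)) (x y : V) : ∃ S : Finset V,
    Pr F w' (fun ω => Conn ω x y) ≤ Pr F w (fun ω => Conn ω x y) + ∑ a ∈ S, ∑ b ∈ S,
      Pr F w (fun ω => Conn ω x a) * (η s(a, b) * Pr F w' (fun ω => Conn ω b y)) := by
  refine ⟨F.biUnion Sym2.toFinset, ?_⟩
  set S := F.biUnion Sym2.toFinset with hS
  refine le_trans ?_ (add_le_add le_rfl (Finset.sum_le_sum fun a _ => Finset.sum_le_sum
    fun b _ => spr_term F hw hη h x y a b))
  simp only [← Ex_sum]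
  unfold Pr
  rw [Ex_union F h, ← Ex_add]
  refine Ex_mono hw fun ω _ => ?_
  rw [← Ex_const F η (ind (Conn ω x y)), ← Ex_add]
  refine Ex_mono hη fun σ hσ => ?_
  have hnn : 0 ≤ ∑ a ∈ S, ∑ b ∈ S, ind (a ∈ cl {x} ω ∧ s(a, b) ∈ σ ∧
      Conn (del (cl {x} ω) ω ∪ del (cl {x} ω) σ) b y) :=
    Finset.sum_nonneg fun _ _ => Finset.sum_nonneg fun _ _ => ind_nonneg _
  by_cases h1 : Conn ω x y
  · rw [ind_true h1]
    linarith [ind_le_one (Conn (ω ∪ σ) x y)]
  rw [ind_false h1, zero_add]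
  by_cases h2 : Conn (ω ∪ σ) x y
  swap
  · rw [ind_false h2]
    exact hnn
  obtain ⟨a, b, h3⟩ := last_exit h2 fun hc => h1 (mem_cl_single.1 hc)
  have ha : a ∈ S := Finset.mem_biUnion.2 ⟨_, hσ h3.2.1, by simp⟩
  have hb : b ∈ S := Finset.mem_biUnion.2 ⟨_, hσ h3.2.1, by simp⟩
  rw [ind_true h2, ← ind_true h3]
  refine le_trans ?_ (Finset.single_le_sum (f := fun a => ∑ b ∈ S, ind (a ∈ cl {x} ω ∧
    s(a, b) ∈ σ ∧ Conn (del (cl {x} ω) ω ∪ del (cl {x} ω) σ) b y))
    (fun _ _ => Finset.sum_nonneg fun _ _ => ind_nonneg _) ha)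
  exact Finset.single_le_sum (f := fun b => ind (a ∈ cl {x} ω ∧
    s(a, b) ∈ σ ∧ Conn (del (cl {x} ω) ω ∪ del (cl {x} ω) σ) b y)) (fun _ _ => ind_nonneg _) hb

/-- last exit from the cluster of the first layer -/
theorem sprinkle {w η w' : Sym2 V → ℝ} (hw : Ok w) (hη : Ok η)
    (h : ∀ e, 1 - w' e = (1 - w e) * (1 - η e)) (x y : V) :
    tau w' x y ≤ tau w x y +
      ∑' a, ∑' b, tau w x a * (ENNReal.ofReal (η s(a, b)) * tau w' b y) := by
  have hw' : Ok w' := fun e => by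
    have h1 := hw e
    have h2 := hη e
    have h3 := h e
    constructor <;> nlinarith [mul_nonneg (sub_nonneg.2 h1.2) (sub_nonneg.2 h2.2),
      mul_nonneg h1.1 (sub_nonneg.2 h2.2)]
  refine iSup_le fun F => ?_
  obtain ⟨S, hS⟩ := spr_fin F hw hη h x y
  refine (ENNReal.ofReal_le_ofReal hS).trans (ENNReal.ofReal_add_le.trans
    (add_le_add (Pr_le_tau w F x y) ?_))
  have hn : ∀ a b, 0 ≤ Pr F w (fun ω => Conn ω x a) *
      (η s(a, b) * Pr F w' (fun ω => Conn ω b y)) := fun a b =>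
    mul_nonneg (Pr_nonneg hw _) (mul_nonneg (hη _).1 (Pr_nonneg hw' _))
  rw [ENNReal.ofReal_sum_of_nonneg fun a _ => Finset.sum_nonneg fun b _ => hn a b]
  refine le_trans (Finset.sum_le_sum fun a _ => ?_) (ENNReal.sum_le_tsum S)
  rw [ENNReal.ofReal_sum_of_nonneg fun b _ => hn a b]
  refine le_trans (Finset.sum_le_sum fun b _ => ?_) (ENNReal.sum_le_tsum S)
  rw [ENNReal.ofReal_mul (Pr_nonneg hw _), ENNReal.ofReal_mul (hη _).1]
  exact mul_le_mul' (Pr_le_tau w F x a) (mul_le_mul' le_rfl (Pr_le_tau w' F b y))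

end Vale.Agent.P165
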