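import Vale.Agent.P165.Low2
import Vale.Agent.P165.Spr

open Classical
open scoped ENNReal

namespace Vale.Agent.P165

open Vale.Agent.P151

universe u

variable {V : Type*} {α : Type*} [DecidableEq α]

variable {Γ : SimpleGraph V} {G : Type u} [Group G] [MulAction G V]

lemma KerP_supp (π : V → FreeGroup α) (p : ℝ) (R : Set (FreeGroup α)) (x y : V)
    (hx : π x ∈ R) (hy : π y ∉ R) : tR Γ π p R x y = 0 :=
  tau_zero (S := π ⁻¹' R) hx hy fun _ _ _ hb => if_neg fun h => hb (mk_mem_inE.1 h).2.2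

lemma tR_up (π : V → FreeGroup α) {p : ℝ} (h0 : 0 ≤ p) (h1 : p ≤ 1)
    (R' R : Set (FreeGroup α)) (x y : V) (h : R' ⊆ R) (hx : π x ∈ R') :
    tR Γ π p R x y ≤ tR Γ π p R' x y + ∑' a, ∑' b,
      ii (Γ.Adj a b ∧ π a ∈ R' ∧ π b ∉ R' ∧ π b ∈ R) * (tR Γ π p R' x a * tR Γ π p R b y) := by
  have hsub : inE Γ (π ⁻¹' R') ⊆ inE Γ (π ⁻¹' R) := inE_mono (Set.preimage_mono h)
  refine (sprinkle (w := wU p (inE Γ (π ⁻¹' R'))) (w' := wU p (inE Γ (π ⁻¹' R)))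
    (η := wU p (inE Γ (π ⁻¹' R) \ inE Γ (π ⁻¹' R'))) (wU_ok h0 h1 _) (wU_ok h0 h1 _)
    (fun e => ?_) x y).trans (add_le_add le_rfl ?_)
  · by_cases h2 : e ∈ inE Γ (π ⁻¹' R')
    · simp [wU, h2, hsub h2]
    · by_cases h3 : e ∈ inE Γ (π ⁻¹' R) <;> simp [wU, h2, h3]
  · refine ENNReal.tsum_le_tsum fun a => ENNReal.tsum_le_tsum fun b => ?_
    change tR Γ π p R' x a * (_ * tR Γ π p R b y) ≤ _
    by_cases ha : π a ∈ R'
    · by_cases he : s(a, b) ∈ inE Γ (π ⁻¹' R) \ inE Γ (π ⁻¹' R')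
      · obtain ⟨k1, -, k3⟩ := mk_mem_inE.1 he.1
        rw [ii_true ⟨k1, ha, fun hb => he.2 (mk_mem_inE.2 ⟨k1, ha, hb⟩), k3⟩, one_mul]
        refine mul_le_mul_right (mul_le_of_le_one_left' ?_) _
        exact ENNReal.ofReal_le_one.2 (wU_ok h0 h1 _ _).2
      · rw [wU, if_neg he, ENNReal.ofReal_zero, zero_mul, mul_zero]
        exact zero_le
    · rw [KerP_supp π p R' x a hx ha, zero_mul]
      exact zero_le

theorem ker_of [Finite α] (hG : Geom Γ G) {ρ : G →* Equiv.Perm (FreeGroup α)}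
    (hρ : TreeAction ρ) {π : V → FreeGroup α} (hπ : ∀ g v, π (g • v) = ρ g (π v))
    {p₀ : ℝ} (hp₀ : 0 < p₀) :
    ∃ (L Δ : ℕ) (K : ℕ → ℝ≥0∞), (∀ d, K d ≠ ⊤) ∧ ∀ p, p₀ ≤ p → p ≤ 1 → chi Γ p ≠ ⊤ →
      Ker Γ π (tR Γ π p) L Δ K := by
  obtain ⟨L, hL⟩ := exists_lip hG hρ hπ
  obtain ⟨Δ, hΔ⟩ := exists_deg hG
  obtain ⟨K, hK, hlow⟩ := low_all hG hρ hπ hp₀
  refine ⟨L, Δ, K, hK, fun p h0 h1 hc => ?_⟩
  have h2 : 0 ≤ p := hp₀.le.trans h0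
  refine ⟨hL, deg_tsum hΔ, fun R R' x y h => ?_, KerP_supp π p, fun R x => (tau_self _ x).ge,
    tR_up π h2 h1, hlow p h0 h1, ?_⟩
  · exact tau_mono_wU h2 le_rfl h1 (inE_mono (Set.preimage_mono h)) x y
  · simpa only [tR, Set.preimage_univ, inE_univ, chi] using hc

end Vale.Agent.P165
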