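import Vale.Agent.P165.LowG
import Vale.Agent.P165.KerP

open Classical
open scoped ENNReal

namespace Vale.Agent.P165

open Vale.Agent.P151

universe u

variable {V : Type*} {α : Type*} [DecidableEq α]
variable {Γ : SimpleGraph V} {G : Type u} [Group G] [MulAction G V]
variable {φ : G →* FreeGroup α} {π : V → FreeGroup α}


lemma Ker.monoK {τ : Set (FreeGroup α) → V → V → ℝ≥0∞} {L Δ : ℕ} {K K' : ℕ → ℝ≥0∞}
    (h : Ker Γ π τ L Δ K) (hK : ∀ d, K d ≤ K' d) : Ker Γ π τ L Δ K' :=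
  ⟨h.lip, h.deg, h.mono, h.supp, h.one, h.up,
    fun d r u r' u' x x' R h1 h2 h3 h4 h5 =>
      (h.low d r u r' u' x x' R h1 h2 h3 h4 h5).trans (mul_le_mul_left (hK d) _), h.fin⟩

lemma LowQ_mono {τ : Set (FreeGroup α) → V → V → ℝ≥0∞} {d₁ d₂ d : ℕ} {K K' : ℝ≥0∞}
    (h : Low2 π τ d₁ d₂ K) (hd : d ≤ d₂) (hK : K ≤ K') : Low2 π τ d₁ d K' :=
  fun r u r' u' x x' R h1 h2 h3 h4 h5 =>
    (h r u r' u' x x' R h1 h2 h3 (h4.trans hd) h5).trans (mul_le_mul_left hK _)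

lemma LowQ_base [Finite α] [Nontrivial α] (hs : Sj Γ φ π) {p₀ : ℝ} (hp₀ : 0 < p₀) {D₀ : ℕ}
    (hH : HarP Γ π p₀ D₀) (d₁ d₂ : ℕ) : ∃ C : ℝ≥0∞, C ≠ ⊤ ∧ ∀ p, p₀ ≤ p → p ≤ 1 →
      Low2 π (tR Γ π p) d₁ d₂ (C * mm π (tR Γ π p) D₀) := by
  obtain ⟨D, A, hA, h⟩ := hs.low_gen hp₀ d₁ d₂
  obtain ⟨C, hC, h'⟩ := hH D
  refine ⟨A * C, ENNReal.mul_ne_top hA hC, fun p h0 h1 => LowQ_mono (h p h0 h1) le_rfl ?_⟩
  rw [mul_assoc]
  exact mul_le_mul_right (h' p h0 h1) _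

theorem Sj.ker2 [Finite α] [Nontrivial α] (hs : Sj Γ φ π) {p₀ : ℝ} (hp₀ : 0 < p₀) {D₀ : ℕ}
    (hH : HarP Γ π p₀ D₀) (L₀ : ℕ) :
    ∃ (L Δ : ℕ) (C : ℕ → ℝ≥0∞), L₀ ≤ L ∧ (∀ d, C d ≠ ⊤) ∧ ∀ p, p₀ ≤ p → p ≤ 1 → chi Γ p ≠ ⊤ →
      Ker Γ π (tR Γ π p) L Δ (fun d => C d * mm π (tR Γ π p) D₀) := by
  obtain ⟨L, hL⟩ := hs.lip
  obtain ⟨Δ, hΔ⟩ := exists_deg hs.geom
  choose C hC hlow using fun d => LowQ_base hs hp₀ hH d d
  refine ⟨max L₀ L, Δ, C, le_max_left _ _, hC, fun p h0 h1 hc => ?_⟩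
  have h2 : 0 ≤ p := hp₀.le.trans h0
  refine ⟨fun a b hab => (hL a b hab).trans (le_max_right _ _), deg_tsum hΔ,
    fun R R' x y h => ?_, KerP_supp π p, fun R x => (tau_self _ x).ge,
    tR_up π h2 h1, fun d => hlow d p h0 h1, ?_⟩
  · exact tau_mono_wU h2 le_rfl h1 (inE_mono (Set.preimage_mono h)) x y
  · simpa only [tR, Set.preimage_univ, inE_univ, chi] using hc

theorem Sj.low_q [Finite α] [Nontrivial α] (hs : Sj Γ φ π) {p₀ : ℝ} (hp₀ : 0 < p₀) {D₀ : ℕ}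
    (hH : HarP Γ π p₀ D₀) (d₁ : ℕ) :
    ∃ A : ℝ≥0∞, 1 ≤ A ∧ A ≠ ⊤ ∧ ∀ p, p₀ ≤ p → p ≤ 1 → ∀ d,
      Low2 π (tR Γ π p) d₁ d (A ^ (d + 1) * mm π (tR Γ π p) D₀) := by
  obtain ⟨r, n, hstep⟩ := hs.step
  obtain ⟨C, hC, hlow⟩ := LowQ_base hs hp₀ hH d₁ (r + 1)
  set b : ℝ≥0∞ := ENNReal.ofReal (p₀ ^ n) with hb
  have b0 : b ≠ 0 := (ENNReal.ofReal_pos.2 (pow_pos hp₀ n)).ne'
  have bt : b ≠ ⊤ := ENNReal.ofReal_ne_top
  set A : ℝ≥0∞ := max 1 (max C b⁻¹) with hA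
  have A1 : 1 ≤ A := le_max_left _ _
  have AC : C ≤ A := (le_max_left _ _).trans (le_max_right _ _)
  have Ab : b⁻¹ ≤ A := (le_max_right _ _).trans (le_max_right _ _)
  have At : A ≠ ⊤ := max_ne_top ENNReal.one_ne_top (max_ne_top hC (ENNReal.inv_ne_top.2 b0))
  refine ⟨A, A1, At, fun p h0 h1 d => ?_⟩
  have h2 : 0 ≤ p := hp₀.le.trans h0
  have base : ∀ d, d ≤ r + 1 → Low2 π (tR Γ π p) d₁ d (A ^ (d + 1) * mm π (tR Γ π p) D₀) :=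
    fun d hd => LowQ_mono (hlow p h0 h1) hd
      (mul_le_mul_left (AC.trans (le_self_pow A1 (Nat.succ_ne_zero d))) _)
  induction d with
  | zero => exact base 0 (Nat.zero_le _)
  | succ d ih =>
    by_cases hd : d + 1 ≤ r + 1
    · exact base _ hd
    intro s u r' u' x x' R k1 k2 k3 k4 k5
    by_cases hx : dd (π x') u' ≤ d
    · exact (ih s u r' u' x x' R k1 k2 k3 hx k5).trans (mul_le_mul_left
        (mul_le_mul_left (pow_le_pow_right' A1 (Nat.le_succ _)) _) _)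
    obtain ⟨t, ht, hu⟩ := exists_pre (π x') u' (j := 1) (by omega)
    rw [geo_mem] at hu
    obtain ⟨z, P, hz, hP, hn, hc⟩ := hstep x' t ht.le
    have out : ∀ v, dd (π x') v ≤ r + 1 → v ∉ cone r' u' := by
      intro v hv hm
      have := cone_cut k5 hm
      omega
    have hP' : (P : Set (Sym2 V)) ⊆ inE Γ (π ⁻¹' (cone r' u')ᶜ) :=
      hP.trans (inE_mono (Set.preimage_mono fun v hv => out v (Nat.le_succ_of_le hv)))
    have hy : ∀ y, tR Γ π p (cone r' u')ᶜ x' y ≤ A * tR Γ π p (cone r' u')ᶜ z y := by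
      intro y
      have e1 := tau_harris h2 h1 hP' hc y
      have e2 : b ≤ ENNReal.ofReal (p ^ P.card) := ENNReal.ofReal_le_ofReal
        ((pow_le_pow_left₀ hp₀.le h0 n).trans (pow_le_pow_of_le_one h2 h1 hn))
      have e3 : b * tR Γ π p (cone r' u')ᶜ x' y ≤ tR Γ π p (cone r' u')ᶜ z y :=
        (mul_le_mul_left e2 _).trans e1
      calc tR Γ π p (cone r' u')ᶜ x' y = b⁻¹ * (b * tR Γ π p (cone r' u')ᶜ x' y) := by
            rw [← mul_assoc, ENNReal.inv_mul_cancel b0 bt, one_mul]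
        _ ≤ A * tR Γ π p (cone r' u')ᶜ z y := mul_le_mul' Ab e3
    have hsum : ∑' y, tR Γ π p (cone r' u')ᶜ x' y ≤ A * ∑' y, tR Γ π p (cone r' u')ᶜ z y := by
      rw [← ENNReal.tsum_mul_left]
      exact ENNReal.tsum_le_tsum hy
    have e := ih s u r' u' x z R k1 k2 k3 (by rw [hz]; omega)
      (by rw [hz]; exact out t (by omega))
    refine (mul_le_mul_right hsum _).trans ?_
    rw [mul_left_comm, pow_succ' A (d + 1), mul_assoc A, mul_assoc A]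
    exact mul_le_mul_right e _

end Vale.Agent.P165
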