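import Vale.Agent.P165.Fam
import Vale.Agent.P165.Tau

open Classical
open scoped ENNReal

namespace Vale.Agent.P165

open Vale.Agent.P151

universe u

variable {V : Type*} {α : Type*} [DecidableEq α]

lemma tree_ins {F : Finset (Sym2 V)} {a : Sym2 V} (ha : a ∉ F) (w : Sym2 V → ℝ)
    (f : Set (Sym2 V) → ℝ) : Ex (insert a F) w f =
      w a * Ex F w (fun ω => f (insert a ω)) + (1 - w a) * Ex F w f := by
  refine Eq.trans (congrArg (fun F' => Ex F' w f) ?_) (Ex_insert ha w f)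
  ext x; simp only [Finset.mem_insert]

lemma tree_head {w : Sym2 V → ℝ} (hw : Ok w) {F F0 : Finset (Sym2 V)} (hF : F ⊆ F0)
    {Vs : Finset V} {γ : List V} {b : V} (c : V) (hγ : ∀ x ∈ b :: γ, x ∈ Vs) :
    Pr F w (fun ω => cv ω (b :: γ) c) ≤
      ∑ v ∈ Vs, Pr2 F w (fam (b :: γ) v b) * Pr F0 w (fun ω => Conn ω v c) := by
  refine (Pr_le_sum hw (b :: γ).toFinset (B := fun v ω => Conn ω v c)
    fun ω _ ⟨y, h1, h2⟩ => ⟨y, List.mem_toFinset.2 h1, h2⟩).trans ?_
  refine le_trans (Finset.sum_le_sum fun v hv => ?_) (Finset.sum_le_sum_of_subset_of_nonneg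
    (fun v hv => hγ v (List.mem_toFinset.1 hv))
    fun v _ _ => mul_nonneg (Pr2_nonneg F hw _) (Pr_nonneg hw _))
  rw [fam_mem F w (List.mem_toFinset.1 hv), one_mul]
  exact Pr_conn_mono_F hw v c hF

lemma tree_key {w : Sym2 V → ℝ} (hw : Ok w) (F0 : Finset (Sym2 V)) {Vs : Finset V}
    (hVs : ∀ h v, s(h, v) ∈ F0 → v ∈ Vs) (b c : V) (n : ℕ) :
    ∀ F ⊆ F0, F.card = n → ∀ γ : List V, (∀ x ∈ γ, x ∈ Vs) →
      Pr F w (fun ω => cv ω γ b ∧ cv ω γ c) ≤
        ∑ v ∈ Vs, Pr2 F w (fam γ v b) * Pr F0 w (fun ω => Conn ω v c) +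
          ∑ v ∈ Vs, Pr2 F w (fam γ v c) * Pr F0 w (fun ω => Conn ω v b) := by
  have nn : ∀ (F : Finset (Sym2 V)) (γ : List V) (b c : V),
      0 ≤ ∑ v ∈ Vs, Pr2 F w (fam γ v b) * Pr F0 w (fun ω => Conn ω v c) := fun F γ b c =>
    Finset.sum_nonneg fun v _ => mul_nonneg (Pr2_nonneg F hw _) (Pr_nonneg hw _)
  induction n using Nat.strong_induction_on with
  | _ n ih =>
  intro F hF hn γ
  induction γ with
  | nil =>
    intro _
    refine le_trans (Pr_le_sum hw (∅ : Finset V) (B := fun _ _ => True)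
      fun ω _ ⟨⟨y, h1, _⟩, _⟩ => absurd h1 List.not_mem_nil) ?_
    rw [Finset.sum_empty]
    exact add_nonneg (nn _ _ _ _) (nn _ _ _ _)
  | cons h γ ihγ =>
    intro hγ
    by_cases hb : b = h
    · subst hb
      exact ((Pr_mono hw fun ω _ h => h.2).trans (tree_head hw hF c hγ)).trans
        (le_add_of_nonneg_right (nn _ _ _ _))
    by_cases hc : c = h
    · subst hc
      exact ((Pr_mono hw fun ω _ h => h.1).trans (tree_head hw hF b hγ)).trans
        (le_add_of_nonneg_left (nn _ _ _ _))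
    by_cases he : ∃ v, s(h, v) ∈ F
    · obtain ⟨v, hv⟩ := he
      obtain ⟨F', h1, rfl⟩ : ∃ F', s(h, v) ∉ F' ∧ F = insert s(h, v) F' :=
        ⟨F.erase s(h, v), Finset.notMem_erase _ _, (Finset.insert_erase hv).symm⟩
      rw [Finset.card_insert_of_notMem h1] at hn
      have h2 : F' ⊆ F0 := (Finset.subset_insert _ _).trans hF
      have a1 := ih F'.card (by omega) F' h2 rfl (v :: h :: γ) fun x hx => by
        rcases List.mem_cons.1 hx with rfl | hx
        exacts [hVs h x (hF hv), hγ x hx]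
      have a0 := ih F'.card (by omega) F' h2 rfl (h :: γ) hγ
      have e : Pr (insert s(h, v) F') w (fun ω => cv ω (h :: γ) b ∧ cv ω (h :: γ) c) =
          w s(h, v) * Pr F' w (fun ω => cv ω (v :: h :: γ) b ∧ cv ω (v :: h :: γ) c) +
            (1 - w s(h, v)) * Pr F' w (fun ω => cv ω (h :: γ) b ∧ cv ω (h :: γ) c) := by
        rw [Pr, tree_ins h1]
        simp only [cv_push]
        rfl
      have st : ∀ b c : V,
          w s(h, v) * ∑ x ∈ Vs, Pr2 F' w (fam (v :: h :: γ) x b) * Pr F0 w (fun ω => Conn ω x c) +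
            (1 - w s(h, v)) * ∑ x ∈ Vs, Pr2 F' w (fam (h :: γ) x b) *
              Pr F0 w (fun ω => Conn ω x c) ≤
          ∑ x ∈ Vs, Pr2 (insert s(h, v) F') w (fam (h :: γ) x b) *
            Pr F0 w (fun ω => Conn ω x c) := fun b c => by
        rw [Finset.mul_sum, Finset.mul_sum, ← Finset.sum_add_distrib]
        refine Finset.sum_le_sum fun x _ => ?_
        rw [← mul_assoc, ← mul_assoc, ← add_mul]
        exact mul_le_mul_of_nonneg_right (fam_step h1 hw γ x b) (Pr_nonneg hw _)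
      have b1 := mul_le_mul_of_nonneg_left a1 (hw s(h, v)).1
      have b0 := mul_le_mul_of_nonneg_left a0 (sub_nonneg.2 (hw s(h, v)).2)
      rw [e]
      linarith [st b c, st c b]
    · have he' : ∀ v, s(h, v) ∉ F := fun v hv => he ⟨v, hv⟩
      rw [Pr_congr (B := fun ω => cv ω γ b ∧ cv ω γ c) fun ω hω =>
        and_congr (cv_pop he' hω hb) (cv_pop he' hω hc)]
      refine (ihγ fun x hx => hγ x (List.mem_cons_of_mem _ hx)).trans (add_le_add ?_ ?_) <;>
        exact Finset.sum_le_sum fun x _ =>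
          mul_le_mul_of_nonneg_right (fam_pop F hw h γ _ _) (Pr_nonneg hw _)

/-- tree-graph bound -/
theorem treeg {w : Sym2 V → ℝ} (hw : Ok w) (F : Finset (Sym2 V)) (a b c : V) :
    ENNReal.ofReal (Pr F w (fun ω => Conn ω a b ∧ Conn ω a c)) ≤
      2 * ∑' v, tau w a v * (tau w v b * tau w v c) := by
  have k := tree_key hw F (Vs := insert a (F.biUnion Sym2.toFinset)) (fun h v hv =>
    Finset.mem_insert_of_mem (Finset.mem_biUnion.2 ⟨_, hv, by simp⟩)) b c _ F le_rfl rfl [a]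
    (by simp)
  have e : ∀ (ω : Set (Sym2 V)) (x : V), cv ω [a] x ↔ Conn ω a x := fun ω x => by simp [cv]
  simp only [e, fam_start] at k
  have q : ∀ b c : V, ENNReal.ofReal (∑ v ∈ insert a (F.biUnion Sym2.toFinset),
      Pr F w (fun ω => Conn ω a v) * Pr F w (fun ω => Conn ω v b) *
        Pr F w (fun ω => Conn ω v c)) ≤ ∑' v, tau w a v * (tau w v b * tau w v c) := fun b c => by
    rw [ENNReal.ofReal_sum_of_nonneg fun v _ =>
      mul_nonneg (mul_nonneg (Pr_nonneg hw _) (Pr_nonneg hw _)) (Pr_nonneg hw _)]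
    refine le_trans (Finset.sum_le_sum fun v _ => ?_) (ENNReal.sum_le_tsum _)
    rw [ENNReal.ofReal_mul (mul_nonneg (Pr_nonneg hw _) (Pr_nonneg hw _)),
      ENNReal.ofReal_mul (Pr_nonneg hw _), mul_assoc]
    exact mul_le_mul' (Pr_le_tau w F a v) (mul_le_mul' (Pr_le_tau w F v b) (Pr_le_tau w F v c))
  refine (ENNReal.ofReal_le_ofReal k).trans (ENNReal.ofReal_add_le.trans ?_)
  rw [two_mul]
  refine add_le_add (q b c) ((q c b).trans_eq (tsum_congr fun v => ?_))
  rw [mul_comm (tau w v c)]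

end Vale.Agent.P165
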