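import Vale.Agent.P165.Walk
import Vale.Agent.P165.Tree

open Classical
open scoped ENNReal

namespace Vale.Agent.P165

open Vale.Agent.P151

universe u

variable {V : Type*} {α : Type*} [DecidableEq α]
variable {Γ : SimpleGraph V} {G : Type u} [Group G] [MulAction G V]
variable {φ : G →* FreeGroup α} {π : V → FreeGroup α}


theorem Sj.m2b (hs : Sj Γ φ π) {p : ℝ} (h0 : 0 ≤ p) (h1 : p ≤ 1) (R : Set (FreeGroup α))
    (u : FreeGroup α) {D : ℕ} (w : V) {w' : V} (hw' : dd (π w') u ≤ D) (F : Finset (Sym2 V))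
    (T : Finset G) (hT : ∀ n ∈ T, n ∈ φ.ker) :
    ENNReal.ofReal (∑ a ∈ T, ∑ b ∈ T, Pr F (wU p (inE Γ (π ⁻¹' R)))
      (fun ω => Conn ω w (a • w') ∧ Conn ω w (b • w'))) ≤
      2 * ∑' v, tR Γ π p R w v * (∑' a, ii (dd (π a) u ≤ D) * tR Γ π p R v a) ^ 2 := by
  have hw := wU_ok h0 h1 (inE Γ (π ⁻¹' R))
  have inj : ∀ a ∈ T, ∀ b ∈ T, a • w' = b • w' → a = b := by
    intro a _ b _ h
    have : (b⁻¹ * a) • w' = w' := by rw [mul_smul, h, inv_smul_smul]
    exact (inv_mul_eq_one.1 (hs.geom.free _ _ this)).symm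
  have row : ∀ v, ∑ a ∈ T, tR Γ π p R v (a • w') ≤
      ∑' a, ii (dd (π a) u ≤ D) * tR Γ π p R v a := by
    intro v
    refine le_trans (le_of_eq ?_) (ENNReal.sum_le_tsum (T.image (· • w')))
    rw [Finset.sum_image inj]
    refine Finset.sum_congr rfl fun a ha => ?_
    rw [ii_true, one_mul]
    rw [hs.eqv, MonoidHom.mem_ker.1 (hT a ha), one_mul]
    exact hw'
  rw [ENNReal.ofReal_sum_of_nonneg fun a _ => Finset.sum_nonneg fun b _ => Pr_nonneg hw _]
  have step : ∀ a ∈ T, ENNReal.ofReal (∑ b ∈ T, Pr F (wU p (inE Γ (π ⁻¹' R)))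
      (fun ω => Conn ω w (a • w') ∧ Conn ω w (b • w'))) ≤ ∑ b ∈ T, 2 * ∑' v,
        tR Γ π p R w v * (tR Γ π p R v (a • w') * tR Γ π p R v (b • w')) := by
    intro a _
    rw [ENNReal.ofReal_sum_of_nonneg fun b _ => Pr_nonneg hw _]
    exact Finset.sum_le_sum fun b _ => treeg hw F w _ _
  refine (Finset.sum_le_sum step).trans ?_
  simp only [← Finset.mul_sum]
  refine mul_le_mul_right ?_ 2
  have sw : ∑ a ∈ T, ∑ b ∈ T, ∑' v,
      tR Γ π p R w v * (tR Γ π p R v (a • w') * tR Γ π p R v (b • w')) = ∑' v, ∑ a ∈ T, ∑ b ∈ T,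
      tR Γ π p R w v * (tR Γ π p R v (a • w') * tR Γ π p R v (b • w')) := by
    rw [Summable.tsum_finsetSum fun _ _ => ENNReal.summable]
    refine Finset.sum_congr rfl fun a _ => ?_
    rw [Summable.tsum_finsetSum fun _ _ => ENNReal.summable]
  rw [sw]
  refine ENNReal.tsum_le_tsum fun v => ?_
  simp only [← Finset.mul_sum, ← Finset.sum_mul]
  rw [pow_two]
  exact mul_le_mul_right (mul_le_mul' (row v) (row v)) _

end Vale.Agent.P165
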