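import Vale.Agent.P165.M2a
import Vale.Agent.P165.M2b
import Vale.Agent.P165.DecQ
import Vale.Agent.P165.LowQ

open Classical
open scoped ENNReal

namespace Vale.Agent.P165

open Vale.Agent.P151

universe u

variable {V : Type*} {α : Type*} [DecidableEq α]
variable {Γ : SimpleGraph V} {G : Type u} [Group G] [MulAction G V]
variable {φ : G →* FreeGroup α} {π : V → FreeGroup α}

lemma M2c_pow {y : ℝ} (hy : 0 ≤ y) : ∃ J : ℕ, 0 < J ∧ y ≤ 2 ^ J ∧ (2 : ℝ) ^ J ≤ 2 + 2 * y := by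
  have hex : ∃ J : ℕ, y ≤ 2 ^ (J + 1) := by
    obtain ⟨n, hn⟩ := pow_unbounded_of_one_lt y (show (1 : ℝ) < 2 by norm_num)
    exact ⟨n, hn.le.trans (pow_le_pow_right₀ (by norm_num) (Nat.le_succ n))⟩
  refine ⟨Nat.find hex + 1, Nat.succ_pos _, Nat.find_spec hex, ?_⟩
  rcases Nat.eq_zero_or_pos (Nat.find hex) with h | h
  · rw [h]; norm_num; exact hy
  · have := Nat.find_min hex (m := Nat.find hex - 1) (by omega)
    rw [Nat.sub_add_cancel h, not_le] at this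
    rw [pow_succ]; linarith

/-- polynomial bound for the second moment -/
theorem Sj.m2c [Finite α] [Nontrivial α] (hs : Sj Γ φ π) {p₀ : ℝ} (hp₀ : 0 < p₀) {D₀ : ℕ}
    (hH : HarP Γ π p₀ D₀) : ∃ (C : ℝ) (s : ℕ), ∀ p, p₀ ≤ p → p ≤ 1 → chi Γ p ≠ ⊤ →
      ∀ (q u : FreeGroup α) (w w' : V), dd q u = 1 → π w ∈ half q u → dd (π w) u ≤ D₀ →
        dd (π w') u ≤ D₀ → ∀ (F : Finset (Sym2 V)) (T : Finset G), (∀ n ∈ T, n ∈ φ.ker) →
        ∑ a ∈ T, ∑ b ∈ T, Pr F (wU p (inE Γ (π ⁻¹' half q u)))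
          (fun ω => Conn ω w (a • w') ∧ Conn ω w (b • w'))
          ≤ C * (mm π (tR Γ π p) D₀).toReal ^ s := by
  obtain ⟨c₀, hc₀⟩ := hs.m2a
  obtain ⟨L, Δ, C, hL, hC, hker⟩ := hs.ker2 hp₀ hH (D₀ + 1)
  obtain ⟨A, hA1, hA, hlow⟩ := hs.low_q hp₀ hH (L + 1)
  set A' := A.toReal with hA'
  set C' := (C (L + 1)).toReal with hC'
  have eA : A = ENNReal.ofReal A' := (ENNReal.ofReal_toReal hA).symm
  have eC : C (L + 1) = ENNReal.ofReal C' := (ENNReal.ofReal_toReal (hC _)).symm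
  have hA0 : 0 ≤ A' := ENNReal.toReal_nonneg
  have hC0 : 0 ≤ C' := ENNReal.toReal_nonneg
  obtain ⟨a, ha⟩ := pow_unbounded_of_one_lt A' (show (1 : ℝ) < 2 by norm_num)
  set K₁ : ℝ := A' * (2 + 8 * Δ * C') ^ a with hK₁
  have hK0 : 0 ≤ K₁ := by positivity
  refine ⟨256 * c₀ * K₁ ^ 3 * (8 * Δ * K₁ + L + 3), 4 * (a + 1),
    fun p h0 h1 hχ q u w w' hq hw0 hw hw' F T hT => ?_⟩
  have hp : 0 ≤ p := hp₀.le.trans h0
  have hfin : mm π (tR Γ π p) D₀ ≠ ⊤ := ne_top_of_le_ne_top hχ (mm_le_chi π Γ hp h1 D₀)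
  set m := (mm π (tR Γ π p) D₀).toReal with hm
  have em : mm π (tR Γ π p) D₀ = ENNReal.ofReal m := (ENNReal.ofReal_toReal hfin).symm
  have hm1 : 1 ≤ m := by
    have := ENNReal.toReal_mono hfin (one_le_mm w π Γ p D₀)
    simpa using this
  have hm0 : 0 ≤ m := by linarith
  obtain ⟨J, hJ0, hJ1, hJ2⟩ := M2c_pow (y := 4 * (Δ * (C' * m))) (by positivity)
  set k : ℝ := A' ^ (J + 1) * m with hk
  have hk0 : 0 ≤ k := by positivity
  have ek : A ^ (J + 1) * mm π (tR Γ π p) D₀ = ENNReal.ofReal k := by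
    rw [hk, ENNReal.ofReal_mul (by positivity), ENNReal.ofReal_pow hA0, ← eA, ← em]
  have hkK : k ≤ K₁ * m ^ (a + 1) := by
    have e1 : A' ^ J ≤ ((2 : ℝ) ^ J) ^ a := by
      rw [← pow_mul, mul_comm, pow_mul]
      exact pow_le_pow_left₀ hA0 ha.le J
    have e2 : (2 : ℝ) ^ J ≤ (2 + 8 * Δ * C') * m := by nlinarith
    have e3 : ((2 : ℝ) ^ J) ^ a ≤ ((2 + 8 * Δ * C') * m) ^ a :=
      pow_le_pow_left₀ (by positivity) e2 a
    calc k = A' * m * A' ^ J := by rw [hk]; ring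
      _ ≤ A' * m * ((2 + 8 * Δ * C') * m) ^ a :=
          mul_le_mul_of_nonneg_left (e1.trans e3) (by positivity)
      _ = _ := by rw [hK₁, mul_pow]; ring
  clear_value k
  set P : ℕ := ⌈8 * Δ * k⌉₊ + L + 2 with hP
  have hP1 : 2 * (Δ : ℝ≥0∞) * (4 * ENNReal.ofReal k) + L + 2 ≤ P := by
    rw [hP]
    push_cast
    gcongr
    have e : 2 * (Δ : ℝ≥0∞) * (4 * ENNReal.ofReal k) = ENNReal.ofReal (8 * Δ * k) := by
      rw [ENNReal.ofReal_mul (by positivity), ENNReal.ofReal_mul (by positivity),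
        ENNReal.ofReal_natCast, ENNReal.ofReal_ofNat]
      ring
    rw [e, ← ENNReal.ofReal_natCast]
    exact ENNReal.ofReal_le_ofReal (Nat.le_ceil _)
  have hP2 : (P : ℝ) ≤ (8 * Δ * K₁ + L + 3) * m ^ (a + 1) := by
    have e1 := (Nat.ceil_lt_add_one (show 0 ≤ 8 * Δ * k by positivity)).le
    have e2 : 1 ≤ m ^ (a + 1) := one_le_pow₀ hm1
    have e3 : 8 * Δ * k ≤ 8 * Δ * (K₁ * m ^ (a + 1)) :=
      mul_le_mul_of_nonneg_left hkK (by positivity)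
    have e4 : (L : ℝ) + 3 ≤ (L + 3) * m ^ (a + 1) := le_mul_of_one_le_right (by positivity) e2
    rw [hP]
    push_cast
    nlinarith
  have hd := dec_q (hker p h0 h1 hχ) (ENNReal.mul_ne_top (hC _) hfin) hJ0 (by
      rw [eC, em]
      have e : 4 * ((Δ : ℝ≥0∞) * (ENNReal.ofReal C' * ENNReal.ofReal m)) =
          ENNReal.ofReal (4 * (Δ * (C' * m))) := by
        rw [ENNReal.ofReal_mul (by positivity), ENNReal.ofReal_mul (by positivity),
          ENNReal.ofReal_mul hC0, ENNReal.ofReal_natCast, ENNReal.ofReal_ofNat]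
      have e' : (2 : ℝ≥0∞) ^ J = ENNReal.ofReal (2 ^ J) := by
        rw [ENNReal.ofReal_pow (by norm_num), ENNReal.ofReal_ofNat]
      rw [e, e']
      exact ENNReal.ofReal_le_ofReal hJ1)
    (k := ENNReal.ofReal k) (ek ▸ hlow p h0 h1 J) hP1
  have h2 := hc₀ p L D₀ P (4 * ENNReal.ofReal k) hp h1 (by omega) hL hd.1 hd.2 q u w hq hw0 hw
  have h3 := (hs.m2b hp h1 (half q u) u w hw' F T hT).trans (mul_le_mul_right h2 2)
  have e : 2 * ((c₀ : ℝ≥0∞) * (4 * ENNReal.ofReal k) ^ 3 * (2 * P)) =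
      ENNReal.ofReal (256 * c₀ * k ^ 3 * P) := by
    rw [ENNReal.ofReal_mul (by positivity), ENNReal.ofReal_mul (by positivity),
      ENNReal.ofReal_mul (by positivity), ENNReal.ofReal_pow hk0, ENNReal.ofReal_natCast,
      ENNReal.ofReal_natCast, ENNReal.ofReal_ofNat]
    ring
  rw [e, ENNReal.ofReal_le_ofReal_iff (by positivity)] at h3
  refine h3.trans ?_
  calc 256 * c₀ * k ^ 3 * P ≤ 256 * c₀ * (K₁ * m ^ (a + 1)) ^ 3 *
        ((8 * Δ * K₁ + L + 3) * m ^ (a + 1)) := by gcongr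
    _ = _ := by ring

end Vale.Agent.P165
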