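import Vale.Agent.P165.Def3

open Classical
open scoped ENNReal

namespace Vale.Agent.P165

open Vale.Agent.P151

universe u

variable {V : Type*} {α : Type*} [DecidableEq α]

lemma num_lin (A B l : ℕ) (hl : 2 * (A + 2 * B) ≤ l) : A + B * l ≤ 2 ^ l := by
  have h1 : l / 2 + 1 ≤ 2 ^ (l / 2) := Nat.lt_two_pow_self
  have h2 : 2 ^ (l / 2) * 2 ^ (l / 2) ≤ 2 ^ l := by
    rw [← pow_add]; exact Nat.pow_le_pow_right (by norm_num) (by omega)
  have h3 : A + 2 * B ≤ l / 2 + 1 := by omega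
  have h4 : l ≤ 2 * (l / 2 + 1) := by omega
  set j := l / 2 + 1
  have hj : 1 ≤ j := by omega
  calc A + B * l ≤ A * j + B * (2 * j) :=
        Nat.add_le_add (Nat.le_mul_of_pos_right _ hj) (Nat.mul_le_mul_left _ h4)
    _ = (A + 2 * B) * j := by ring
    _ ≤ j * j := Nat.mul_le_mul_right _ h3
    _ ≤ _ := (Nat.mul_le_mul h1 h1).trans h2

lemma num_choice {δ : ℝ} (h0 : 0 < δ) (h1 : δ ≤ 1) (C : ℝ) (n s : ℕ) :
    ∃ B : ℝ, ∀ m : ℝ, B ≤ m → ∃ J k : ℕ, 1 ≤ J ∧ C * m ^ s ≤ 2 ^ J ∧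
      C * ((n * (k + 1) : ℕ) : ℝ) ^ 2 ≤ δ ^ (n * (k + 1)) * m ∧ C * (J : ℝ) ^ 3 < 2 ^ k := by
  obtain ⟨a, ha⟩ := pow_unbounded_of_one_lt C (one_lt_two (α := ℝ))
  obtain ⟨d, hd⟩ := pow_unbounded_of_one_lt δ⁻¹ (one_lt_two (α := ℝ))
  set D := a + s + 1 with hD
  set e := a + 3 * D with he
  set A := a + (2 + d) * n * (e + 4) + 1 with hA
  set B := (2 + d) * n * 3 with hB
  set L := 2 * (A + 2 * B) with hL
  refine ⟨2 ^ (2 ^ L), fun m hm => ?_⟩
  have hm1 : (1 : ℝ) ≤ m := le_trans (one_le_pow₀ one_le_two) hm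
  obtain ⟨t, ht1, ht2⟩ := exists_nat_pow_near hm1 (one_lt_two (α := ℝ))
  have htL : 2 ^ L < t + 1 := (pow_lt_pow_iff_right₀ (one_lt_two (α := ℝ))).1 (hm.trans_lt ht2)
  set l := Nat.log 2 (t + 1) with hl
  have l1 : 2 ^ l ≤ t + 1 := Nat.pow_log_le_self 2 (by omega)
  have l2 : t + 1 < 2 ^ (l + 1) := Nat.lt_pow_succ_log_self (by norm_num) _
  have l3 : L ≤ l := Nat.le_log_of_pow_le (by norm_num) htL.le
  have l4 := num_lin A B l l3
  refine ⟨a + s * (t + 1) + 1, e + 3 * (l + 1), by omega, ?_, ?_, ?_⟩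
  · have : m ^ s ≤ 2 ^ (s * (t + 1)) := by
      rw [mul_comm, pow_mul]; exact pow_le_pow_left₀ (by linarith) ht2.le _
    calc C * m ^ s ≤ 2 ^ a * 2 ^ (s * (t + 1)) :=
          mul_le_mul ha.le this (by positivity) (by positivity)
      _ ≤ _ := by
          rw [← pow_add]; exact pow_le_pow_right₀ one_le_two (by omega)
  · set N := n * (e + 3 * (l + 1) + 1) with hN
    have hNt : a + 2 * N + d * N ≤ t := by
      have : a + 2 * N + d * N + 1 = A + B * l := by rw [hN, hA, hB]; ring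
      omega
    have hN1 : (N : ℝ) ≤ 2 ^ N := by exact_mod_cast (Nat.lt_two_pow_self (n := N)).le
    have hN2 : (N : ℝ) ^ 2 ≤ 2 ^ (2 * N) := by
      rw [mul_comm, pow_mul]; exact pow_le_pow_left₀ (by positivity) hN1 _
    have hδ : 1 ≤ δ ^ N * 2 ^ (d * N) := by
      rw [pow_mul 2 d N, ← mul_pow]
      refine one_le_pow₀ ?_
      have := mul_le_mul_of_nonneg_left hd.le h0.le
      rwa [mul_inv_cancel₀ h0.ne'] at this
    calc C * (N : ℝ) ^ 2 ≤ 2 ^ a * 2 ^ (2 * N) :=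
          mul_le_mul ha.le hN2 (by positivity) (by positivity)
      _ ≤ (δ ^ N * 2 ^ (d * N)) * (2 ^ a * 2 ^ (2 * N)) :=
          le_mul_of_one_le_left (by positivity) hδ
      _ = δ ^ N * 2 ^ (a + 2 * N + d * N) := by rw [pow_add, pow_add]; ring
      _ ≤ δ ^ N * m := mul_le_mul_of_nonneg_left
          ((pow_le_pow_right₀ one_le_two hNt).trans ht1) (by positivity)
  · have hJ : a + s * (t + 1) + 1 ≤ 2 ^ D * 2 ^ (l + 1) := by
      have h2 : D ≤ 2 ^ D := Nat.lt_two_pow_self.le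
      calc a + s * (t + 1) + 1 ≤ D * (t + 1) := by rw [hD]; nlinarith [Nat.zero_le (a * t)]
        _ ≤ _ := Nat.mul_le_mul h2 l2.le
    have hJ' : ((a + s * (t + 1) + 1 : ℕ) : ℝ) ≤ 2 ^ D * 2 ^ (l + 1) := by exact_mod_cast hJ
    have hp : (0 : ℝ) < ((a + s * (t + 1) + 1 : ℕ) : ℝ) := by positivity
    calc C * ((a + s * (t + 1) + 1 : ℕ) : ℝ) ^ 3
        < 2 ^ a * ((a + s * (t + 1) + 1 : ℕ) : ℝ) ^ 3 :=
          mul_lt_mul_of_pos_right ha (by positivity)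
      _ ≤ 2 ^ a * (2 ^ D * 2 ^ (l + 1)) ^ 3 :=
          mul_le_mul_of_nonneg_left (pow_le_pow_left₀ hp.le hJ' _) (by positivity)
      _ = _ := by rw [he]; ring

end Vale.Agent.P165
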