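import Vale.Agent.P165.KeyA
import Vale.Agent.P165.Num
import Vale.Agent.P165.Cfg
import Vale.Agent.P165.M2c

open Classical
open scoped ENNReal

namespace Vale.Agent.P165

open Vale.Agent.P151

universe u

variable {V : Type*} {α : Type*} [DecidableEq α]
variable {Γ : SimpleGraph V} {G : Type u} [Group G] [MulAction G V]
variable {φ : G →* FreeGroup α} {π : V → FreeGroup α}

lemma Key_one [Finite α] [Nontrivial α] (hs : Sj Γ φ π) {p₀ : ℝ} (hp₀ : 0 < p₀) (hp₁ : p₀ ≤ 1)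
    {D₀ : ℕ} (hH : HarP Γ π p₀ D₀) (c₁ : ℕ) {q u : FreeGroup α} {w w' : V} (hq : dd q u = 1)
    (hw0 : π w ∈ half q u) (hw : dd (π w) u ≤ D₀) (hw' : dd (π w') u ≤ D₀) :
    ∃ B : ℝ, ∀ p, p₀ ≤ p → p ≤ 1 → chi Γ p ≠ ⊤ →
      mm π (tR Γ π p) D₀ ≤ c₁ * ∑' n : φ.ker, tR Γ π p (half q u) w ((n : G) • w') →
      (mm π (tR Γ π p) D₀).toReal ≤ B := by
  obtain ⟨C, s, hC⟩ := hs.m2c hp₀ hH
  obtain ⟨n, b, hcf⟩ := hs.cfg hq w w'
  have hc0 : (0 : ℝ) ≤ c₁ := Nat.cast_nonneg _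
  have t1 : 0 ≤ 4 * |C| * c₁ / p₀ ^ b := by positivity
  have t2 : (0 : ℝ) ≤ 2 * c₁ := by positivity
  have t3 : 0 ≤ 512 * (2 + 288 * (c₁ : ℝ)) / p₀ ^ (5 * b) := by positivity
  obtain ⟨B, hB⟩ := num_choice hp₀ hp₁
    (4 * |C| * c₁ / p₀ ^ b + 2 * c₁ + 512 * (2 + 288 * (c₁ : ℝ)) / p₀ ^ (5 * b)) n s
  refine ⟨B, fun p h0 h1 hχ hle => ?_⟩
  by_contra hlt
  have hp : 0 ≤ p := hp₀.le.trans h0
  have hfin : mm π (tR Γ π p) D₀ ≠ ⊤ := ne_top_of_le_ne_top hχ (mm_le_chi π Γ hp h1 D₀)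
  set m := (mm π (tR Γ π p) D₀).toReal with hm
  have hmm : mm π (tR Γ π p) D₀ = ENNReal.ofReal m := (ENNReal.ofReal_toReal hfin).symm
  have hm1 : 1 ≤ m := by
    have := ENNReal.toReal_mono hfin (one_le_mm w π Γ p D₀)
    simpa using this
  have hS := hs.orb_le_mm p hq hw hw'
  have hSf : ∑' n : φ.ker, tR Γ π p (half q u) w ((n : G) • w') ≠ ⊤ := ne_top_of_le_ne_top hfin hS
  set W := (∑' n : φ.ker, tR Γ π p (half q u) w ((n : G) • w')).toReal with hWd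
  have hWW : ∑' n : φ.ker, tR Γ π p (half q u) w ((n : G) • w') = ENNReal.ofReal W :=
    (ENNReal.ofReal_toReal hSf).symm
  have hmW : m ≤ c₁ * W := by
    have := ENNReal.toReal_mono (ENNReal.mul_ne_top (by simp) hSf) hle
    simpa [ENNReal.toReal_mul] using this
  have hW0' : 0 ≤ W := ENNReal.toReal_nonneg
  have hc1 : (0 : ℝ) < c₁ := by
    rcases hc0.eq_or_lt with h | h
    · rw [← h] at hmW; linarith
    · exact h
  have hW0 : 0 < W := by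
    rcases hW0'.eq_or_lt with h | h
    · rw [← h] at hmW; linarith
    · exact h
  obtain ⟨J, k, hJ0, k1, k2, k3⟩ := hB m (le_of_not_ge hlt)
  obtain ⟨c, hc, e1, e2, e3, e4, hI, hb, hP⟩ := hcf k
  have hpb : 0 < p₀ ^ b := by positivity
  have hms : 0 ≤ m ^ s := by positivity
  have key := key_abs hs.geom c hc hp₀ h0 h1 hχ (W := W) (μ := m) (m₂ := |C| * m ^ s) (c₁ := c₁)
    hW0 (by linarith) (by rw [e1, e2, e3, e4]; exact hWW)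
    (by rw [e1, e2, e3, ← hmm]; exact hs.orb_le_mm p hq hw hw)
    (by rw [e1, e2, e4, ← hmm]; exact hs.orb_le_mm p hq hw' hw')
    (by
      rw [e1, e2, e3, e4]
      intro F T hT
      exact (hC p h0 h1 hχ q u w w' hq hw0 hw hw' F T hT).trans
        (mul_le_mul_of_nonneg_right (le_abs_self C) hms))
    (a := n * (k + 1)) (b := b) (J := J) hb hP hJ0 ?_ hmW ?_
  · have h2 : ((2 : ℝ)) ^ k ≤ c.I.card := by exact_mod_cast hI
    have h3 : (0 : ℝ) ≤ (J : ℝ) ^ 3 := by positivity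
    nlinarith [mul_nonneg t1 h3, mul_nonneg t2 h3]
  · have h2 : 4 * |C| * c₁ / p₀ ^ b * m ^ s ≤ 2 ^ J := by
      nlinarith [mul_nonneg t2 hms, mul_nonneg t3 hms]
    have h3 : 4 * |C| * c₁ * m ^ s ≤ p₀ ^ b * 2 ^ J := by
      rw [div_mul_eq_mul_div, div_le_iff₀ hpb] at h2
      linarith
    have h4 : 1 ≤ c₁ * W := hm1.trans hmW
    have h5 : 0 ≤ 4 * (|C| * m ^ s) := by positivity
    calc 4 * (|C| * m ^ s) ≤ 4 * (|C| * m ^ s) * (c₁ * W) := le_mul_of_one_le_right h5 h4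
      _ = (4 * |C| * c₁ * m ^ s) * W := by ring
      _ ≤ (p₀ ^ b * 2 ^ J) * W := mul_le_mul_of_nonneg_right h3 hW0'
      _ = _ := by ring
  · have h3 : (0 : ℝ) ≤ ((n * (k + 1) : ℕ) : ℝ) ^ 2 := by positivity
    have h2 : 2 * c₁ * ((n * (k + 1) : ℕ) : ℝ) ^ 2 ≤ p₀ ^ (n * (k + 1)) * m := by
      nlinarith [mul_nonneg t1 h3, mul_nonneg t3 h3]
    have h4 : p₀ ^ (n * (k + 1)) * m ≤ p₀ ^ (n * (k + 1)) * (c₁ * W) :=
      mul_le_mul_of_nonneg_left hmW (by positivity)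
    have h5 : c₁ * (2 * ((n * (k + 1) : ℕ) : ℝ) ^ 2) ≤ c₁ * (p₀ ^ (n * (k + 1)) * W) := by
      linarith
    exact le_of_mul_le_mul_left h5 hc1

theorem Sj.key [Finite α] [Nontrivial α] (hs : Sj Γ φ π) {p₀ : ℝ} (hp₀ : 0 < p₀) {D₀ : ℕ}
    (hH : HarP Γ π p₀ D₀) : ∃ B : ℝ≥0∞, B ≠ ⊤ ∧ ∀ p, p₀ ≤ p → p ≤ 1 → chi Γ p ≠ ⊤ →
      mm π (tR Γ π p) D₀ ≤ B := by
  by_cases hp₁ : p₀ ≤ 1
  swap
  · exact ⟨0, by simp, fun p h0 h1 _ => absurd (h0.trans h1) hp₁⟩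
  obtain ⟨c₁, Cs, hCs, hbest⟩ := hs.best D₀
  have hall : ∀ c : FreeGroup α × V × V, ∃ B : ℝ, c ∈ Cs → ∀ p, p₀ ≤ p → p ≤ 1 → chi Γ p ≠ ⊤ →
      mm π (tR Γ π p) D₀ ≤ c₁ * ∑' n : φ.ker, tR Γ π p (half c.1 1) c.2.1 ((n : G) • c.2.2) →
      (mm π (tR Γ π p) D₀).toReal ≤ B := by
    intro c
    by_cases hc : c ∈ Cs
    · obtain ⟨a1, a2, a3, a4⟩ := hCs c hc
      obtain ⟨B, hB⟩ := Key_one hs hp₀ hp₁ hH c₁ a1 a2 a3 a4
      exact ⟨B, fun _ => hB⟩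
    · exact ⟨0, fun h => absurd h hc⟩
  choose B hB using hall
  refine ⟨c₁ + ∑ c ∈ Cs, ENNReal.ofReal (B c), ?_, fun p h0 h1 hχ => ?_⟩
  · exact ENNReal.add_ne_top.2 ⟨by simp, ENNReal.sum_ne_top.2 fun _ _ => ENNReal.ofReal_ne_top⟩
  · have hp : 0 ≤ p := hp₀.le.trans h0
    rcases hbest p hp h1 with h | ⟨c, hc, h⟩
    · exact h.trans le_self_add
    · have hfin : mm π (tR Γ π p) D₀ ≠ ⊤ := ne_top_of_le_ne_top hχ (mm_le_chi π Γ hp h1 D₀)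
      have h2 := ENNReal.ofReal_le_ofReal (hB c hc p h0 h1 hχ h)
      rw [ENNReal.ofReal_toReal hfin] at h2
      exact h2.trans ((Finset.single_le_sum (f := fun c => ENNReal.ofReal (B c))
        (fun _ _ => zero_le) hc).trans le_add_self)

end Vale.Agent.P165
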