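import Vale.Agent.P165.Pair

open Classical
open scoped ENNReal

namespace Vale.Agent.P165

open Vale.Agent.P151

universe u

variable {V : Type*} {α : Type*} [DecidableEq α]
variable {Γ : SimpleGraph V} {G : Type u} [Group G] [MulAction G V]

lemma pz_cs {E : Type*} {F : Finset E} {w : E → ℝ} (hw : Ok w) (Z : Set E → ℝ)
    (B : Set E → Prop) (h : ∀ ω, ¬ B ω → Z ω = 0) :
    Ex F w Z ^ 2 ≤ Pr F w B * Ex F w (fun ω => Z ω ^ 2) := by
  unfold Pr Ex
  refine Finset.sum_sq_le_sum_mul_sum_of_sq_le_mul _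
    (fun S _ => mul_nonneg (wt_nonneg hw S) (ind_nonneg _))
    (fun S _ => mul_nonneg (wt_nonneg hw S) (sq_nonneg _)) (fun S _ => le_of_eq ?_)
  beta_reduce
  by_cases hB : B S
  · rw [ind_true hB]; ring
  · rw [h _ hB]; ring

lemma pz_open {p : ℝ} {F P : Finset (Sym2 V)} (hP : P ⊆ F)
    (hE : (P : Set (Sym2 V)) ⊆ Γ.edgeSet) :
    Pr F (wU p Γ.edgeSet) (fun ω => (P : Set (Sym2 V)) ⊆ ω) = p ^ P.card := by
  rw [Pr_open hP, ← Finset.prod_const]
  exact Finset.prod_congr rfl fun e he => if_pos (hE he)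

lemma pz_indep {p : ℝ} {F P : Finset (Sym2 V)} (hP : P ⊆ F)
    (hE : (P : Set (Sym2 V)) ⊆ Γ.edgeSet) {U : Set (Sym2 V)}
    (hd : Disjoint (P : Set (Sym2 V)) U) {B : Set (Sym2 V) → Prop}
    (hB : ∀ ω η, ω ∩ U = η ∩ U → B ω → B η) :
    Pr F (wU p Γ.edgeSet) (fun ω => B ω ∧ (P : Set (Sym2 V)) ⊆ ω) =
      Pr F (wU p Γ.edgeSet) B * p ^ P.card := by
  rw [← pz_open (p := p) hP hE]
  unfold Pr
  simp only [ind_and]
  refine Ex_indep F _ U (f := fun ω => ind (B ω))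
    (g := fun ω => ind ((P : Set (Sym2 V)) ⊆ ω)) (fun ω η => ind_congr ?_)
    (fun ω η => ind_congr ?_)
  · have : mix U ω η ∩ U = ω ∩ U := by
      ext e
      simp only [Set.mem_inter_iff, mem_mix]
      tauto
    exact ⟨hB _ _ this, hB _ _ this.symm⟩
  · refine ⟨fun h e he => ?_, fun h e he => ?_⟩
    · rcases h he with h' | h'
      · exact absurd h'.2 (Set.disjoint_left.1 hd he)
      · exact h'.1
    · exact Or.inr ⟨h he, Set.disjoint_left.1 hd he⟩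

lemma pz_gd_mono (c : Cf V G) (p : ℝ) (M : ℕ) (E : ℝ) (g : G) {ω η : Set (Sym2 V)} (h : ω ⊆ η)
    (hω : c.Gd Γ p M E g ω) : c.Gd Γ p M E g η := by
  obtain ⟨S, h1, h2⟩ := hω
  exact ⟨S, h1, fun n hn => ⟨(h2 n hn).1.mono (Set.inter_subset_inter_left _ h),
    (h2 n hn).2.trans h⟩⟩

lemma pz_gd_tr (hG : Geom Γ G) (c : Cf V G) (p : ℝ) (M : ℕ) (E : ℝ) (g : G) {ω : Set (Sym2 V)}
    (hω : c.Gd Γ p M E 1 ω) : c.Gd Γ p M E g (Sym2.map (g • ·) '' ω) := by
  obtain ⟨S, h1, h2⟩ := hω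
  refine ⟨S, h1, fun n hn => ?_⟩
  obtain ⟨a1, a2⟩ := h2 n hn
  rw [sh_one, one_smul, one_mul] at a1
  rw [one_mul, tr_eq_image] at a2
  refine ⟨?_, ?_⟩
  · rw [mul_smul]
    exact (conn_tr hG g ω c.A _ _).2 a1
  · rw [tr_mul]
    exact Set.image_mono a2

lemma pz_big (c : Cf V G) {p : ℝ} {M : ℕ} {E : ℝ} {g : G} {ω : Set (Sym2 V)}
    (hω : c.Gd Γ p M E g ω) : c.Big Γ M g ω := by
  obtain ⟨S, h1, h2⟩ := hω
  exact ⟨S, h1.1, h1.2.1, fun n hn => (h2 n hn).1⟩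

lemma pz_big_dep (c : Cf V G) (hc : c.Fine Γ) {M : ℕ} {n : G} (hn : n ∈ c.N) (f : G)
    {ω η : Set (Sym2 V)} (h : ω ∩ inE Γ (sh f c.A) = η ∩ inE Γ (sh f c.A))
    (hω : c.Big Γ M (n * f) ω) : c.Big Γ M (n * f) η := by
  unfold Cf.Big at hω ⊢
  rw [sh_inv hc.nor hc.invA hn f] at hω ⊢
  rwa [← h]

lemma pz_edge (hG : Geom Γ G) (n : G) {P : Finset (Sym2 V)} {B : Set V}
    (h : (P : Set (Sym2 V)) ⊆ inE Γ B) :
    ((P.image (Sym2.map (n • ·)) : Finset (Sym2 V)) : Set (Sym2 V)) ⊆ Γ.edgeSet := by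
  rw [← tr_eq_image]
  exact fun e he => ((tr_sub hG n).2 h he).1

theorem pz (hG : Geom Γ G) (c : Cf V G) (hc : c.Fine Γ) {p : ℝ} (h0 : 0 ≤ p) (h1 : p ≤ 1)
    {W θ E E' : ℝ} (hW0 : 0 ≤ W) (hθ : 0 ≤ θ)
    (hW : ∑' n : c.N, tau (wU p (inE Γ c.A)) c.w ((n : G) • c.w') ≤ ENNReal.ofReal W)
    {M : ℕ} (hM : 1 ≤ M)
    (hF : ∃ F : Finset (Sym2 V), θ ≤ Pr F (wU p Γ.edgeSet) (c.Gd Γ p M E 1))
    {f : G} (hf : f ∈ c.I) {S : Finset G} (hS : ∀ n ∈ S, n ∈ c.N) (hcard : S.card = M)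
    (hE : c.en Γ p f S ≤ E') :
    ∃ F : Finset (Sym2 V),
      (M * p ^ (c.Pa f).card * p ^ (c.Q2.card + (c.Pb f).card) * θ) ^ 2 ≤
        Pr F (wU p Γ.edgeSet) (c.Suc Γ p M E f S) *
          (2 * ((c.Pa f).card : ℝ) ^ 2 * p ^ (c.Pa f).card * W + (p ^ (c.Pa f).card) ^ 2 * W ^ 2 +
            3 * (p ^ (c.Pa f).card) ^ 2 * (W / M) * E') := by
  obtain ⟨F0, hF0⟩ := hF
  have hw := wU_ok h0 h1 Γ.edgeSet
  set im : G → Finset (Sym2 V) → Finset (Sym2 V) := fun g P => P.image (Sym2.map (g • ·)) with him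
  set PP : G → Finset (Sym2 V) := fun n => im n c.Q2 ∪ im n (c.Pa f) ∪ im n (c.Pb f) with hPP
  set F : Finset (Sym2 V) := S.biUnion fun n => im (n * f) F0 ∪ PP n with hFd
  set A : G → Set (Sym2 V) → Prop := fun n ω =>
    tr n c.Q2 ⊆ ω ∧ tr n (c.Pa f) ⊆ ω ∧ tr n (c.Pb f) ⊆ ω ∧ c.Gd Γ p M E (n * f) ω with hA
  have hsub : ∀ n ∈ S, im (n * f) F0 ∪ PP n ⊆ F := fun n hn =>
    Finset.subset_biUnion_of_mem (fun n => im (n * f) F0 ∪ PP n) hn
  have hPa : ∀ n ∈ S, im n (c.Pa f) ⊆ F := fun n hn =>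
    (Finset.subset_union_right.trans Finset.subset_union_left).trans
      (Finset.subset_union_right.trans (hsub n hn))
  have hPaE : ∀ n, (im n (c.Pa f) : Set (Sym2 V)) ⊆ Γ.edgeSet := fun n =>
    pz_edge hG n (hc.pa f hf)
  have hPaD : ∀ n ∈ S, Disjoint (im n (c.Pa f) : Set (Sym2 V)) (inE Γ (sh f c.A)) := by
    intro n hn
    have := (tr_disj hG n).2 (hc.paA f hf)
    rwa [← sh_mul, sh_inv hc.nor hc.invA (hS n hn), tr_eq_image] at this
  set q := p ^ (c.Pa f).card with hq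
  have hq0 : 0 ≤ q := pow_nonneg h0 _
  have hM0 : (0 : ℝ) < M := by exact_mod_cast hM
  have hWM : 0 ≤ W / M := div_nonneg hW0 hM0.le
  have one : ∀ n ∈ S, q * p ^ (c.Q2.card + (c.Pb f).card) * θ ≤ Pr F (wU p Γ.edgeSet) (A n) := by
    intro n hn
    have mono1 : Monotone fun ω => ind (c.Gd Γ p M E (n * f) ω) := fun _ _ h =>
      ind_mono (pz_gd_mono c p M E _ h)
    have mono2 : Monotone fun ω : Set (Sym2 V) => ind ((PP n : Set (Sym2 V)) ⊆ ω) := fun _ _ h =>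
      ind_mono fun h' => h'.trans h
    have a1 : θ ≤ Pr F (wU p Γ.edgeSet) (c.Gd Γ p M E (n * f)) := by
      refine hF0.trans (le_trans ?_
        (Ex_mono_F hw (Finset.subset_union_left.trans (hsub n hn)) mono1))
      refine le_trans (Pr_mono hw fun ω _ h => pz_gd_tr hG c p M E (n * f) h) (le_of_eq ?_)
      exact (Pr_tr hG p (n * f) F0 _).symm
    have a2 : q * p ^ (c.Q2.card + (c.Pb f).card) ≤
        Pr F (wU p Γ.edgeSet) (fun ω => (PP n : Set (Sym2 V)) ⊆ ω) := by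
      rw [pz_open (Finset.subset_union_right.trans (hsub n hn)), hq, ← pow_add]
      · refine pow_le_pow_of_le_one h0 h1 ?_
        have b1 := Finset.card_union_le (im n c.Q2 ∪ im n (c.Pa f)) (im n (c.Pb f))
        have b2 := Finset.card_union_le (im n c.Q2) (im n (c.Pa f))
        have b3 : (im n c.Q2).card = c.Q2.card := tr_card n _
        have b4 : (im n (c.Pa f)).card = (c.Pa f).card := tr_card n _
        have b5 : (im n (c.Pb f)).card = (c.Pb f).card := tr_card n _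
        show (im n c.Q2 ∪ im n (c.Pa f) ∪ im n (c.Pb f)).card ≤ _
        omega
      · simp only [hPP, Finset.coe_union]
        exact Set.union_subset (Set.union_subset (pz_edge hG n hc.q2) (hPaE n))
          (pz_edge hG n (hc.pb f hf))
    refine (mul_le_mul a2 a1 hθ (Pr_nonneg hw _)).trans ((harris F hw mono2 mono1).trans ?_)
    refine Ex_mono hw fun ω _ => ?_
    rw [← ind_and]
    refine ind_mono fun h => ?_
    obtain ⟨b1, b2⟩ := h
    simp only [hPP, Finset.coe_union, Set.union_subset_iff] at b1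
    simp only [hA, tr_eq_image]
    exact ⟨b1.1.1, b1.1.2, b1.2, b2⟩
  have two : ∀ n ∈ S, ∀ n' ∈ S, Pr F (wU p Γ.edgeSet) (fun ω => A n ω ∧ A n' ω) ≤
      (if ¬ Disjoint (tr n (c.Pa f)) (tr n' (c.Pa f)) then q * (W / M) else 0) +
        q ^ 2 * ((W / M) ^ 2 + 3 * (W / M) *
          sq Γ p c.A ((f⁻¹ * n * f) • c.w) ((f⁻¹ * n' * f) • c.w)) := by
    intro n hn n' hn'
    have hsq : 0 ≤ sq Γ p c.A ((f⁻¹ * n * f) • c.w) ((f⁻¹ * n' * f) • c.w) := Real.sqrt_nonneg _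
    by_cases h : Disjoint (tr n (c.Pa f)) (tr n' (c.Pa f))
    · rw [if_neg (not_not.2 h), zero_add]
      have b0 : Disjoint (im n (c.Pa f)) (im n' (c.Pa f)) := by
        rw [tr_eq_image, tr_eq_image] at h
        exact Finset.disjoint_coe.1 h
      have b1 := pz_indep (p := p) (F := F) (P := im n (c.Pa f) ∪ im n' (c.Pa f))
        (Finset.union_subset (hPa n hn) (hPa n' hn'))
        (by rw [Finset.coe_union]; exact Set.union_subset (hPaE n) (hPaE n'))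
        (U := inE Γ (sh f c.A))
        (by rw [Finset.coe_union]; exact Set.disjoint_union_left.2 ⟨hPaD n hn, hPaD n' hn'⟩)
        (B := fun ω => c.Big Γ M (n * f) ω ∧ c.Big Γ M (n' * f) ω)
        (fun ω η e hb => ⟨pz_big_dep c hc (hS n hn) f e hb.1, pz_big_dep c hc (hS n' hn') f e hb.2⟩)
      have b4 : (im n (c.Pa f)).card = (c.Pa f).card := tr_card n _
      have b5 : (im n' (c.Pa f)).card = (c.Pa f).card := tr_card n' _
      rw [Finset.card_union_of_disjoint b0, b4, b5, pow_add, ← hq] at b1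
      refine le_trans (Pr_mono hw fun ω _ hh => ?_) (b1.le.trans ?_)
      · obtain ⟨⟨-, d1, -, d2⟩, -, d3, -, d4⟩ := hh
        rw [tr_eq_image] at d1 d3
        refine ⟨⟨pz_big c d2, pz_big c d4⟩, ?_⟩
        rw [Finset.coe_union]
        exact Set.union_subset d1 d3
      · rw [mul_comm, pow_two q]
        exact mul_le_mul_of_nonneg_left
          (big_two hG c hc h0 h1 hW0 hW hM f (hS n hn) (hS n' hn') F) (mul_nonneg hq0 hq0)
    · rw [if_pos h]
      have b1 := pz_indep (p := p) (hPa n hn) (hPaE n) (hPaD n hn)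
        (B := c.Big Γ M (n * f)) (fun ω η e hb => pz_big_dep c hc (hS n hn) f e hb)
      have b4 : (im n (c.Pa f)).card = (c.Pa f).card := tr_card n _
      rw [b4, ← hq] at b1
      refine le_trans (Pr_mono hw fun ω _ hh => ?_) (b1.le.trans ?_)
      · obtain ⟨⟨-, d1, -, d2⟩, -⟩ := hh
        rw [tr_eq_image] at d1
        exact ⟨pz_big c d2, d1⟩
      · rw [mul_comm]
        refine (mul_le_mul_of_nonneg_left (big_one hG c hc h0 h1 hW0 hW hM _ F) hq0).trans ?_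
        exact le_add_of_nonneg_right (by positivity)
  refine ⟨F, ?_⟩
  have cs := pz_cs (F := F) hw (fun ω => ∑ n ∈ S, ind (A n ω)) (c.Suc Γ p M E f S)
    (fun ω h => Finset.sum_eq_zero fun n hn => ind_false fun h' => h ⟨n, hn, h'⟩)
  have e1 : M * q * p ^ (c.Q2.card + (c.Pb f).card) * θ ≤
      Ex F (wU p Γ.edgeSet) (fun ω => ∑ n ∈ S, ind (A n ω)) := by
    rw [Ex_sum]
    have := Finset.card_nsmul_le_sum S _ _ one
    rw [hcard, nsmul_eq_mul] at this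
    exact le_trans (le_of_eq (by ring)) this
  refine (pow_le_pow_left₀ (by positivity) e1 2).trans
    (cs.trans (mul_le_mul_of_nonneg_left ?_ (Pr_nonneg hw _)))
  have e2 : Ex F (wU p Γ.edgeSet) (fun ω => (∑ n ∈ S, ind (A n ω)) ^ 2) =
      ∑ n ∈ S, ∑ n' ∈ S, Pr F (wU p Γ.edgeSet) (fun ω => A n ω ∧ A n' ω) := by
    simp only [pow_two, Finset.sum_mul_sum, ← ind_and, Ex_sum, Pr]
  rw [e2]
  refine (Finset.sum_le_sum fun n hn => Finset.sum_le_sum (two n hn)).trans ?_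
  have e3 : ∀ n ∈ S, ∑ n' ∈ S, (if ¬ Disjoint (tr n (c.Pa f)) (tr n' (c.Pa f)) then q * (W / M)
      else 0) ≤ 2 * ((c.Pa f).card : ℝ) ^ 2 * (q * (W / M)) := by
    intro n _
    rw [← Finset.sum_filter, Finset.sum_const, nsmul_eq_mul]
    refine mul_le_mul_of_nonneg_right ?_ (mul_nonneg hq0 hWM)
    exact_mod_cast overlap hG (P := c.Pa f) n S
  have e4 := Finset.sum_le_card_nsmul S _ _ e3
  rw [hcard, nsmul_eq_mul] at e4
  have e5 : 3 * q ^ 2 * (W / M) * c.en Γ p f S ≤ 3 * q ^ 2 * (W / M) * E' :=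
    mul_le_mul_of_nonneg_left hE (by positivity)
  have e6 : ∑ n ∈ S, ∑ n' ∈ S, q ^ 2 * ((W / M) ^ 2 + 3 * (W / M) *
      sq Γ p c.A ((f⁻¹ * n * f) • c.w) ((f⁻¹ * n' * f) • c.w)) =
      q ^ 2 * W ^ 2 + 3 * q ^ 2 * (W / M) * c.en Γ p f S := by
    simp only [mul_add, Finset.sum_add_distrib, Finset.sum_const, hcard, nsmul_eq_mul,
      ← Finset.mul_sum, Cf.en]
    field_simp
  have e7 : M * (2 * ((c.Pa f).card : ℝ) ^ 2 * (q * (W / M))) =
      2 * ((c.Pa f).card : ℝ) ^ 2 * q * W := by field_simp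
  simp only [Finset.sum_add_distrib]
  rw [e6]
  linarith

end Vale.Agent.P165
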