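import Vale.Agent.P165.Rec1

open Classical
open scoped ENNReal

namespace Vale.Agent.P165

open Vale.Agent.P151

universe u

variable {V : Type*} {α : Type*} [DecidableEq α]
variable {Γ : SimpleGraph V} {G : Type u} [Group G] [MulAction G V]

lemma rec2_low (hG : Geom Γ G) (c : Cf V G) (hc : c.Fine Γ) {p : ℝ} (h0 : 0 < p) (h1 : p ≤ 1)
    {S : Finset G} {n : G} (hn : n ∈ S) (hN : n ∈ c.N) :
    ENNReal.ofReal (p ^ c.Q2.card) ≤ c.psi Γ p S := by
  refine le_trans ?_ (ENNReal.le_tsum (n • c.z))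
  rw [ii_true ((hc.invB n hN c.z).2 hc.zB), one_mul]
  refine le_trans (ENNReal.ofReal_le_ofReal ?_) (le_iSup (fun F : Finset (Sym2 V) =>
    ENNReal.ofReal (Pr F (wU p Γ.edgeSet) (c.ev Γ S (n • c.z))))
    (c.Q2.image (Sym2.map (n • ·))))
  refine le_trans (le_of_eq ?_) (Pr_mono (wU_ok h0.le h1 _)
    (A := fun ω => ((c.Q2.image (Sym2.map (n • ·)) : Finset (Sym2 V)) : Set (Sym2 V)) ⊆ ω)
    fun ω _ h => ⟨n, hn, by rwa [tr_eq_image], Conn.refl _ _⟩)
  rw [Pr_open subset_rfl, ← tr_card n c.Q2, ← Finset.prod_const]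
  refine Finset.prod_congr rfl fun e he => ?_
  have : e ∈ tr n c.Q2 := by rwa [tr_eq_image]
  exact (if_pos ((tr_sub hG n).2 hc.q2 this).1).symm

lemma rec2_up (c : Cf V G) {p : ℝ} (h0 : 0 < p) (h1 : p ≤ 1) (S : Finset G) :
    c.psi Γ p S ≤ S.card * chi Γ p := by
  have e : c.psi Γ p S ≤ ∑' y, ∑ n ∈ S, tau (wU p Γ.edgeSet) (n • c.z) y := by
    refine ENNReal.tsum_le_tsum fun y => (mul_le_of_le_one_left' (ii_le_one _)).trans
      (iSup_le fun F => ?_)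
    refine (ENNReal.ofReal_le_ofReal (Pr_le_sum (wU_ok h0.le h1 _) S
      (B := fun n ω => Conn ω (n • c.z) y) fun ω _ ⟨n, hn, _, h⟩ =>
        ⟨n, hn, Conn.mono Set.inter_subset_left h⟩)).trans ?_
    rw [ENNReal.ofReal_sum_of_nonneg fun n _ => Pr_nonneg (wU_ok h0.le h1 _) _]
    exact Finset.sum_le_sum fun n _ => Pr_le_tau _ F _ _
  refine e.trans ?_
  rw [Summable.tsum_finsetSum fun _ _ => ENNReal.summable, ← nsmul_eq_mul]
  exact Finset.sum_le_card_nsmul _ _ _ fun n _ =>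
    le_iSup (fun x => ∑' y, tau (wU p Γ.edgeSet) x y) (n • c.z)

lemma rec2_half {ι : Type*} (I : Finset ι) (g : ι → ℝ) (hg : ∀ i, 0 ≤ g i) {E : ℝ} (hE : 0 ≤ E)
    (h : ∑ i ∈ I, g i ≤ I.card * E) :
    (I.card : ℝ) ≤ 2 * (I.filter fun i => g i ≤ 2 * E).card := by
  have e : ((I.filter fun i => g i ≤ 2 * E).card : ℝ) +
      (I.filter fun i => ¬ g i ≤ 2 * E).card = I.card := by
    exact_mod_cast Finset.card_filter_add_card_filter_not (s := I) fun i => g i ≤ 2 * E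
  rcases (I.filter fun i => ¬ g i ≤ 2 * E).eq_empty_or_nonempty with h' | h'
  · rw [h', Finset.card_empty, Nat.cast_zero, add_zero] at e
    rw [e]
    linarith [Nat.cast_nonneg (α := ℝ) I.card]
  have a := Finset.sum_lt_sum_of_nonempty h' (f := fun _ => 2 * E) (g := g)
    fun i hi => not_le.1 (Finset.mem_filter.1 hi).2
  have b := Finset.sum_le_sum_of_subset_of_nonneg (f := g)
    (Finset.filter_subset (fun i => ¬ g i ≤ 2 * E) I) fun i _ _ => hg i
  rw [Finset.sum_const, nsmul_eq_mul] at a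
  by_contra hn
  nlinarith [mul_le_mul_of_nonneg_right (not_le.1 hn).le hE]

theorem rec_main (hG : Geom Γ G) (c : Cf V G) (hc : c.Fine Γ) {p : ℝ} (h0 : 0 < p) (h1 : p ≤ 1)
    (hχ : chi Γ p ≠ ⊤) {M : ℕ} (hM : 1 ≤ M) {E : ℝ} (hE : 0 ≤ E)
    (hex : ∃ S, c.good Γ p M E S) {c₀ : ℝ}
    (h : ∀ S, c.good Γ p M E S → ∀ f ∈ c.I, c.en Γ p f S ≤ 2 * E →
      ∃ F : Finset (Sym2 V), c₀ ≤ Pr F (wU p Γ.edgeSet) (c.Suc Γ p M E f S)) :
    c.I.card * c₀ ≤ 2 := by
  rcases le_total c₀ 0 with hc0 | hc0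
  · nlinarith [Nat.cast_nonneg (α := ℝ) c.I.card]
  obtain ⟨ψ, hψ⟩ : ∃ ψ, ψ = ⨅ (S : Finset G) (_ : c.good Γ p M E S), c.psi Γ p S := ⟨_, rfl⟩
  have l : ∀ S, c.good Γ p M E S → ψ ≤ c.psi Γ p S := fun S hS => hψ ▸ iInf₂_le S hS
  have p0 : ψ ≠ 0 := by
    refine ne_of_gt (lt_of_lt_of_le (ENNReal.ofReal_pos.2 (pow_pos h0 c.Q2.card)) ?_)
    rw [hψ]
    refine le_iInf₂ fun S hS => ?_
    obtain ⟨n, hn⟩ := Finset.card_pos.1 (hS.2.1 ▸ hM : 0 < S.card)
    exact rec2_low hG c hc h0 h1 hn (hS.1 n hn)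
  have pt : ψ ≠ ⊤ := by
    obtain ⟨S, hS⟩ := hex
    exact ne_top_of_le_ne_top (ENNReal.mul_ne_top (ENNReal.natCast_ne_top _) hχ)
      ((l S hS).trans (rec2_up c h0 h1 S))
  have key : ENNReal.ofReal (c.I.card * c₀ / 2) * ψ ≤ ψ := by
    nth_rewrite 2 [hψ]
    refine le_iInf₂ fun S hS => ?_
    obtain ⟨J, hJ⟩ : ∃ J, J = c.I.filter fun f => c.en Γ p f S ≤ 2 * E := ⟨_, rfl⟩
    have hf := rec2_half c.I (fun f => c.en Γ p f S) (fun f => Finset.sum_nonneg fun _ _ =>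
      Finset.sum_nonneg fun _ _ => Real.sqrt_nonneg _) hE hS.2.2
    rw [← hJ] at hf
    have JI : ∀ f ∈ J, f ∈ c.I ∧ c.en Γ p f S ≤ 2 * E := fun f hf => by
      rwa [hJ, Finset.mem_filter] at hf
    calc ENNReal.ofReal (c.I.card * c₀ / 2) * ψ ≤ ENNReal.ofReal (J.card * c₀) * ψ := by
          gcongr
          nlinarith
      _ = ∑ _f ∈ J, ENNReal.ofReal c₀ * ψ := by
          rw [Finset.sum_const, nsmul_eq_mul, ENNReal.ofReal_mul (Nat.cast_nonneg _),
            ENNReal.ofReal_natCast, mul_assoc]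
      _ ≤ ∑ f ∈ J, ∑' y, ii (y ∈ sh f c.B) * ⨆ F' : Finset (Sym2 V),
            ENNReal.ofReal (Pr F' (wU p Γ.edgeSet) (c.ev Γ S y)) := by
          refine Finset.sum_le_sum fun f hf => ?_
          obtain ⟨F, hF⟩ := h S hS f (JI f hf).1 (JI f hf).2
          refine le_trans ?_ (rec_one hG c hc h0.le h1 (JI f hf).1 hS.1 F l)
          gcongr
      _ ≤ c.psi Γ p S := by
          rw [← Summable.tsum_finsetSum fun _ _ => ENNReal.summable]
          refine ENNReal.tsum_le_tsum fun y => ?_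
          rw [← Finset.sum_mul]
          refine mul_le_mul_left ?_ _
          by_cases hy : ∃ f ∈ J, y ∈ sh f c.B
          · obtain ⟨f, hf, hy⟩ := hy
            rw [Finset.sum_eq_single_of_mem f hf fun f' hf' hne => ii_false fun hy' =>
              Set.disjoint_left.1 (hc.dj f' (JI f' hf').1 f (JI f hf).1 hne) hy' hy]
            exact ii_mono fun h => hc.subB f (JI f hf).1 h
          · rw [Finset.sum_eq_zero fun f hf => ii_false fun h => hy ⟨f, hf, h⟩]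
            exact zero_le
  have := (ENNReal.mul_le_mul_iff_left p0 pt).1 (key.trans (one_mul ψ).ge)
  linarith [ENNReal.ofReal_le_one.1 this]

end Vale.Agent.P165
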