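import Vale.Agent.P165.Good
import Vale.Agent.P165.PZ
import Vale.Agent.P165.Rec2

open Classical
open scoped ENNReal

namespace Vale.Agent.P165

open Vale.Agent.P151

universe u

variable {V : Type*} {α : Type*} [DecidableEq α]
variable {Γ : SimpleGraph V} {G : Type u} [Group G] [MulAction G V]

theorem KeyA_num {x y q W J M P a μ c₁ : ℝ} (hx : 0 < x) (hx1 : x ≤ 1) (hq : 0 < q) (hW : 0 < W)
    (hJ : 1 ≤ J) (hM : 0 < M) (hP : 0 ≤ P) (hμ : μ ≤ c₁ * W) (ha : 2 * a ^ 2 ≤ q * W)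
    (h : (M * q * y * (x * W / (16 * J * M))) ^ 2 ≤ P * (2 * a ^ 2 * q * W + q ^ 2 * W ^ 2 +
      3 * q ^ 2 * (W / M) * (2 * (48 * μ * J * M / x)))) :
    (x * y) ^ 2 * x ≤ P * (256 * (2 + 288 * c₁) * J ^ 3) := by
  have hJ0 : 0 < J := by linarith
  have hr : 1 ≤ J / x := by
    rw [le_div_iff₀ hx]
    linarith
  have e1 : 3 * q ^ 2 * (W / M) * (2 * (48 * μ * J * M / x)) = 288 * q ^ 2 * W * (J / x) * μ := by
    field_simp
    ring
  have e2 : (M * q * y * (x * W / (16 * J * M))) ^ 2 =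
      (q * W) ^ 2 * ((x * y) ^ 2 / (256 * J ^ 2)) := by
    field_simp
    ring
  have e3 : 2 * a ^ 2 * q * W + q ^ 2 * W ^ 2 + 288 * q ^ 2 * W * (J / x) * μ ≤
      (q * W) ^ 2 * ((2 + 288 * c₁) * (J / x)) := by
    have a1 := mul_le_mul_of_nonneg_right ha (mul_pos hq hW).le
    have a2 := mul_le_mul_of_nonneg_left hμ (by positivity : 0 ≤ 288 * q ^ 2 * W * (J / x))
    have a3 := mul_le_mul_of_nonneg_left hr (by positivity : 0 ≤ 2 * (q * W) ^ 2)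
    nlinarith
  rw [e1, e2] at h
  have h2 := h.trans (mul_le_mul_of_nonneg_left e3 hP)
  rw [mul_left_comm] at h2
  have h3 := le_of_mul_le_mul_left h2 (by positivity)
  rw [div_le_iff₀ (by positivity)] at h3
  refine (mul_le_mul_of_nonneg_right h3 hx.le).trans_eq ?_
  field_simp

theorem key_abs (hG : Geom Γ G) (c : Cf V G) (hc : c.Fine Γ) {p₀ p : ℝ} (hp₀ : 0 < p₀)
    (h0 : p₀ ≤ p) (h1 : p ≤ 1) (hχ : chi Γ p ≠ ⊤) {W μ m₂ c₁ : ℝ} (hW0 : 0 < W) (hμ0 : 0 < μ)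
    (hW : ∑' n : c.N, tau (wU p (inE Γ c.A)) c.w ((n : G) • c.w') = ENNReal.ofReal W)
    (hμ : ∑' n : c.N, tau (wU p (inE Γ c.A)) c.w ((n : G) • c.w) ≤ ENNReal.ofReal μ)
    (hμ' : ∑' n : c.N, tau (wU p (inE Γ c.A)) c.w' ((n : G) • c.w') ≤ ENNReal.ofReal μ)
    (hm : ∀ (F : Finset (Sym2 V)) (T : Finset G), (∀ n ∈ T, n ∈ c.N) →
      ∑ a ∈ T, ∑ b ∈ T, Pr F (wU p (inE Γ c.A))
        (fun ω => Conn ω c.w (a • c.w') ∧ Conn ω c.w (b • c.w')) ≤ m₂)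
    {a b J : ℕ} (hb : c.Q1.card + c.Q2.card ≤ b)
    (hI : ∀ f ∈ c.I, (c.Pa f).card ≤ a ∧ (c.Pb f).card ≤ b)
    (hJ0 : 1 ≤ J) (hJ : 4 * m₂ ≤ p₀ ^ b * W * 2 ^ J) (hc₁ : μ ≤ c₁ * W)
    (ha : 2 * (a : ℝ) ^ 2 ≤ p₀ ^ a * W) :
    (c.I.card : ℝ) ≤ 512 * (2 + 288 * c₁) / p₀ ^ (5 * b) * (J : ℝ) ^ 3 := by
  have hp : 0 < p := hp₀.trans_le h0
  have hpow : ∀ {k l : ℕ}, k ≤ l → p₀ ^ l ≤ p ^ k := fun h =>
    (pow_le_pow_left₀ hp₀.le h0 _).trans (pow_le_pow_of_le_one hp.le h1 h)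
  have hc0 : 0 < c₁ := (pos_iff_pos_of_mul_pos (hμ0.trans_le hc₁)).mpr hW0
  have hJ1 : (1 : ℝ) ≤ J := by exact_mod_cast hJ0
  obtain ⟨M, hM, F, hF⟩ := good_prob hG c hc hp h1 hW0 hμ0 hW hμ hμ' hm hJ0 (hJ.trans (by
    gcongr
    exact hpow (by omega)))
  have hM1 : (0 : ℝ) < M := by exact_mod_cast hM
  have hex : ∃ S, c.good Γ p M (48 * μ * J * M / p ^ c.Q1.card) S := by
    by_contra hn
    have := Pr_le_sum (F := F) (wU_ok hp.le h1 Γ.edgeSet) (∅ : Finset Unit) (B := fun _ _ => True)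
      (A := c.Gd Γ p M (48 * μ * J * M / p ^ c.Q1.card) 1) fun ω _ h => (hn ⟨_, h.choose_spec.1⟩).elim
    rw [Finset.sum_empty] at this
    exact absurd (hF.trans this) (not_le.mpr (by positivity))
  have key := rec_main hG c hc hp h1 hχ hM (by positivity) hex
    (c₀ := p₀ ^ (5 * b) / (256 * (2 + 288 * c₁) * J ^ 3)) fun S hS f hf hE => by
      obtain ⟨F', hF'⟩ := pz hG c hc hp.le h1 hW0.le (by positivity) hW.le hM ⟨F, hF⟩ hf hS.1
        hS.2.1 hE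
      refine ⟨F', ?_⟩
      rw [div_le_iff₀ (by positivity)]
      refine le_trans ?_ (KeyA_num (by positivity) (pow_le_one₀ hp.le h1) (by positivity) hW0 hJ1 hM1
        (Pr_nonneg (wU_ok hp.le h1 _) _) hc₁ ?_ hF')
      · rw [← pow_add, ← pow_mul, ← pow_add]
        have := (hI f hf).2
        exact hpow (by omega)
      · have := (hI f hf).1
        refine le_trans ?_ (ha.trans (mul_le_mul_of_nonneg_right (hpow this) hW0.le))
        gcongr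
  rw [← mul_div_assoc, div_le_iff₀ (by positivity)] at key
  rw [div_mul_eq_mul_div, le_div_iff₀ (by positivity)]
  linarith

end Vale.Agent.P165
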