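import Vale.Agent.P165.PairT
import Vale.Agent.P165.PZ

open Classical
open scoped ENNReal

namespace Vale.Agent.P165

open Vale.Agent.P151

universe u

variable {V : Type*} {α : Type*} [DecidableEq α]
variable {Γ : SimpleGraph V} {G : Type u} [Group G] [MulAction G V]


lemma pzt_gd_mono (c : Cg V G) (p : ℝ) (M : ℕ) (E : ℝ) (g : G) {ω η : Set (Sym2 V)} (h : ω ⊆ η)
    (hω : c.Gd Γ p M E g ω) : c.Gd Γ p M E g η := by
  obtain ⟨S, h1, h2⟩ := hω
  exact ⟨S, h1, fun n hn => ⟨(h2 n hn).1.mono (Set.inter_subset_inter_left _ h),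
    (h2 n hn).2.trans h⟩⟩

lemma pzt_gd_tr (hG : Geom Γ G) (c : Cg V G) (p : ℝ) (M : ℕ) (E : ℝ) (g : G) {ω : Set (Sym2 V)}
    (hω : c.Gd Γ p M E 1 ω) : c.Gd Γ p M E g (Sym2.map (g • ·) '' ω) := by
  obtain ⟨S, h1, h2⟩ := hω
  refine ⟨S, h1, fun n hn => ?_⟩
  obtain ⟨a1, a2⟩ := h2 n hn
  rw [sh_one, one_smul, one_mul] at a1
  rw [one_mul, tr_eq_image] at a2
  refine ⟨?_, ?_⟩
  · rw [mul_smul]
    exact (conn_tr hG g ω c.A _ _).2 a1
  · rw [tr_mul]
    exact Set.image_mono a2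

lemma pzt_big (c : Cg V G) {p : ℝ} {M : ℕ} {E : ℝ} {g : G} {ω : Set (Sym2 V)}
    (hω : c.Gd Γ p M E g ω) : c.toCf.Big Γ M g ω := by
  obtain ⟨S, h1, h2⟩ := hω
  exact ⟨S, h1.1, h1.2.1, fun n hn => (h2 n hn).1⟩

lemma pzt_big_dep (c : Cg V G) {M : ℕ} {g f : G} (e : sh g c.A = sh f c.A)
    {ω η : Set (Sym2 V)} (h : ω ∩ inE Γ (sh f c.A) = η ∩ inE Γ (sh f c.A))
    (hω : c.toCf.Big Γ M g ω) : c.toCf.Big Γ M g η := by
  unfold Cf.Big at hω ⊢
  rw [e] at hω ⊢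
  rwa [← h]

theorem pz2 (hG : Geom Γ G) (c : Cg V G) (hc : c.Fine Γ) {p : ℝ} (h0 : 0 < p) (h1 : p ≤ 1)
    {W θ E E' : ℝ} (hW0 : 0 ≤ W) (hθ : 0 ≤ θ)
    (hW : ∑' n : c.N, tau (wU p (inE Γ c.A)) c.w ((n : G) • c.w') ≤ ENNReal.ofReal W)
    {M : ℕ} (hM : 1 ≤ M)
    (hF : ∃ F : Finset (Sym2 V), θ ≤ Pr F (wU p Γ.edgeSet) (c.Gd Γ p M E 1))
    {a b : ℕ} (hI : ∀ f ∈ c.I, (c.Pa f).card ≤ a ∧ (c.Pb f).card ≤ b)
    {f : G} (hf : f ∈ c.I) {S : Finset G} (hS : ∀ n ∈ S, n ∈ c.N) (hcard : S.card ≤ M)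
    {g₀ : G} (hg : ∀ n ∈ S, g₀⁻¹ * (n * c.s n f) ∈ c.N) (hE : c.en Γ p f S ≤ E') :
    ∃ F : Finset (Sym2 V), (S.card * p ^ (c.Q2.card + b) * θ) ^ 2 ≤
      Pr F (wU p Γ.edgeSet) (c.Suc Γ p M E f S) *
        (2 * (a : ℝ) ^ 2 * c.I.card * W / p ^ a + W ^ 2 + 3 * (W / M) * E') := by
  obtain ⟨F0, hF0⟩ := hF
  have h0' := h0.le
  have hw := wU_ok h0' h1 Γ.edgeSet
  set im : G → Finset (Sym2 V) → Finset (Sym2 V) := fun g P => P.image (Sym2.map (g • ·)) with him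
  set PP : G → Finset (Sym2 V) := fun n =>
    im n c.Q2 ∪ im n (c.Pa (c.s n f)) ∪ im n (c.Pb (c.s n f)) with hPP
  set F : Finset (Sym2 V) := S.biUnion fun n => im (n * c.s n f) F0 ∪ PP n with hFd
  set A : G → Set (Sym2 V) → Prop := fun n ω => tr n c.Q2 ⊆ ω ∧ tr n (c.Pa (c.s n f)) ⊆ ω ∧
    tr n (c.Pb (c.s n f)) ⊆ ω ∧ c.Gd Γ p M E (n * c.s n f) ω with hA
  have hsI : ∀ n ∈ S, c.s n f ∈ c.I := fun n hn => (hc.perm n (hS n hn) f hf).1
  have hsC : ∀ n ∈ S, f⁻¹ * (n * c.s n f) ∈ c.C := fun n hn => by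
    rw [← mul_assoc]
    exact (hc.perm n (hS n hn) f hf).2
  have hsh : ∀ n ∈ S, sh (n * c.s n f) c.A = sh f c.A := fun n hn => sh_right hc.invA (hsC n hn)
  have hsub : ∀ n ∈ S, im (n * c.s n f) F0 ∪ PP n ⊆ F := fun n hn =>
    Finset.subset_biUnion_of_mem (fun n => im (n * c.s n f) F0 ∪ PP n) hn
  have hPa : ∀ n ∈ S, im n (c.Pa (c.s n f)) ⊆ F := fun n hn =>
    (Finset.subset_union_right.trans Finset.subset_union_left).trans
      (Finset.subset_union_right.trans (hsub n hn))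
  have hPaE : ∀ n ∈ S, (im n (c.Pa (c.s n f)) : Set (Sym2 V)) ⊆ Γ.edgeSet := fun n hn =>
    pz_edge hG n (hc.pa _ (hsI n hn))
  have hPaD : ∀ n ∈ S, Disjoint (im n (c.Pa (c.s n f)) : Set (Sym2 V)) (inE Γ (sh f c.A)) := by
    intro n hn
    have := (tr_disj hG n).2 (hc.paA _ (hsI n hn))
    rwa [← sh_mul, hsh n hn, tr_eq_image] at this
  obtain ⟨q, hq⟩ : ∃ q : G → ℝ, ∀ n, q n = p ^ (c.Pa (c.s n f)).card := ⟨_, fun _ => rfl⟩
  have hq0 : ∀ n, 0 < q n := fun n => by rw [hq]; positivity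
  have hqa : ∀ n ∈ S, p ^ a ≤ q n := fun n hn => by
    rw [hq]
    exact pow_le_pow_of_le_one h0' h1 (hI _ (hsI n hn)).1
  have hM0 : (0 : ℝ) < M := by exact_mod_cast hM
  have hWM : 0 ≤ W / M := div_nonneg hW0 hM0.le
  have one : ∀ n ∈ S, p ^ (c.Q2.card + b) * θ ≤ (q n)⁻¹ * Pr F (wU p Γ.edgeSet) (A n) := by
    intro n hn
    rw [le_inv_mul_iff₀ (hq0 n), ← mul_assoc]
    have mono1 : Monotone fun ω => ind (c.Gd Γ p M E (n * c.s n f) ω) := fun _ _ h =>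
      ind_mono (pzt_gd_mono c p M E _ h)
    have mono2 : Monotone fun ω : Set (Sym2 V) => ind ((PP n : Set (Sym2 V)) ⊆ ω) := fun _ _ h =>
      ind_mono fun h' => h'.trans h
    have a1 : θ ≤ Pr F (wU p Γ.edgeSet) (c.Gd Γ p M E (n * c.s n f)) := by
      refine hF0.trans (le_trans ?_
        (Ex_mono_F hw (Finset.subset_union_left.trans (hsub n hn)) mono1))
      refine le_trans (Pr_mono hw fun ω _ h => pzt_gd_tr hG c p M E (n * c.s n f) h) (le_of_eq ?_)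
      exact (Pr_tr hG p (n * c.s n f) F0 _).symm
    have a2 : q n * p ^ (c.Q2.card + b) ≤
        Pr F (wU p Γ.edgeSet) (fun ω => (PP n : Set (Sym2 V)) ⊆ ω) := by
      rw [pz_open (Finset.subset_union_right.trans (hsub n hn)), hq, ← pow_add]
      · refine pow_le_pow_of_le_one h0' h1 ?_
        have b1 := Finset.card_union_le (im n c.Q2 ∪ im n (c.Pa (c.s n f))) (im n (c.Pb (c.s n f)))
        have b2 := Finset.card_union_le (im n c.Q2) (im n (c.Pa (c.s n f)))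
        have b3 : (im n c.Q2).card = c.Q2.card := tr_card n _
        have b4 : (im n (c.Pa (c.s n f))).card = (c.Pa (c.s n f)).card := tr_card n _
        have b5 : (im n (c.Pb (c.s n f))).card = (c.Pb (c.s n f)).card := tr_card n _
        have b6 := (hI _ (hsI n hn)).2
        show (im n c.Q2 ∪ im n (c.Pa (c.s n f)) ∪ im n (c.Pb (c.s n f))).card ≤ _
        omega
      · simp only [hPP, Finset.coe_union]
        exact Set.union_subset (Set.union_subset (pz_edge hG n hc.q2) (hPaE n hn))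
          (pz_edge hG n (hc.pb _ (hsI n hn)))
    refine (mul_le_mul a2 a1 hθ (Pr_nonneg hw _)).trans ((harris F hw mono2 mono1).trans ?_)
    refine Ex_mono hw fun ω _ => ?_
    rw [← ind_and]
    refine ind_mono fun h => ?_
    obtain ⟨b1, b2⟩ := h
    simp only [hPP, Finset.coe_union, Set.union_subset_iff] at b1
    simp only [hA, tr_eq_image]
    exact ⟨b1.1.1, b1.1.2, b1.2, b2⟩
  have two : ∀ n ∈ S, ∀ n' ∈ S,
      (q n)⁻¹ * (q n')⁻¹ * Pr F (wU p Γ.edgeSet) (fun ω => A n ω ∧ A n' ω) ≤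
      (if ¬ Disjoint (tr n (c.Pa (c.s n f))) (tr n' (c.Pa (c.s n' f))) then W / M / p ^ a else 0) +
        ((W / M) ^ 2 + 3 * (W / M) *
          sq Γ p c.A ((f⁻¹ * n * c.s n f) • c.w) ((f⁻¹ * n' * c.s n' f) • c.w)) := by
    intro n hn n' hn'
    have hsq : 0 ≤ sq Γ p c.A ((f⁻¹ * n * c.s n f) • c.w) ((f⁻¹ * n' * c.s n' f) • c.w) :=
      Real.sqrt_nonneg _
    have q1 := hq0 n
    have q2 := hq0 n'
    rw [← mul_inv, inv_mul_le_iff₀ (mul_pos q1 q2)]
    have b4 : (im n (c.Pa (c.s n f))).card = (c.Pa (c.s n f)).card := tr_card n _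
    have b5 : (im n' (c.Pa (c.s n' f))).card = (c.Pa (c.s n' f)).card := tr_card n' _
    by_cases h : Disjoint (tr n (c.Pa (c.s n f))) (tr n' (c.Pa (c.s n' f)))
    · rw [if_neg (not_not.2 h), zero_add]
      have b0 : Disjoint (im n (c.Pa (c.s n f))) (im n' (c.Pa (c.s n' f))) := by
        rw [tr_eq_image, tr_eq_image] at h
        exact Finset.disjoint_coe.1 h
      have b1 := pz_indep (p := p) (F := F)
        (P := im n (c.Pa (c.s n f)) ∪ im n' (c.Pa (c.s n' f)))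
        (Finset.union_subset (hPa n hn) (hPa n' hn'))
        (by rw [Finset.coe_union]; exact Set.union_subset (hPaE n hn) (hPaE n' hn'))
        (U := inE Γ (sh f c.A))
        (by rw [Finset.coe_union]; exact Set.disjoint_union_left.2 ⟨hPaD n hn, hPaD n' hn'⟩)
        (B := fun ω => c.toCf.Big Γ M (n * c.s n f) ω ∧ c.toCf.Big Γ M (n' * c.s n' f) ω)
        (fun ω η e hb => ⟨pzt_big_dep c (hsh n hn) e hb.1, pzt_big_dep c (hsh n' hn') e hb.2⟩)
      rw [Finset.card_union_of_disjoint b0, b4, b5, pow_add, ← hq, ← hq] at b1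
      refine le_trans (Pr_mono hw fun ω _ hh => ?_) (b1.le.trans ?_)
      · obtain ⟨⟨-, d1, -, d2⟩, -, d3, -, d4⟩ := hh
        rw [tr_eq_image] at d1 d3
        refine ⟨⟨pzt_big c d2, pzt_big c d4⟩, ?_⟩
        rw [Finset.coe_union]
        exact Set.union_subset d1 d3
      · rw [mul_comm, mul_assoc f⁻¹, mul_assoc f⁻¹]
        refine mul_le_mul_of_nonneg_left
          (big_two2 hG c hc h0' h1 hW0 hW hM (hsC n hn) ?_ F) (mul_pos q1 q2).le
        have := c.N.mul_mem (c.N.inv_mem (hg n hn)) (hg n' hn')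
        rwa [mul_inv_rev, inv_inv, mul_assoc, mul_inv_cancel_left] at this
    · rw [if_pos h]
      have b1 := pz_indep (p := p) (hPa n hn) (hPaE n hn) (hPaD n hn)
        (B := c.toCf.Big Γ M (n * c.s n f)) (fun ω η e hb => pzt_big_dep c (hsh n hn) e hb)
      rw [b4, ← hq] at b1
      refine le_trans (Pr_mono hw fun ω _ hh => ?_) (b1.le.trans ?_)
      · obtain ⟨⟨-, d1, -, d2⟩, -⟩ := hh
        rw [tr_eq_image] at d1
        exact ⟨pzt_big c d2, d1⟩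
      · rw [mul_comm, mul_assoc]
        refine mul_le_mul_of_nonneg_left ((big_one2 hG c hc h0' h1 hW0 hW hM _ F).trans ?_) q1.le
        have k : W / M ≤ q n' * (W / M / p ^ a) := by
          rw [← mul_div_assoc, le_div_iff₀ (by positivity), mul_comm]
          exact mul_le_mul_of_nonneg_right (hqa n' hn') hWM
        rw [mul_add]
        exact k.trans (le_add_of_nonneg_right (by positivity))
  refine ⟨F, ?_⟩
  have cs := pz_cs (F := F) hw (fun ω => ∑ n ∈ S, (q n)⁻¹ * ind (A n ω)) (c.Suc Γ p M E f S)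
    (fun ω h => Finset.sum_eq_zero fun n hn => by
      rw [ind_false fun h' => h ⟨n, hn, h'⟩, mul_zero])
  have e1 : S.card * p ^ (c.Q2.card + b) * θ ≤
      Ex F (wU p Γ.edgeSet) (fun ω => ∑ n ∈ S, (q n)⁻¹ * ind (A n ω)) := by
    simp only [Ex_sum, Ex_const_mul]
    have := Finset.card_nsmul_le_sum S _ _ one
    rw [nsmul_eq_mul] at this
    exact le_trans (le_of_eq (by ring)) this
  refine (pow_le_pow_left₀ (by positivity) e1 2).trans
    (cs.trans (mul_le_mul_of_nonneg_left ?_ (Pr_nonneg hw _)))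
  have e2 : Ex F (wU p Γ.edgeSet) (fun ω => (∑ n ∈ S, (q n)⁻¹ * ind (A n ω)) ^ 2) =
      ∑ n ∈ S, ∑ n' ∈ S, (q n)⁻¹ * (q n')⁻¹ * Pr F (wU p Γ.edgeSet) (fun ω => A n ω ∧ A n' ω) := by
    simp only [pow_two, Finset.sum_mul_sum, mul_mul_mul_comm _ (ind _), ← ind_and, Ex_sum,
      Ex_const_mul, Pr]
  rw [e2]
  refine (Finset.sum_le_sum fun n hn => Finset.sum_le_sum (two n hn)).trans ?_
  have hpa : 0 ≤ W / M / p ^ a := by positivity
  have e3 : ∀ n ∈ S, ∑ n' ∈ S, (if ¬ Disjoint (tr n (c.Pa (c.s n f))) (tr n' (c.Pa (c.s n' f)))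
      then W / M / p ^ a else 0) ≤ 2 * (a : ℝ) ^ 2 * c.I.card * (W / M / p ^ a) := by
    intro n hn
    rw [← Finset.sum_filter, Finset.sum_const, nsmul_eq_mul]
    refine mul_le_mul_of_nonneg_right ?_ hpa
    have k : (S.filter fun n' => ¬ Disjoint (tr n (c.Pa (c.s n f)))
        (tr n' (c.Pa (c.s n' f)))).card ≤ c.I.card * (2 * a * a) := by
      refine (Finset.card_le_card (t := c.I.biUnion fun f' => S.filter fun n' =>
        ¬ Disjoint (tr n (c.Pa (c.s n f))) (tr n' (c.Pa f'))) fun n' hn' => ?_).trans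
        (Finset.card_biUnion_le_card_mul _ _ _ fun f' hf' => (overlap2 hG _ _ n S).trans ?_)
      · exact Finset.mem_biUnion.2 ⟨_, hsI n' (Finset.mem_filter.1 hn').1,
          Finset.mem_filter.2 ⟨(Finset.mem_filter.1 hn').1, (Finset.mem_filter.1 hn').2⟩⟩
      · exact Nat.mul_le_mul (Nat.mul_le_mul_left 2 (hI _ (hsI n hn)).1) (hI _ hf').1
    have k' : ((S.filter fun n' => ¬ Disjoint (tr n (c.Pa (c.s n f)))
        (tr n' (c.Pa (c.s n' f)))).card : ℝ) ≤ c.I.card * (2 * a * a) := by exact_mod_cast k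
    exact k'.trans (le_of_eq (by ring))
  have e4 := Finset.sum_le_card_nsmul S _ _ e3
  rw [nsmul_eq_mul] at e4
  have hc' : (S.card : ℝ) ≤ M := by exact_mod_cast hcard
  have e5 : 3 * (W / M) * c.en Γ p f S ≤ 3 * (W / M) * E' :=
    mul_le_mul_of_nonneg_left hE (by positivity)
  have e6 : ∑ n ∈ S, ∑ n' ∈ S, ((W / M) ^ 2 + 3 * (W / M) *
      sq Γ p c.A ((f⁻¹ * n * c.s n f) • c.w) ((f⁻¹ * n' * c.s n' f) • c.w)) =
      (S.card * (W / M)) ^ 2 + 3 * (W / M) * c.en Γ p f S := by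
    simp only [Finset.sum_add_distrib, Finset.sum_const, nsmul_eq_mul, ← Finset.mul_sum, Cg.en]
    ring
  have e7 : S.card * (2 * (a : ℝ) ^ 2 * c.I.card * (W / M / p ^ a)) ≤
      2 * (a : ℝ) ^ 2 * c.I.card * W / p ^ a :=
    (mul_le_mul_of_nonneg_right hc' (by positivity)).trans (le_of_eq (by field_simp))
  have e8 : (S.card * (W / M)) ^ 2 ≤ W ^ 2 := pow_le_pow_left₀ (by positivity)
    ((mul_le_mul_of_nonneg_right hc' hWM).trans (le_of_eq (by field_simp))) 2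
  rw [Finset.sum_congr rfl fun n _ => Finset.sum_add_distrib, Finset.sum_add_distrib, e6]
  linarith

end Vale.Agent.P165
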