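import Vale.Agent.P165.Rec1T
import Vale.Agent.P165.Rec2

open Classical
open scoped ENNReal

namespace Vale.Agent.P165

open Vale.Agent.P151

universe u

variable {V : Type*} {α : Type*} [DecidableEq α]
variable {Γ : SimpleGraph V} {G : Type u} [Group G] [MulAction G V]


theorem rec_main2 (hG : Geom Γ G) (c : Cg V G) (hc : c.Fine Γ) {p : ℝ} (h0 : 0 < p) (h1 : p ≤ 1)
    (hχ : chi Γ p ≠ ⊤) {M : ℕ} (hM : 1 ≤ M) {E : ℝ} (hE : 0 ≤ E)
    (hex : ∃ S, c.good Γ p M E S) {c₀ : ℝ}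
    (h : ∀ S, c.good Γ p M E S → ∀ f ∈ c.I, c.en Γ p f S ≤ 2 * E → ∃ S' ⊆ S, ∃ n₀ ∈ S',
      (∀ n ∈ S', (n₀ * c.s n₀ f)⁻¹ * (n * c.s n f) ∈ c.N) ∧
      ∃ F : Finset (Sym2 V), c₀ ≤ Pr F (wU p Γ.edgeSet) (c.Suc Γ p M E f S')) :
    c.I.card * c₀ ≤ 2 * c.D := by
  rcases le_total c₀ 0 with hc0 | hc0
  · nlinarith [Nat.cast_nonneg (α := ℝ) c.I.card, Nat.cast_nonneg (α := ℝ) c.D]
  have : Nonempty {S // c.good Γ p M E S} := nonempty_subtype.2 hex
  obtain ⟨ψ, hψ⟩ : ∃ ψ, ψ = ⨅ S : {S // c.good Γ p M E S}, c.toCf.psi Γ p S := ⟨_, rfl⟩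
  have l : ∀ S, c.good Γ p M E S → ψ ≤ c.toCf.psi Γ p S := fun S hS =>
    hψ ▸ iInf_le (fun S : {S // c.good Γ p M E S} => c.toCf.psi Γ p S) ⟨S, hS⟩
  have p0 : ψ ≠ 0 := by
    refine ne_of_gt (lt_of_lt_of_le (ENNReal.ofReal_pos.2 (pow_pos h0 c.Q2.card)) ?_)
    rw [hψ]
    refine le_iInf fun ⟨S, hS⟩ => ?_
    obtain ⟨n, hn⟩ := Finset.card_pos.1 (hS.2.1 ▸ hM : 0 < S.card)
    refine le_trans ?_ (ENNReal.le_tsum (n • c.z))
    rw [ii_true ((hc.invB n (hS.1 n hn) c.z).2 hc.zB), one_mul]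
    refine le_trans (ENNReal.ofReal_le_ofReal ?_) (le_iSup (fun F : Finset (Sym2 V) =>
      ENNReal.ofReal (Pr F (wU p Γ.edgeSet) (c.toCf.ev Γ S (n • c.z))))
      (c.Q2.image (Sym2.map (n • ·))))
    refine le_trans (le_of_eq ?_) (Pr_mono (wU_ok h0.le h1 _)
      (A := fun ω => ((c.Q2.image (Sym2.map (n • ·)) : Finset (Sym2 V)) : Set (Sym2 V)) ⊆ ω)
      fun ω _ h => ⟨n, hn, by rwa [tr_eq_image], Conn.refl _ _⟩)
    rw [Pr_open subset_rfl, ← tr_card n c.Q2, ← Finset.prod_const]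
    refine Finset.prod_congr rfl fun e he => ?_
    have : e ∈ tr n c.Q2 := by rwa [tr_eq_image]
    exact (if_pos ((tr_sub hG n).2 hc.q2 this).1).symm
  have pt : ψ ≠ ⊤ := by
    obtain ⟨S, hS⟩ := hex
    exact ne_top_of_le_ne_top (ENNReal.mul_ne_top (ENNReal.natCast_ne_top _) hχ)
      ((l S hS).trans (rec2_up c.toCf h0 h1 S))
  have key : ENNReal.ofReal (c.I.card * c₀ / 2) * ψ ≤ c.D * ψ := by
    nth_rewrite 2 [hψ]
    rw [ENNReal.mul_iInf fun h => absurd h (ENNReal.natCast_ne_top _)]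
    refine le_iInf fun ⟨S, hS⟩ => ?_
    obtain ⟨J, hJ⟩ : ∃ J, J = c.I.filter fun f => c.en Γ p f S ≤ 2 * E := ⟨_, rfl⟩
    have hf := rec2_half c.I (fun f => c.en Γ p f S) (fun f => Finset.sum_nonneg fun _ _ =>
      Finset.sum_nonneg fun _ _ => Real.sqrt_nonneg _) hE hS.2.2
    rw [← hJ] at hf
    have JI : ∀ f ∈ J, f ∈ c.I ∧ c.en Γ p f S ≤ 2 * E := fun f hf => by
      rwa [hJ, Finset.mem_filter] at hf
    have hm : ∀ f, ∃ m ∈ c.N, f ∈ J → ENNReal.ofReal c₀ * ψ ≤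
        ∑' y, ii (y ∈ sh (m * c.s m f) c.B) * ⨆ F' : Finset (Sym2 V),
          ENNReal.ofReal (Pr F' (wU p Γ.edgeSet) (c.toCf.ev Γ S y)) := fun f => by
      by_cases hf : f ∈ J
      · obtain ⟨S', hS', n₀, hn₀, hg, F, hF⟩ := h S hS f (JI f hf).1 (JI f hf).2
        refine ⟨n₀, hS.1 _ (hS' hn₀), fun _ => le_trans ?_ ((rec_one2 hG c hc h0.le h1 (JI f hf).1
          (fun n hn => hS.1 n (hS' hn)) hg F l).trans (ENNReal.tsum_le_tsum fun y =>
            mul_le_mul_right (iSup_mono fun F' => ENNReal.ofReal_le_ofReal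
              (Pr_mono (wU_ok h0.le h1 _) fun ω _ ⟨n, hn, h⟩ => ⟨n, hS' hn, h⟩)) _))⟩
        gcongr
      · exact ⟨1, one_mem _, fun h => (hf h).elim⟩
    choose m hm hm' using hm
    calc ENNReal.ofReal (c.I.card * c₀ / 2) * ψ ≤ ENNReal.ofReal (J.card * c₀) * ψ := by
          gcongr
          nlinarith
      _ = ∑ _f ∈ J, ENNReal.ofReal c₀ * ψ := by
          rw [Finset.sum_const, nsmul_eq_mul, ENNReal.ofReal_mul (Nat.cast_nonneg _),
            ENNReal.ofReal_natCast, mul_assoc]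
      _ ≤ _ := Finset.sum_le_sum hm'
      _ ≤ c.D * c.toCf.psi Γ p S := by
          rw [← Summable.tsum_finsetSum fun _ _ => ENNReal.summable, Cf.psi,
            ← ENNReal.tsum_mul_left]
          refine ENNReal.tsum_le_tsum fun y => ?_
          rw [← Finset.sum_mul, ← mul_assoc]
          refine mul_le_mul_left ?_ _
          by_cases hy : y ∈ c.B
          · rw [ii_true hy, mul_one]
            refine (Finset.sum_le_sum_of_subset fun f hf => (JI f hf).1).trans ?_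
            simp only [ii, Finset.sum_boole]
            exact_mod_cast hc.ov m (fun f _ => hm f) y
          · rw [Finset.sum_eq_zero fun f hf => ii_false fun h => hy ?_]
            · exact zero_le
            rw [sh_mul] at h
            exact (hc.invB _ (inv_mem (hm f)) y).1
              (hc.subB _ (hc.perm _ (hm f) f (JI f hf).1).1 h)
  have h3 := (ENNReal.mul_le_mul_iff_left p0 pt).1 key
  rw [← ENNReal.ofReal_natCast, ENNReal.ofReal_le_ofReal_iff (Nat.cast_nonneg _)] at h3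
  linarith

end Vale.Agent.P165
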