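import Vale.Agent.P165.GoodT
import Vale.Agent.P165.PZT
import Vale.Agent.P165.Rec2T

open Classical
open scoped ENNReal

namespace Vale.Agent.P165

open Vale.Agent.P151

universe u

variable {V : Type*} {α : Type*} [DecidableEq α]
variable {Γ : SimpleGraph V} {G : Type u} [Group G] [MulAction G V]

theorem KeyAT_num {x y W J M P T μ c₁ lam s R : ℝ} (hx : 0 < x) (hx1 : x ≤ 1) (hy : 0 ≤ y)
    (hW : 0 < W) (hJ : 1 ≤ J) (hM : 0 < M) (hP : 0 ≤ P) (hl : 1 ≤ lam) (hμ : μ ≤ c₁ * W)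
    (hT : T ≤ W ^ 2) (hs : M ≤ s * R)
    (h : (s * y * (x * W / (16 * J * M))) ^ 2 ≤
      P * (T + W ^ 2 + 3 * (W / M) * (2 * (48 * μ * lam * J * M / x)))) :
    (x * y) ^ 2 * x ≤ P * (256 * R ^ 2 * (2 + 288 * c₁) * lam * J ^ 3) := by
  have hJ0 : 0 < J := by linarith
  have hl0 : 0 < lam := by linarith
  have hr : 1 ≤ lam * J / x := by
    rw [le_div_iff₀ hx]
    nlinarith
  have e1 : 3 * (W / M) * (2 * (48 * μ * lam * J * M / x)) = 288 * W * (lam * J / x) * μ := by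
    field_simp
    ring
  have e2 : W ^ 2 * ((x * y) ^ 2 / (256 * J ^ 2)) = (M * (y * (x * W / (16 * J * M)))) ^ 2 := by
    field_simp
    ring
  have e3 : T + W ^ 2 + 288 * W * (lam * J / x) * μ ≤
      W ^ 2 * ((2 + 288 * c₁) * (lam * J / x)) := by
    have a2 := mul_le_mul_of_nonneg_left hμ (by positivity : 0 ≤ 288 * W * (lam * J / x))
    have a3 := mul_le_mul_of_nonneg_left hr (by positivity : 0 ≤ 2 * W ^ 2)
    nlinarith
  rw [e1] at h
  have h2 := mul_le_mul_of_nonneg_left (h.trans (mul_le_mul_of_nonneg_left e3 hP)) (sq_nonneg R)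
  have h3 : (M * (y * (x * W / (16 * J * M)))) ^ 2 ≤ (s * R * (y * (x * W / (16 * J * M)))) ^ 2 := by
    gcongr
  have h4 : W ^ 2 * ((x * y) ^ 2 / (256 * J ^ 2)) ≤
      W ^ 2 * (R ^ 2 * P * ((2 + 288 * c₁) * (lam * J / x))) := by
    rw [e2]
    refine h3.trans (Eq.trans_le (by ring) (h2.trans_eq (by ring)))
  have h5 := le_of_mul_le_mul_left h4 (by positivity)
  rw [div_le_iff₀ (by positivity)] at h5
  refine (mul_le_mul_of_nonneg_right h5 hx.le).trans_eq ?_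
  field_simp

theorem key_abs2 (hG : Geom Γ G) (c : Cg V G) (hc : c.Fine Γ) {p₀ p : ℝ} (hp₀ : 0 < p₀)
    (h0 : p₀ ≤ p) (h1 : p ≤ 1) (hχ : chi Γ p ≠ ⊤) {W μ m₂ c₁ : ℝ} (hW0 : 0 < W) (hμ0 : 0 < μ)
    (hW : ∑' n : c.N, tau (wU p (inE Γ c.A)) c.w ((n : G) • c.w') = ENNReal.ofReal W)
    (hμ : ∑' n : c.C, tau (wU p (inE Γ c.A)) c.w ((n : G) • c.w) ≤ ENNReal.ofReal μ)
    (hμ' : ∑' n : c.N, tau (wU p (inE Γ c.A)) c.w' ((n : G) • c.w') ≤ ENNReal.ofReal μ)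
    (hm : ∀ (F : Finset (Sym2 V)) (T : Finset G), (∀ n ∈ T, n ∈ c.N) →
      ∑ a ∈ T, ∑ b ∈ T, Pr F (wU p (inE Γ c.A))
        (fun ω => Conn ω c.w (a • c.w') ∧ Conn ω c.w (b • c.w')) ≤ m₂)
    {a b J : ℕ} (hb : c.Q1.card + c.Q2.card ≤ b)
    (hI : ∀ f ∈ c.I, (c.Pa f).card ≤ a ∧ (c.Pb f).card ≤ b)
    (hJ0 : 1 ≤ J) (hJ : 4 * m₂ ≤ p₀ ^ b * W * 2 ^ J) (hc₁ : μ ≤ c₁ * W)
    (ha : 2 * (a : ℝ) ^ 2 * c.I.card ≤ p₀ ^ a * W) :
    Real.sqrt c.I.card ≤
      512 * c.D * (c.R.card : ℝ) ^ 2 * (2 + 288 * c₁) / p₀ ^ (5 * b) * (J : ℝ) ^ 3 := by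
  have hp : 0 < p := hp₀.trans_le h0
  have hpow : ∀ {k l : ℕ}, k ≤ l → p₀ ^ l ≤ p ^ k := fun h =>
    (pow_le_pow_left₀ hp₀.le h0 _).trans (pow_le_pow_of_le_one hp.le h1 h)
  have hc0 : 0 < c₁ := (pos_iff_pos_of_mul_pos (hμ0.trans_le hc₁)).mpr hW0
  have hJ1 : (1 : ℝ) ≤ J := by exact_mod_cast hJ0
  rcases Nat.eq_zero_or_pos c.I.card with hI0 | hI0
  · rw [hI0, Nat.cast_zero, Real.sqrt_zero]
    positivity
  have hl1 : 1 ≤ Real.sqrt c.I.card := Real.one_le_sqrt.2 (by exact_mod_cast hI0)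
  have hl2 : Real.sqrt c.I.card ^ 2 = c.I.card := Real.sq_sqrt (by positivity)
  generalize Real.sqrt c.I.card = lam at hl1 hl2
  have hl0 : 0 < lam := by linarith
  obtain ⟨γ₁, hγ₁, -⟩ := hc.cos 1 (one_mem _)
  have hR : (0 : ℝ) < c.R.card := by exact_mod_cast Finset.card_pos.2 ⟨γ₁, hγ₁⟩
  obtain ⟨M, hM, F, hF⟩ := good_prob2 hG c hc hp h1 hW0 hμ0 hl0 hl2.ge hW hμ hμ' hm hJ0
    (hJ.trans (by
      gcongr
      exact hpow (by omega)))
  have hM1 : (0 : ℝ) < M := by exact_mod_cast hM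
  have hex : ∃ S, c.good Γ p M (48 * μ * lam * J * M / p ^ c.Q1.card) S := by
    by_contra hn
    have := Pr_le_sum (F := F) (wU_ok hp.le h1 Γ.edgeSet) (∅ : Finset Unit) (B := fun _ _ => True)
      (A := c.Gd Γ p M (48 * μ * lam * J * M / p ^ c.Q1.card) 1)
      fun ω _ h => (hn ⟨_, h.choose_spec.1⟩).elim
    rw [Finset.sum_empty] at this
    exact absurd (hF.trans this) (not_le.mpr (by positivity))
  have key := rec_main2 hG c hc hp h1 hχ hM (by positivity) hex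
    (c₀ := p₀ ^ (5 * b) / (256 * (c.R.card : ℝ) ^ 2 * (2 + 288 * c₁) * lam * J ^ 3))
    fun S hS f hf hE => by
      have h2 : ∀ n, ∃ γ ∈ c.R, n ∈ S → γ⁻¹ * (f⁻¹ * n * c.s n f) ∈ c.N := fun n => by
        by_cases hn : n ∈ S
        · obtain ⟨γ, h3, h4⟩ := hc.cos _ (hc.perm n (hS.1 n hn) f hf).2
          exact ⟨γ, h3, fun _ => h4⟩
        · exact ⟨γ₁, hγ₁, fun h => (hn h).elim⟩
      choose γ hγ hγ' using h2
      obtain ⟨γ₀, -, hmax⟩ := c.R.exists_max_image (fun t => (S.filter fun n => γ n = t).card)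
        ⟨γ₁, hγ₁⟩
      have h3 : M ≤ (S.filter fun n => γ n = γ₀).card * c.R.card := by
        rw [← hS.2.1, Finset.card_eq_sum_card_fiberwise (f := γ) (t := c.R) fun n _ => hγ n,
          mul_comm]
        exact Finset.sum_le_card_nsmul _ _ _ hmax
      have hsub := Finset.filter_subset (fun n => γ n = γ₀) S
      obtain ⟨n₀, hn₀⟩ := Finset.card_pos.1 (Nat.pos_of_mul_pos_right (hM.trans h3))
      have h4 : ∀ n ∈ S.filter fun n => γ n = γ₀,
          (n₀ * c.s n₀ f)⁻¹ * (n * c.s n f) ∈ c.N := fun n hn => by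
        have := mul_mem (inv_mem (hγ' n₀ (hsub hn₀))) (hγ' n (hsub hn))
        rw [(Finset.mem_filter.1 hn).2, (Finset.mem_filter.1 hn₀).2] at this
        simpa [mul_assoc] using this
      obtain ⟨F', hF'⟩ := pz2 hG c hc hp h1 hW0.le (by positivity) hW.le hM ⟨F, hF⟩ hI hf
        (fun n hn => hS.1 n (hsub hn)) ((Finset.card_le_card hsub).trans hS.2.1.le) h4
        (le_trans ((Finset.sum_le_sum fun _ _ => Finset.sum_le_sum_of_subset_of_nonneg hsub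
          fun _ _ _ => Real.sqrt_nonneg _).trans (Finset.sum_le_sum_of_subset_of_nonneg hsub
            fun _ _ _ => Finset.sum_nonneg fun _ _ => Real.sqrt_nonneg _)) hE)
      refine ⟨_, hsub, n₀, hn₀, h4, F', ?_⟩
      rw [div_le_iff₀ (by positivity)]
      refine le_trans ?_ (KeyAT_num (by positivity) (pow_le_one₀ hp.le h1) (by positivity) hW0 hJ1
        hM1 (Pr_nonneg (wU_ok hp.le h1 _) _) hl1 hc₁ ?_ (by exact_mod_cast h3) hF')
      · rw [← pow_add, ← pow_mul, ← pow_add]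
        exact hpow (by omega)
      · rw [div_le_iff₀ (by positivity)]
        have := mul_le_mul_of_nonneg_right
          (ha.trans (mul_le_mul_of_nonneg_right (hpow le_rfl) hW0.le)) hW0.le
        linarith
  rw [← mul_div_assoc, div_le_iff₀ (by positivity), ← hl2] at key
  rw [div_mul_eq_mul_div, le_div_iff₀ (by positivity)]
  refine le_of_mul_le_mul_left ?_ hl0
  linarith

end Vale.Agent.P165
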