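import Vale.Agent.P165.LowGT
import Vale.Agent.P165.LowQ

open Classical
open scoped ENNReal

namespace Vale.Agent.P165

open Vale.Agent.P151

universe u

variable {V : Type*} {α : Type*} [DecidableEq α]
variable {Γ : SimpleGraph V} {G : Type u} [Group G] [MulAction G V]
variable {ρ : G →* Equiv.Perm (FreeGroup α)} {π : V → FreeGroup α}

lemma LowQT_base [Finite α] [Nontrivial α] (hs : Tj Γ ρ π) {p₀ : ℝ} (hp₀ : 0 < p₀) {D₀ : ℕ}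
    (hH : HarP Γ π p₀ D₀) (d₁ d₂ : ℕ) : ∃ C : ℝ≥0∞, C ≠ ⊤ ∧ ∀ p, p₀ ≤ p → p ≤ 1 →
      Low2 π (tR Γ π p) d₁ d₂ (C * mm π (tR Γ π p) D₀) := by
  obtain ⟨D, A, hA, h⟩ := hs.low_gen hp₀ d₁ d₂
  obtain ⟨C, hC, h'⟩ := hH D
  refine ⟨A * C, ENNReal.mul_ne_top hA hC, fun p h0 h1 => LowQ_mono (h p h0 h1) le_rfl ?_⟩
  rw [mul_assoc]
  exact mul_le_mul_right (h' p h0 h1) _

theorem Tj.ker2 [Finite α] [Nontrivial α] (hs : Tj Γ ρ π) {p₀ : ℝ} (hp₀ : 0 < p₀) {D₀ : ℕ}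
    (hH : HarP Γ π p₀ D₀) (L₀ : ℕ) :
    ∃ (L Δ : ℕ) (C : ℕ → ℝ≥0∞), L₀ ≤ L ∧ (∀ d, C d ≠ ⊤) ∧ ∀ p, p₀ ≤ p → p ≤ 1 → chi Γ p ≠ ⊤ →
      Ker Γ π (tR Γ π p) L Δ (fun d => C d * mm π (tR Γ π p) D₀) := by
  obtain ⟨L, hL⟩ := hs.lip
  obtain ⟨Δ, hΔ⟩ := exists_deg hs.geom
  choose C hC hlow using fun d => LowQT_base hs hp₀ hH d d
  refine ⟨max L₀ L, Δ, C, le_max_left _ _, hC, fun p h0 h1 hc => ?_⟩
  have h2 : 0 ≤ p := hp₀.le.trans h0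
  refine ⟨fun a b hab => (hL a b hab).trans (le_max_right _ _), deg_tsum hΔ,
    fun R R' x y h => ?_, KerP_supp π p, fun R x => (tau_self _ x).ge,
    tR_up π h2 h1, fun d => hlow d p h0 h1, ?_⟩
  · exact tau_mono_wU h2 le_rfl h1 (inE_mono (Set.preimage_mono h)) x y
  · simpa only [tR, Set.preimage_univ, inE_univ, chi] using hc

theorem Tj.low_q [Finite α] [Nontrivial α] (hs : Tj Γ ρ π) {p₀ : ℝ} (hp₀ : 0 < p₀) {D₀ : ℕ}
    (hH : HarP Γ π p₀ D₀) (d₁ : ℕ) :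
    ∃ A : ℝ≥0∞, 1 ≤ A ∧ A ≠ ⊤ ∧ ∀ p, p₀ ≤ p → p ≤ 1 → ∀ d,
      Low2 π (tR Γ π p) d₁ d (A ^ (d + 1) * mm π (tR Γ π p) D₀) := by
  obtain ⟨r, n, hwalk⟩ := hs.walk
  obtain ⟨C, hC, hlow⟩ := LowQT_base hs hp₀ hH d₁ (2 * r + 1)
  set b : ℝ≥0∞ := ENNReal.ofReal (p₀ ^ n) with hb
  have b0 : b ≠ 0 := (ENNReal.ofReal_pos.2 (pow_pos hp₀ n)).ne'
  have bt : b ≠ ⊤ := ENNReal.ofReal_ne_top
  set A : ℝ≥0∞ := max 1 (max C b⁻¹) with hA
  have A1 : 1 ≤ A := le_max_left _ _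
  have AC : C ≤ A := (le_max_left _ _).trans (le_max_right _ _)
  have Ab : b⁻¹ ≤ A := (le_max_right _ _).trans (le_max_right _ _)
  have At : A ≠ ⊤ := max_ne_top ENNReal.one_ne_top (max_ne_top hC (ENNReal.inv_ne_top.2 b0))
  refine ⟨A, A1, At, fun p h0 h1 d => ?_⟩
  have h2 : 0 ≤ p := hp₀.le.trans h0
  intro s u r' u' x x' R k1 k2 k3 k4 k5
  by_cases hx : dd (π x') u' ≤ 2 * r + 1
  · exact (hlow p h0 h1 s u r' u' x x' R k1 k2 k3 hx k5).trans (mul_le_mul_left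
      (mul_le_mul_left (AC.trans (le_self_pow A1 (Nat.succ_ne_zero d))) _) _)
  obtain ⟨t, ht, hu⟩ := exists_pre (π x') u' (j := dd (π x') u' - (r + 1)) (by omega)
  rw [geo_mem] at hu
  obtain ⟨z, P, hz, hP, hn, hc⟩ := hwalk x' t
  have out : ∀ v s', t ∈ cone (π x') s' → dd s' v ≤ r → v ∉ cone r' u' := by
    intro v s' hs' hv hm
    have e1 := cone_cut k5 hm
    have e2 := dd_tri (π x') s' v
    rw [geo_mem] at hs'
    omega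
  have hP' : (P : Set (Sym2 V)) ⊆ inE Γ (π ⁻¹' (cone r' u')ᶜ) :=
    hP.trans (inE_mono (Set.preimage_mono fun v ⟨s', a1, a2⟩ => out v s' a1 a2))
  have hn' : P.card ≤ n * d := hn.trans (Nat.mul_le_mul_left n (by omega))
  have hy : ∀ y, tR Γ π p (cone r' u')ᶜ x' y ≤ A ^ d * tR Γ π p (cone r' u')ᶜ z y := by
    intro y
    have e1 := tau_harris h2 h1 hP' hc y
    have e2 : b ^ d ≤ ENNReal.ofReal (p ^ P.card) := by
      rw [hb, ← ENNReal.ofReal_pow (pow_pos hp₀ n).le, ← pow_mul]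
      exact ENNReal.ofReal_le_ofReal
        ((pow_le_pow_left₀ hp₀.le h0 _).trans (pow_le_pow_of_le_one h2 h1 hn'))
    have e3 : b ^ d * tR Γ π p (cone r' u')ᶜ x' y ≤ tR Γ π p (cone r' u')ᶜ z y :=
      (mul_le_mul_left e2 _).trans e1
    calc tR Γ π p (cone r' u')ᶜ x' y = b⁻¹ ^ d * (b ^ d * tR Γ π p (cone r' u')ᶜ x' y) := by
          rw [← mul_assoc, ← mul_pow, ENNReal.inv_mul_cancel b0 bt, one_pow, one_mul]
      _ ≤ A ^ d * tR Γ π p (cone r' u')ᶜ z y := mul_le_mul' (pow_le_pow_left' Ab d) e3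
  have hsum : ∑' y, tR Γ π p (cone r' u')ᶜ x' y ≤ A ^ d * ∑' y, tR Γ π p (cone r' u')ᶜ z y := by
    rw [← ENNReal.tsum_mul_left]
    exact ENNReal.tsum_le_tsum hy
  have e := hlow p h0 h1 s u r' u' x z R k1 k2 k3 (by have := dd_tri (π z) t u'; omega)
    (out _ t (self_mem_cone _ _) (by rw [dd_comm]; exact hz))
  refine (mul_le_mul_right hsum _).trans ?_
  rw [mul_left_comm, pow_succ A d, mul_assoc (A ^ d), mul_assoc (A ^ d)]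
  exact mul_le_mul_right (e.trans (mul_le_mul_left (mul_le_mul_left AC _) _)) _

end Vale.Agent.P165
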