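import Vale.Agent.P165.KeyAT
import Vale.Agent.P165.Num
import Vale.Agent.P165.Cfg3
import Vale.Agent.P165.M2cT
import Vale.Agent.P165.Key

open Classical
open scoped ENNReal

namespace Vale.Agent.P165

open Vale.Agent.P151

universe u

variable {V : Type*} {α : Type*} [DecidableEq α]
variable {Γ : SimpleGraph V} {G : Type u} [Group G] [MulAction G V]
variable {ρ : G →* Equiv.Perm (FreeGroup α)} {π : V → FreeGroup α}

lemma KeyT_one [Finite α] [Nontrivial α] (hs : Tj Γ ρ π) {p₀ : ℝ} (hp₀ : 0 < p₀) (hp₁ : p₀ ≤ 1)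
    {D₀ : ℕ} (hH : HarP Γ π p₀ D₀) {q u : FreeGroup α} {w : V} (hq : dd q u = 1) :
    ∃ l : List (FreeGroup α), ∀ (c₁ : ℕ) (w' : V), π w ∈ half q u → dd (π w) u ≤ D₀ →
    dd (π w') u ≤ D₀ → ∃ B : ℝ, ∀ p, p₀ ≤ p → p ≤ 1 → chi Γ p ≠ ⊤ →
      mm π (tR Γ π p) D₀ ≤
        c₁ * ∑' n : fx ρ (u :: q :: l), tR Γ π p (half q u) w ((n : G) • w') →
      (mm π (tR Γ π p) D₀).toReal ≤ B := by
  obtain ⟨C, s, hC⟩ := hs.m2c hp₀ hH
  obtain ⟨l, hl⟩ := hs.cfg hq w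
  refine ⟨l, fun c₁ w' hw0 hw hw' => ?_⟩
  obtain ⟨n, b, Dg, hDg, hcf⟩ := hl w'
  have hDg' : (1 : ℝ) ≤ Dg := by exact_mod_cast hDg
  have hc0 : (0 : ℝ) ≤ c₁ := Nat.cast_nonneg _
  have t1 : 0 ≤ 4 * |C| * c₁ / p₀ ^ b := by positivity
  have t2 : (0 : ℝ) ≤ 2 * c₁ := by positivity
  have t3 : 0 ≤ 512 * b * (b : ℝ) ^ 2 * (2 + 288 * (c₁ : ℝ)) / p₀ ^ (5 * b) := by positivity
  obtain ⟨B, hB⟩ := num_choice (δ := p₀ / Dg) (by positivity)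
    ((div_le_one (by linarith)).2 (hp₁.trans hDg'))
    (4 * |C| * c₁ / p₀ ^ b + 2 * c₁ +
      512 * b * (b : ℝ) ^ 2 * (2 + 288 * (c₁ : ℝ)) / p₀ ^ (5 * b)) n s
  refine ⟨B, fun p h0 h1 hχ hle => ?_⟩
  by_contra hlt
  have hp : 0 ≤ p := hp₀.le.trans h0
  have hfin : mm π (tR Γ π p) D₀ ≠ ⊤ := ne_top_of_le_ne_top hχ (mm_le_chi π Γ hp h1 D₀)
  set m := (mm π (tR Γ π p) D₀).toReal with hm
  have hmm : mm π (tR Γ π p) D₀ = ENNReal.ofReal m := (ENNReal.ofReal_toReal hfin).symm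
  have hm1 : 1 ≤ m := by
    have := ENNReal.toReal_mono hfin (one_le_mm w π Γ p D₀)
    simpa using this
  have hNu : ∀ n ∈ fx ρ (u :: q :: l), ρ n u = u := fun n hn => hn u (by simp)
  have hS := hs.orb_le_mm p hq hNu hw hw'
  have hSf : ∑' n : fx ρ (u :: q :: l), tR Γ π p (half q u) w ((n : G) • w') ≠ ⊤ :=
    ne_top_of_le_ne_top hfin hS
  set W := (∑' n : fx ρ (u :: q :: l), tR Γ π p (half q u) w ((n : G) • w')).toReal with hWd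
  have hWW : ∑' n : fx ρ (u :: q :: l), tR Γ π p (half q u) w ((n : G) • w') = ENNReal.ofReal W :=
    (ENNReal.ofReal_toReal hSf).symm
  have hmW : m ≤ c₁ * W := by
    have := ENNReal.toReal_mono (ENNReal.mul_ne_top (by simp) hSf) hle
    simpa [ENNReal.toReal_mul] using this
  have hW0' : 0 ≤ W := ENNReal.toReal_nonneg
  have hc1 : (0 : ℝ) < c₁ := by
    rcases hc0.eq_or_lt with h | h
    · rw [← h] at hmW; linarith
    · exact h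
  have hW0 : 0 < W := by
    rcases hW0'.eq_or_lt with h | h
    · rw [← h] at hmW; linarith
    · exact h
  obtain ⟨J, k, hJ0, k1, k2, k3⟩ := hB m (le_of_not_ge hlt)
  obtain ⟨c, hc, e1, eC, e2, e3, e4, hI, hI', hD, hR, hb, hP⟩ := hcf k
  have hpb : 0 < p₀ ^ b := by positivity
  have hms : 0 ≤ m ^ s := by positivity
  have key := key_abs2 hs.geom c hc hp₀ h0 h1 hχ (W := W) (μ := m) (m₂ := |C| * m ^ s) (c₁ := c₁)
    hW0 (by linarith) (by rw [e1, e2, e3, e4]; exact hWW)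
    (by rw [e2, e3, ← hmm]; exact hs.orb_le_mm p hq eC hw hw)
    (by rw [e1, e2, e4, ← hmm]; exact hs.orb_le_mm p hq hNu hw' hw')
    (by
      rw [e1, e2, e3, e4]
      intro F T hT
      exact (hC p h0 h1 hχ q u w w' hq hw0 hw hw' F T fun n hn => hNu n (hT n hn)).trans
        (mul_le_mul_of_nonneg_right (le_abs_self C) hms))
    (a := n * (k + 1)) (b := b) (J := J) hb hP hJ0 ?_ hmW ?_
  · have h2 : ((2 : ℝ)) ^ k ≤ Real.sqrt c.I.card := by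
      refine Real.le_sqrt_of_sq_le ?_
      rw [← pow_mul, mul_comm, pow_mul]
      norm_num
      exact_mod_cast hI
    have h3 : (0 : ℝ) ≤ (J : ℝ) ^ 3 := by positivity
    have hD' : (c.D : ℝ) ≤ b := by exact_mod_cast hD
    have hR' : (c.R.card : ℝ) ≤ b := by exact_mod_cast hR
    have h4 : 512 * c.D * (c.R.card : ℝ) ^ 2 * (2 + 288 * c₁) / p₀ ^ (5 * b) * (J : ℝ) ^ 3 ≤
        512 * b * (b : ℝ) ^ 2 * (2 + 288 * c₁) / p₀ ^ (5 * b) * (J : ℝ) ^ 3 := by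
      refine mul_le_mul_of_nonneg_right (div_le_div_of_nonneg_right
        (mul_le_mul_of_nonneg_right ?_ (by positivity)) (by positivity)) h3
      exact mul_le_mul (mul_le_mul_of_nonneg_left hD' (by norm_num))
        (pow_le_pow_left₀ (Nat.cast_nonneg _) hR' 2) (sq_nonneg _) (by positivity)
    nlinarith [mul_nonneg t1 h3, mul_nonneg t2 h3]
  · have h2 : 4 * |C| * c₁ / p₀ ^ b * m ^ s ≤ 2 ^ J := by
      nlinarith [mul_nonneg t2 hms, mul_nonneg t3 hms]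
    have h3 : 4 * |C| * c₁ * m ^ s ≤ p₀ ^ b * 2 ^ J := by
      rw [div_mul_eq_mul_div, div_le_iff₀ hpb] at h2
      linarith
    have h4 : 1 ≤ c₁ * W := hm1.trans hmW
    have h5 : 0 ≤ 4 * (|C| * m ^ s) := by positivity
    calc 4 * (|C| * m ^ s) ≤ 4 * (|C| * m ^ s) * (c₁ * W) := le_mul_of_one_le_right h5 h4
      _ = (4 * |C| * c₁ * m ^ s) * W := by ring
      _ ≤ (p₀ ^ b * 2 ^ J) * W := mul_le_mul_of_nonneg_right h3 hW0'
      _ = _ := by ring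
  · have h3 : (0 : ℝ) ≤ ((n * (k + 1) : ℕ) : ℝ) ^ 2 := by positivity
    have h2 : 2 * c₁ * ((n * (k + 1) : ℕ) : ℝ) ^ 2 ≤ (p₀ / Dg) ^ (n * (k + 1)) * m := by
      nlinarith [mul_nonneg t1 h3, mul_nonneg t3 h3]
    have hDp : (0 : ℝ) < (Dg : ℝ) ^ (n * (k + 1)) := by positivity
    rw [div_pow, div_mul_eq_mul_div, le_div_iff₀ hDp] at h2
    have h4 : p₀ ^ (n * (k + 1)) * m ≤ p₀ ^ (n * (k + 1)) * (c₁ * W) :=
      mul_le_mul_of_nonneg_left hmW (by positivity)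
    have h6 : (c.I.card : ℝ) ≤ (Dg : ℝ) ^ (n * (k + 1)) := by exact_mod_cast hI'
    have h7 : 2 * c₁ * ((n * (k + 1) : ℕ) : ℝ) ^ 2 * c.I.card ≤
        2 * c₁ * ((n * (k + 1) : ℕ) : ℝ) ^ 2 * (Dg : ℝ) ^ (n * (k + 1)) :=
      mul_le_mul_of_nonneg_left h6 (by positivity)
    have h5 : c₁ * (2 * ((n * (k + 1) : ℕ) : ℝ) ^ 2 * c.I.card) ≤
        c₁ * (p₀ ^ (n * (k + 1)) * W) := by
      linarith
    exact le_of_mul_le_mul_left h5 hc1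

theorem Tj.key [Finite α] [Nontrivial α] (hs : Tj Γ ρ π) {p₀ : ℝ} (hp₀ : 0 < p₀) {D₀ : ℕ}
    (hH : HarP Γ π p₀ D₀) : ∃ B : ℝ≥0∞, B ≠ ⊤ ∧ ∀ p, p₀ ≤ p → p ≤ 1 → chi Γ p ≠ ⊤ →
      mm π (tR Γ π p) D₀ ≤ B := by
  by_cases hp₁ : p₀ ≤ 1
  swap
  · exact ⟨0, by simp, fun p h0 h1 _ => absurd (h0.trans h1) hp₁⟩
  have hcf : ∀ (q u : FreeGroup α) (w : V), ∃ l : List (FreeGroup α), dd q u = 1 →
      ∀ (c₁ : ℕ) (w' : V), π w ∈ half q u → dd (π w) u ≤ D₀ →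
      dd (π w') u ≤ D₀ → ∃ B : ℝ, ∀ p, p₀ ≤ p → p ≤ 1 → chi Γ p ≠ ⊤ →
        mm π (tR Γ π p) D₀ ≤
          c₁ * ∑' n : fx ρ (u :: q :: l), tR Γ π p (half q u) w ((n : G) • w') →
        (mm π (tR Γ π p) D₀).toReal ≤ B := by
    intro q u w
    by_cases hq : dd q u = 1
    · obtain ⟨l, hl⟩ := KeyT_one hs hp₀ hp₁ hH (w := w) hq
      exact ⟨l, fun _ => hl⟩
    · exact ⟨[], fun h => absurd h hq⟩
  choose cf hcf using hcf
  obtain ⟨c₁, Cs, hCs, hbest⟩ := hs.best D₀ cf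
  have hall : ∀ c : (FreeGroup α × FreeGroup α) × V × V, ∃ B : ℝ, c ∈ Cs → ∀ p, p₀ ≤ p → p ≤ 1 →
      chi Γ p ≠ ⊤ → mm π (tR Γ π p) D₀ ≤
        c₁ * ∑' n : fx ρ (c.1.2 :: c.1.1 :: cf c.1.1 c.1.2 c.2.1),
          tR Γ π p (half c.1.1 c.1.2) c.2.1 ((n : G) • c.2.2) →
      (mm π (tR Γ π p) D₀).toReal ≤ B := by
    intro c
    by_cases hc : c ∈ Cs
    · obtain ⟨a1, a2, a3, a4⟩ := hCs c hc
      obtain ⟨B, hB⟩ := hcf _ _ _ a1 c₁ _ a2 a3 a4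
      exact ⟨B, fun _ => hB⟩
    · exact ⟨0, fun h => absurd h hc⟩
  choose B hB using hall
  refine ⟨c₁ + ∑ c ∈ Cs, ENNReal.ofReal (B c), ?_, fun p h0 h1 hχ => ?_⟩
  · exact ENNReal.add_ne_top.2 ⟨by simp, ENNReal.sum_ne_top.2 fun _ _ => ENNReal.ofReal_ne_top⟩
  · have hp : 0 ≤ p := hp₀.le.trans h0
    rcases hbest p hp h1 with h | ⟨c, hc, h⟩
    · exact h.trans le_self_add
    · have hfin : mm π (tR Γ π p) D₀ ≠ ⊤ := ne_top_of_le_ne_top hχ (mm_le_chi π Γ hp h1 D₀)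
      have h2 := ENNReal.ofReal_le_ofReal (hB c hc p h0 h1 hχ h)
      rw [ENNReal.ofReal_toReal hfin] at h2
      exact h2.trans ((Finset.single_le_sum (f := fun c => ENNReal.ofReal (B c))
        (fun _ _ => zero_le) hc).trans le_add_self)

end Vale.Agent.P165
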