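import Vale.Agent.P165.Dec

open Classical
open scoped ENNReal

namespace Vale.Agent.P165

open Vale.Agent.P151

universe u

variable {V : Type*} {α : Type*} [DecidableEq α]

section

variable {Γ : SimpleGraph V} {π : V → FreeGroup α} {τ : Set (FreeGroup α) → V → V → ℝ≥0∞}
  {L Δ : ℕ} {K : ℕ → ℝ≥0∞}

lemma loops_exit (h : Ker Γ π τ L Δ K) (x : V) (n : ℕ) :
    ∑' a, ∑' b, ii (Γ.Adj a b ∧ dd (π x) (π a) ≤ n ∧ ¬ dd (π x) (π b) ≤ n) *
      τ {v | dd (π x) v ≤ n} x a ≤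
      Δ * ∑' v, ii (v ∈ cone (π x) (π x) ∧ dd (π x) v = n + 1) * ee π τ L x v := by
  have key : ∀ a b, ii (Γ.Adj a b ∧ dd (π x) (π a) ≤ n ∧ ¬ dd (π x) (π b) ≤ n) *
      τ {v | dd (π x) v ≤ n} x a ≤ ii (Γ.Adj a b) *
        ∑' v, ii (v ∈ cone (π x) (π x) ∧ dd (π x) v = n + 1) *
          (ii (dd (π a) v ≤ L) * τ (cone (π x) v)ᶜ x a) := by
    intro a b
    by_cases hab : Γ.Adj a b ∧ dd (π x) (π a) ≤ n ∧ ¬ dd (π x) (π b) ≤ n
    · obtain ⟨v, hv, hb⟩ := exists_pre (π x) (π b) (j := n + 1) (by omega)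
      have hR : {w | dd (π x) w ≤ n} ⊆ (cone (π x) v)ᶜ := by
        intro w hw hw'
        have e1 : dd (π x) w ≤ n := hw
        have e2 : dd (π x) w = dd (π x) v + dd v w := hw'
        omega
      have e := cone_cut (hR hab.2.1) hb
      have e' := h.lip a b hab.1
      rw [ii_true hab, ii_true hab.1, one_mul, one_mul]
      refine le_trans ?_ (ENNReal.le_tsum v)
      rw [ii_true ⟨by rw [cone_self]; trivial, hv⟩, ii_true (by omega), one_mul, one_mul]
      exact h.mono _ _ _ _ hR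
    · rw [ii_false hab, zero_mul]
      exact zero_le
  refine (ENNReal.tsum_le_tsum fun a => ENNReal.tsum_le_tsum fun b => key a b).trans ?_
  simp only [ENNReal.tsum_mul_right]
  refine (ENNReal.tsum_le_tsum fun a => mul_le_mul_left (h.deg a) _).trans ?_
  rw [ENNReal.tsum_mul_left, ENNReal.tsum_comm]
  simp only [ENNReal.tsum_mul_left, ee, le_refl]

lemma loops_back (h : Ker Γ π τ L Δ K) {C σ M : ℝ≥0∞} {B : ℕ} (hσ : σ ≤ 1)
    (hB : ∀ r : FreeGroup α, ∑' v, ii (dd r v ≤ L) ≤ B)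
    (hC : ∀ x u, π x ≠ u → ee π τ L x u ≤ C * σ ^ dd (π x) u)
    (hM : ∀ x, ∑' y, ii (dd (π x) (π y) ≤ L) * τ Set.univ x y ≤ M) (r : FreeGroup α) (m : ℕ)
    {b : V} (hb : ¬ dd r (π b) ≤ m + L) :
    ∑' y, ii (dd r (π y) ≤ L) * τ Set.univ b y ≤ B * (Δ * (C * σ ^ m) * M) := by
  have k1 : ∀ y, ii (dd r (π y) ≤ L) * τ Set.univ b y ≤
      ∑' v, ii (dd r v ≤ L) * (ii (π y = v) * τ Set.univ b y) := fun y => by
    refine le_trans ?_ (ENNReal.le_tsum (π y))
    rw [ii_true (rfl : π y = π y), one_mul]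
  have k2 : ∀ v, ii (dd r v ≤ L) * ∑' y, ii (π y = v) * τ Set.univ b y ≤
      ii (dd r v ≤ L) * (Δ * (C * σ ^ m) * M) := fun v => by
    by_cases hv : dd r v ≤ L
    · have e := dd_tri r v (π b)
      have e' := dd_comm v (π b)
      have hne : π b ≠ v := by
        rintro rfl
        omega
      have hc := h.cross hne (Set.subset_univ _) (fun y => ii (π y = v)) (M := M) (by
        intro c _ _ hc
        refine le_trans (ENNReal.tsum_le_tsum fun y => mul_le_mul_left (ii_mono ?_) _) (hM c)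
        rintro rfl
        rwa [dd_comm])
      have h0 : ∑' y, ii (π y = v) * τ (cone (π b) v)ᶜ b y = 0 := by
        refine ENNReal.tsum_eq_zero.2 fun y => ?_
        by_cases hy : π y = v
        · rw [h.supp _ _ _ (root_not_mem_cone hne) (by
            rw [hy]; exact fun k => k (self_mem_cone _ _)), mul_zero]
        · rw [ii_false hy, zero_mul]
      rw [h0, zero_add] at hc
      refine mul_le_mul_right (hc.trans ?_) _
      refine mul_le_mul_left (mul_le_mul_right ((hC _ _ hne).trans ?_) _) _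
      exact mul_le_mul_right (pow_le_pow_of_le_one zero_le hσ (by omega)) _
    · rw [ii_false hv, zero_mul, zero_mul]
  refine (ENNReal.tsum_le_tsum k1).trans ?_
  rw [ENNReal.tsum_comm]
  simp only [ENNReal.tsum_mul_left]
  refine (ENNReal.tsum_le_tsum k2).trans ?_
  rw [ENNReal.tsum_mul_right]
  exact mul_le_mul_left (hB r) _

lemma loops_up (h : Ker Γ π τ L Δ K) (x : V) (n : ℕ) (f : V → ℝ≥0∞) {M : ℝ≥0∞}
    (hM : ∀ b, ¬ dd (π x) (π b) ≤ n → ∑' y, f y * τ Set.univ b y ≤ M) :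
    ∑' y, f y * τ Set.univ x y ≤ ∑' y, f y * τ {v | dd (π x) v ≤ n} x y +
      (∑' a, ∑' b, ii (Γ.Adj a b ∧ dd (π x) (π a) ≤ n ∧ ¬ dd (π x) (π b) ≤ n) *
        τ {v | dd (π x) v ≤ n} x a) * M := by
  have hx : π x ∈ {v | dd (π x) v ≤ n} := by
    show dd (π x) (π x) ≤ n
    rw [dd_self]
    omega
  refine (ENNReal.tsum_le_tsum fun y =>
    mul_le_mul_right (h.up _ _ x y (Set.subset_univ _) hx) (f y)).trans ?_
  simp only [mul_add, ENNReal.tsum_add]
  refine add_le_add_right ?_ _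
  simp only [← ENNReal.tsum_mul_left, ← ENNReal.tsum_mul_right]
  rw [ENNReal.tsum_comm]
  refine ENNReal.tsum_le_tsum fun a => ?_
  rw [ENNReal.tsum_comm]
  refine ENNReal.tsum_le_tsum fun b => ?_
  by_cases hab : Γ.Adj a b ∧ dd (π x) (π a) ≤ n ∧ ¬ dd (π x) (π b) ≤ n
  · rw [ii_true hab, one_mul]
    refine le_trans (ENNReal.tsum_le_tsum fun y => ?_)
      (ENNReal.tsum_mul_left.le.trans (mul_le_mul_right (hM b hab.2.2) _))
    rw [mul_left_comm (τ _ x a)]
    exact mul_le_mul_right (mul_le_of_le_one_left' (ii_le_one _)) _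
  · refine le_trans (ENNReal.tsum_eq_zero.2 fun y => ?_).le zero_le
    rw [ii_false fun k => hab ⟨k.1, k.2.1, k.2.2.1⟩, zero_mul, mul_zero]

end

/-- bounded number of returns -/
theorem loops [Nontrivial α] [Finite α] (Γ : SimpleGraph V) (π : V → FreeGroup α) (L Δ : ℕ)
    (K : ℕ → ℝ≥0∞) (hK : ∀ d, K d ≠ ⊤) : ∃ M : ℝ≥0∞, M ≠ ⊤ ∧
      ∀ τ : Set (FreeGroup α) → V → V → ℝ≥0∞, Ker Γ π τ L Δ K →
        ∀ x, ∑' y, ii (dd (π x) (π y) ≤ L) * τ Set.univ x y ≤ M := by
  obtain ⟨J, hJ⟩ := kap Γ π L Δ K hK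
  obtain ⟨C, σ, hC, -, hσ, hd⟩ := dec Γ π L Δ K hK
  obtain ⟨B, hB⟩ := ball_count (α := α) L
  have hA : (Δ * C * (B * (Δ * C)) : ℝ≥0∞) ≠ ⊤ := by finiteness
  obtain ⟨m, hm⟩ : ∃ m : ℕ, (Δ * C * (B * (Δ * C)) : ℝ≥0∞) * σ ^ m ≤ 2⁻¹ := by
    have t := ENNReal.Tendsto.const_mul
      (ENNReal.tendsto_pow_atTop_nhds_zero_of_lt_one hσ) (Or.inr hA)
    rw [mul_zero] at t
    exact (t.eventually (ge_mem_nhds (by simp))).exists
  have hKd := hK (max J (m + L + 1 + L))
  refine ⟨2 * (4 * K (max J (m + L + 1 + L))), by finiteness, fun τ h => ?_⟩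
  obtain ⟨M, hM⟩ : ∃ M, M = ⨆ x, ∑' y, ii (dd (π x) (π y) ≤ L) * τ Set.univ x y := ⟨_, rfl⟩
  have hle : ∀ x, ∑' y, ii (dd (π x) (π y) ≤ L) * τ Set.univ x y ≤ M := fun x =>
    hM ▸ le_iSup (fun x => ∑' y, ii (dd (π x) (π y) ≤ L) * τ Set.univ x y) x
  have hfin : M ≠ ⊤ := by
    refine ne_top_of_le_ne_top h.fin (hM ▸ iSup_mono fun x => ?_)
    exact ENNReal.tsum_le_tsum fun y => mul_le_of_le_one_left' (ii_le_one _)
  have step : M ≤ 4 * K (max J (m + L + 1 + L)) + 2⁻¹ * M := by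
    refine hM.le.trans (iSup_le fun x => ?_)
    refine (loops_up h x (m + L) _ fun b hb =>
      loops_back h hσ.le hB (hd τ h).1 hle (π x) m hb).trans (add_le_add ?_ ?_)
    · obtain ⟨u, -, hu⟩ := exists_far (π x) (π x) (m + L + 1)
      rw [dd_self, zero_add] at hu
      have hne : π x ≠ u := by
        rintro rfl
        rw [dd_self] at hu
        omega
      have k := hJ τ h _ (le_max_left J (m + L + 1 + L)) x u {v | dd (π x) v ≤ m + L} hne (by
        refine Set.disjoint_left.2 fun w hw hw' => ?_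
        have e1 : dd (π x) w ≤ m + L := hw
        have e2 : dd (π x) w = dd (π x) u + dd u w := hw'
        omega)
      have h0 : (⨆ x, ∑' y, τ Set.univ x y) ≠ 0 := by
        refine (lt_of_lt_of_le one_pos ((h.one Set.univ x).trans ?_)).ne'
        exact (ENNReal.le_tsum x).trans (le_iSup (fun x => ∑' y, τ Set.univ x y) x)
      have k' := (ENNReal.mul_le_mul_iff_left h0 h.fin).1
        (k.trans (mul_le_mul_right (nu_le x u) _))
      refine le_trans (ENNReal.tsum_le_tsum fun y => mul_le_mul_left (ii_mono fun e => ?_) _) k'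
      have e1 := dd_tri (π y) (π x) u
      have e2 := dd_comm (π y) (π x)
      omega
    · have k := (hd τ h).2 x (π x) (m + L + 1) (by omega)
      rw [dd_self, pow_zero, mul_one] at k
      refine (mul_le_mul_left ((loops_exit h x _).trans (mul_le_mul_right k _)) _).trans ?_
      refine le_trans (le_of_eq ?_) (mul_le_mul_left hm M)
      ring
  refine fun x => (hle x).trans ?_
  have h2 : 2⁻¹ * M ≠ ⊤ := by finiteness
  have e : M = 2⁻¹ * M + 2⁻¹ * M := by rw [← add_mul, ENNReal.inv_two_add_inv_two, one_mul]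
  have k : 2⁻¹ * M ≤ 4 * K (max J (m + L + 1 + L)) :=
    (ENNReal.add_le_add_iff_right h2).1 (e ▸ step)
  rw [e, two_mul]
  exact add_le_add k k

end Vale.Agent.P165
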