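import Vale.Agent.P165.Inv
import Vale.Agent.P165.Sel
import Vale.Agent.P165.FreeP
import Vale.Agent.P165.Geo2

open Classical
open scoped ENNReal

namespace Vale.Agent.P165

open Vale.Agent.P151

universe u

variable {V : Type*} {α : Type*} [DecidableEq α]

variable {Γ : SimpleGraph V} {G : Type u} [Group G] [MulAction G V]

/-- the points near an edge of the tree form finitely many orbits of the edge stabiliser -/
lemma near_orbits [Finite α] (hG : Geom Γ G) {ρ : G →* Equiv.Perm (FreeGroup α)}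
    (hρ : TreeAction ρ) {π : V → FreeGroup α} (hπ : ∀ g v, π (g • v) = ρ g (π v))
    {q u : FreeGroup α} (hq : dd q u = 1) (d : ℕ) :
    ∃ W : Finset V, ∀ w, dd (π w) u ≤ d → ∃ w₀ ∈ W, ∃ m : edgeStab ρ q u, w = (m : G) • w₀ := by
  obtain ⟨s, hs⟩ := hG.cof
  choose g hg using hs
  have hne : Nonempty V := hG.conn.nonempty
  let T : V → V × FreeGroup α × FreeGroup α := fun w => (g w • w, ρ (g w) q, ρ (g w) u)
  let D : Set V := {w | dd (π w) u ≤ d}
  have hfin : (T '' D).Finite := by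
    refine (s.finite_toSet.biUnion (t := fun i => {i} ×ˢ {v | dd (π i) v ≤ d + 1} ×ˢ
      {v | dd (π i) v ≤ d + 1}) fun i _ => (Set.finite_singleton i).prod
        ((ball_fin _ _).prod (ball_fin _ _))).subset ?_
    rintro _ ⟨w, hw, rfl⟩
    have hw' : dd (π w) u ≤ d := hw
    refine Set.mem_biUnion (hg w) ⟨rfl, ?_, ?_⟩
    · change dd (π (g w • w)) (ρ (g w) q) ≤ d + 1
      rw [hπ, hρ.iso]
      have := dd_tri (π w) u q
      rw [dd_comm u q] at this
      omega
    · change dd (π (g w • w)) (ρ (g w) u) ≤ d + 1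
      rw [hπ, hρ.iso]
      omega
  refine ⟨hfin.toFinset.image (Function.invFunOn T D), fun w hw => ?_⟩
  refine ⟨Function.invFunOn T D (T w),
    Finset.mem_image_of_mem _ (hfin.mem_toFinset.2 ⟨w, hw, rfl⟩), ?_⟩
  have e : T (Function.invFunOn T D (T w)) = T w := Function.invFunOn_eq ⟨w, hw, rfl⟩
  generalize Function.invFunOn T D (T w) = w₀ at e
  simp only [T, Prod.mk.injEq] at e
  obtain ⟨e1, e2, e3⟩ := e
  refine ⟨⟨(g w)⁻¹ * g w₀, ?_, ?_⟩, ?_⟩
  · rw [map_mul, Equiv.Perm.mul_apply, e2, map_inv]; simp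
  · rw [map_mul, Equiv.Perm.mul_apply, e3, map_inv]; simp
  · change w = ((g w)⁻¹ * g w₀) • w₀
    rw [mul_smul, e1, inv_smul_smul]

lemma Low1_inE {S S' : Set V} (h : S ⊆ S') : inE Γ S ⊆ inE Γ S' :=
  fun _ he => ⟨he.1, fun v hv => h (he.2 v hv)⟩

lemma Low1_half {ρ : G →* Equiv.Perm (FreeGroup α)} (hρ : TreeAction ρ) {q u : FreeGroup α}
    (k : edgeStab ρ q u) (v : FreeGroup α) : ρ k v ∈ half q u ↔ v ∈ half q u := by
  have h1 := hρ.iso k v q
  have h2 := hρ.iso k v u
  rw [k.2.1] at h1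
  rw [k.2.2] at h2
  change dd _ _ < dd _ _ ↔ dd _ _ < dd _ _
  rw [h1, h2]

lemma Low1_pigeon {C : Type*} {H : Finset C} (hH : H.Nonempty) (s : C → ℝ≥0∞) {c : ℝ≥0∞}
    (hc : c ≤ ∑ h ∈ H, s h) : ∃ h ∈ H, c / H.card ≤ s h := by
  obtain ⟨h, hh, hm⟩ := H.exists_max_image s hH
  refine ⟨h, hh, ENNReal.div_le_of_le_mul' (hc.trans ?_)⟩
  simpa using Finset.sum_le_card_nsmul H s (s h) hm

theorem low_one [Finite α] (hG : Geom Γ G) {ρ : G →* Equiv.Perm (FreeGroup α)}
    (hρ : TreeAction ρ) {π : V → FreeGroup α} (hπ : ∀ g v, π (g • v) = ρ g (π v))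
    {p₀ : ℝ} (hp₀ : 0 < p₀) (d : ℕ) {q u q' u' : FreeGroup α} (hq : dd q u = 1)
    (hq' : dd q' u' = 1) {x' : V} (hx' : π x' ∈ half u' q') :
    ∃ K : ℝ≥0∞, K ≠ ⊤ ∧ ∀ p, p₀ ≤ p → p ≤ 1 → ∀ (x : V) (R : Set (FreeGroup α)),
      Disjoint R (half q u) →
      (∑' w, ii (dd (π w) u ≤ d) * tR Γ π p R x w) * (∑' y, tR Γ π p (half u' q') x' y)
        ≤ K * ∑' y, ii (π y ∈ half q u) * tR Γ π p Set.univ x y := by
  obtain ⟨g, hg⟩ := hρ.irr q u u' q' hq (by rw [dd_comm, hq'])
  obtain ⟨W, hW⟩ := near_orbits hG hρ hπ hq d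
  obtain ⟨E, H, hEH, hS⟩ := pp_of_nonab (hρ.edge q u hq)
  obtain ⟨κ, hκ⟩ := exists_coord (V := V) (C := edgeStab ρ q u)
    fun m x h => Subtype.ext (hG.free m x h)
  have hκ' : ∀ (m : edgeStab ρ q u) (y : V), κ ((m : G) • y) = m * κ y := hκ
  have hH : H.Nonempty := (hEH 0 1).imp fun _ h => h.1
  have hH0 : (H.card : ℝ≥0∞) ≠ 0 := by simpa using hH.ne_empty
  choose Q hQ hQc using exists_path hG.conn
  let P₀ : V → Finset (Sym2 V) := fun w => H.biUnion fun h => Q w ((h : G) • g • x')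
  have hP₀ : ∀ w, (P₀ w : Set (Sym2 V)) ⊆ Γ.edgeSet := fun w e he => by
    obtain ⟨h, -, he'⟩ := Finset.mem_biUnion.1 he
    exact hQ _ _ he'
  have ha : ∀ w, ENNReal.ofReal (p₀ ^ (2 * (P₀ w).card)) ≠ 0 := fun w => by
    simpa using pow_pos hp₀ _
  refine ⟨∑ w ∈ W, H.card * (ENNReal.ofReal (p₀ ^ (2 * (P₀ w).card)))⁻¹ * 2, ?_, ?_⟩
  · refine ENNReal.sum_ne_top.2 fun w _ => ENNReal.mul_ne_top (ENNReal.mul_ne_top (by simp) ?_)
      (by simp)
    exact ENNReal.inv_ne_top.2 (ha w)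
  intro p hp hp1 x R hR
  have h0 : 0 ≤ p := hp₀.le.trans hp
  set c := ∑' y, tR Γ π p (half q u) (g • x') y with hc
  have hc1 : ∑' y, tR Γ π p (half u' q') x' y ≤ c := by
    refine le_trans ?_ (le_of_eq ((MulAction.toPerm g).tsum_eq _))
    refine ENNReal.tsum_le_tsum fun y => ?_
    rw [MulAction.toPerm_apply, tR_smul hG hπ]
    exact tau_mono_wU h0 le_rfl hp1 (Low1_inE fun v hv => hg (π v) hv) _ _
  have hl : ∀ l, ∃ h ∈ H, c / H.card ≤
      ∑' y, ii (π y ∈ half q u ∧ h * κ y ∈ E l) * tR Γ π p (half q u) (g • x') y := fun l => by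
    refine Low1_pigeon hH _ ?_
    rw [hc, ← Summable.tsum_finsetSum fun _ _ => ENNReal.summable]
    refine ENNReal.tsum_le_tsum fun y => ?_
    by_cases hy : π y ∈ half q u
    · obtain ⟨h, hh, he⟩ := hEH l (κ y)
      refine le_trans ?_ (Finset.single_le_sum (f := fun h => ii (π y ∈ half q u ∧ h * κ y ∈ E l) *
        tR Γ π p (half q u) (g • x') y) (fun _ _ => zero_le) hh)
      simp only [ii_true (And.intro hy he), one_mul, le_refl]
    · have : tR Γ π p (half q u) (g • x') y = 0 := by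
        refine tau_zero (S := π ⁻¹' half q u) (by rw [Set.mem_preimage, hπ]; exact hg _ hx') hy
          fun a _ b hb => if_neg fun he => hb (he.2 b (by simp))
      rw [this]
      exact zero_le
  choose h hh hhc using hl
  have key : ∀ w, (∑' m : edgeStab ρ q u, tR Γ π p R x ((m : G) • w)) * c ≤
      H.card * (ENNReal.ofReal (p₀ ^ (2 * (P₀ w).card)))⁻¹ * 2 *
        ∑' y, ii (π y ∈ half q u) * tR Γ π p Set.univ x y := fun w => by
    choose P hP hPc hPw using fun m : edgeStab ρ q u => path_smul hG (m : G) (hP₀ w)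
    have hsel := sel h0 hp1 (U := inE Γ (π ⁻¹' Set.univ)) (U₁ := inE Γ (π ⁻¹' R))
      (U₂ := inE Γ (π ⁻¹' half q u)) (Low1_inE fun _ _ => trivial) (Low1_inE fun _ _ => trivial)
      (Set.disjoint_left.2 fun e h1 h2 =>
        Set.disjoint_left.1 hR (h1.2 _ e.out_fst_mem) (h2.2 _ e.out_fst_mem))
      x (fun m : edgeStab ρ q u => (m : G) • w) P
      (fun m => by rw [Set.preimage_univ, inE_univ]; exact hP m) hPc {y | π y ∈ half q u}
      (c / H.card) fun S => by
        obtain ⟨S', h1, h2, l, h3⟩ := hS S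
        refine ⟨S', h1, h2, fun m => (m : G) • (h (l m) : G) • g • x',
          fun m => {y | π y ∈ half q u ∧ m⁻¹ * κ y ∈ E (l m)}, fun m _ => ⟨?_, fun _ hy => hy.1, ?_⟩,
          fun m hm m' hm' hne => Set.disjoint_left.2 fun y hy hy' =>
            h3 m hm m' hm' hne _ hy.2 _ hy'.2 (by simp)⟩
        · refine hPw m _ _ fun ω hω => hQc _ _ ω fun e he => hω ?_
          exact Finset.mem_biUnion.2 ⟨h (l m), hh _, he⟩
        · refine (hhc (l m)).trans (le_of_eq (Eq.trans (tsum_congr fun y => ?_)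
            ((MulAction.toPerm ((m * h (l m) : edgeStab ρ q u) : G)).tsum_eq _)))
          have e := tR_smul hG hπ p (half q u) ((m * h (l m) : edgeStab ρ q u) : G) (g • x') y
          rw [show {v | ρ ((m * h (l m) : edgeStab ρ q u) : G) v ∈ half q u} = half q u from
            Set.ext fun v => Low1_half hρ _ v] at e
          beta_reduce
          rw [MulAction.toPerm_apply, ← e, ← mul_smul (m : G), ← Subgroup.coe_mul]
          congr 1
          refine ii_congr ?_
          rw [Set.mem_setOf_eq, hπ, Low1_half hρ, hκ']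
          simp [mul_assoc]
    have hpp : ENNReal.ofReal (p₀ ^ (2 * (P₀ w).card)) ≤ ENNReal.ofReal (p ^ (2 * (P₀ w).card)) :=
      ENNReal.ofReal_le_ofReal (pow_le_pow_left₀ hp₀.le hp _)
    have h2 := (mul_le_mul_left hpp _).trans hsel
    calc _ = H.card * (ENNReal.ofReal (p₀ ^ (2 * (P₀ w).card)))⁻¹ *
          (ENNReal.ofReal (p₀ ^ (2 * (P₀ w).card)) *
            ((∑' m : edgeStab ρ q u, tR Γ π p R x ((m : G) • w)) * (c / H.card))) := by
          rw [mul_assoc, ← mul_assoc _ (ENNReal.ofReal _),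
            ENNReal.inv_mul_cancel (ha w) ENNReal.ofReal_ne_top, one_mul, mul_left_comm,
            ENNReal.mul_div_cancel hH0 (by simp)]
      _ ≤ _ := by
          rw [mul_assoc _ 2]
          exact mul_le_mul_right h2 _
  have hsum : ∑' w, ii (dd (π w) u ≤ d) * tR Γ π p R x w ≤
      ∑ w ∈ W, ∑' m : edgeStab ρ q u, tR Γ π p R x ((m : G) • w) := by
    calc _ ≤ ∑' y, ∑ w ∈ W, ∑' m : edgeStab ρ q u, ii (y = (m : G) • w) * tR Γ π p R x y := by
          refine ENNReal.tsum_le_tsum fun y => ?_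
          by_cases hy : dd (π y) u ≤ d
          · obtain ⟨w, hw, m, hm⟩ := hW y hy
            refine le_trans ?_ (Finset.single_le_sum (f := fun w => ∑' m : edgeStab ρ q u,
              ii (y = (m : G) • w) * tR Γ π p R x y) (fun _ _ => zero_le) hw)
            refine le_trans ?_ (ENNReal.le_tsum m)
            rw [ii_true hy, ii_true hm]
          · rw [ii_false hy, zero_mul]
            exact zero_le
      _ = _ := by
          rw [Summable.tsum_finsetSum fun _ _ => ENNReal.summable]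
          refine Finset.sum_congr rfl fun w _ => ?_
          rw [ENNReal.tsum_comm]
          refine tsum_congr fun m => ?_
          rw [tsum_eq_single ((m : G) • w) fun y hy => by rw [ii_false hy, zero_mul],
            ii_true rfl, one_mul]
  refine (mul_le_mul' hsum hc1).trans ?_
  rw [Finset.sum_mul, Finset.sum_mul]
  exact Finset.sum_le_sum fun w _ => key w

end Vale.Agent.P165
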