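import Vale.Agent.P165.Low1

open Classical
open scoped ENNReal

namespace Vale.Agent.P165

open Vale.Agent.P151

universe u

variable {V : Type*} {α : Type*} [DecidableEq α]

variable {Γ : SimpleGraph V} {G : Type u} [Group G] [MulAction G V]

lemma low2_tsum (g : G) (f : V → ℝ≥0∞) : ∑' w, f w = ∑' w, f (g • w) :=
  ((MulAction.toPerm g).tsum_eq f).symm

lemma low2_half {ρ : G →* Equiv.Perm (FreeGroup α)} (hρ : TreeAction ρ) (g : G)
    (s t v : FreeGroup α) : ρ g v ∈ half (ρ g s) (ρ g t) ↔ v ∈ half s t := by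
  simp only [half, Set.mem_ofPred_eq, hρ.iso]

lemma low2_fin [Finite α] (π : V → FreeGroup α) (s : Finset (FreeGroup α)) (s' : Finset V)
    (d : ℕ) : {t : (FreeGroup α × FreeGroup α) × V × FreeGroup α × FreeGroup α |
      t.1.2 ∈ s ∧ dd t.1.1 t.1.2 = 1 ∧ t.2.1 ∈ s' ∧ dd (π t.2.1) t.2.2.2 ≤ d ∧
        dd t.2.2.1 t.2.2.2 = 1}.Finite := by
  have h1 : (⋃ u ∈ (s : Set (FreeGroup α)), {v | dd u v ≤ 1}).Finite :=
    s.finite_toSet.biUnion fun u _ => ball_fin u 1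
  have h2 : (⋃ x ∈ (s' : Set V), {v | dd (π x) v ≤ d + 1}).Finite :=
    s'.finite_toSet.biUnion fun x _ => ball_fin (π x) (d + 1)
  refine ((h1.prod s.finite_toSet).prod (s'.finite_toSet.prod (h2.prod h2))).subset ?_
  rintro ⟨⟨q, u⟩, x, q', u'⟩ ⟨a1, a2, a3, a4, a5⟩
  simp only at a1 a2 a3 a4 a5
  refine ⟨⟨?_, a1⟩, a3, ?_, ?_⟩
  · exact Set.mem_biUnion a1 (by rw [Set.mem_ofPred_eq, dd_comm]; exact a2.le)
  · refine Set.mem_biUnion a3 ?_
    have := dd_tri (π x) u' q'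
    rw [dd_comm u' q'] at this
    show dd (π x) q' ≤ d + 1
    omega
  · refine Set.mem_biUnion a3 ?_
    show dd (π x) u' ≤ d + 1
    omega

theorem low_all [Finite α] (hG : Geom Γ G) {ρ : G →* Equiv.Perm (FreeGroup α)}
    (hρ : TreeAction ρ) {π : V → FreeGroup α} (hπ : ∀ g v, π (g • v) = ρ g (π v))
    {p₀ : ℝ} (hp₀ : 0 < p₀) :
    ∃ K : ℕ → ℝ≥0∞, (∀ d, K d ≠ ⊤) ∧ ∀ p, p₀ ≤ p → p ≤ 1 → Low π (tR Γ π p) K := by
  obtain ⟨s, hs⟩ := hρ.cof
  obtain ⟨s', hs'⟩ := hG.cof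
  have key : ∀ (d : ℕ) (t : (FreeGroup α × FreeGroup α) × V × FreeGroup α × FreeGroup α),
      ∃ K : ℝ≥0∞, K ≠ ⊤ ∧ (dd t.1.1 t.1.2 = 1 → dd t.2.2.1 t.2.2.2 = 1 →
        π t.2.1 ∈ half t.2.2.2 t.2.2.1 → ∀ p, p₀ ≤ p → p ≤ 1 →
        ∀ (x : V) (R : Set (FreeGroup α)), Disjoint R (half t.1.1 t.1.2) →
        (∑' w, ii (dd (π w) t.1.2 ≤ d) * tR Γ π p R x w) *
            (∑' y, tR Γ π p (half t.2.2.2 t.2.2.1) t.2.1 y)
          ≤ K * ∑' y, ii (π y ∈ half t.1.1 t.1.2) * tR Γ π p Set.univ x y) := by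
    intro d t
    by_cases h : dd t.1.1 t.1.2 = 1 ∧ dd t.2.2.1 t.2.2.2 = 1 ∧ π t.2.1 ∈ half t.2.2.2 t.2.2.1
    · obtain ⟨K, hK, h'⟩ := low_one hG hρ hπ hp₀ d h.1 h.2.1 h.2.2
      exact ⟨K, hK, fun _ _ _ => h'⟩
    · exact ⟨0, ENNReal.zero_ne_top, fun a b c => absurd ⟨a, b, c⟩ h⟩
  choose K hK hK' using key
  refine ⟨fun d => ∑ t ∈ (low2_fin π s s' d).toFinset, K d t,
    fun d => ENNReal.sum_ne_top.2 fun t _ => hK d t, fun p h0 h1 => ?_⟩
  intro d r u r' u' x x' R hr hr' hR hd hx'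
  obtain ⟨q, hq, e1, -⟩ := cone_half hr
  obtain ⟨q', hq', -, e2⟩ := cone_half hr'
  obtain ⟨g, hg⟩ := hs u
  obtain ⟨g', hg'⟩ := hs' x'
  have hx'' : π x' ∈ half u' q' := by rw [← e2]; exact hx'
  rw [e1] at hR
  rw [e1, e2]
  let t : (FreeGroup α × FreeGroup α) × V × FreeGroup α × FreeGroup α :=
    ((ρ g q, ρ g u), g' • x', ρ g' q', ρ g' u')
  have t1 : dd (ρ g q) (ρ g u) = 1 := by rw [hρ.iso]; exact hq
  have t2 : dd (ρ g' q') (ρ g' u') = 1 := by rw [hρ.iso]; exact hq'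
  have ht : t ∈ (low2_fin π s s' d).toFinset := by
    rw [Set.Finite.mem_toFinset]
    refine ⟨hg, t1, hg', ?_, t2⟩
    show dd (π (g' • x')) (ρ g' u') ≤ d
    rw [hπ, hρ.iso]; exact hd
  have t3 : π (g' • x') ∈ half (ρ g' u') (ρ g' q') := by
    rw [hπ, low2_half hρ]; exact hx''
  have t4 : Disjoint (ρ g '' R) (half (ρ g q) (ρ g u)) := by
    rw [Set.disjoint_left]
    rintro _ ⟨v, hv, rfl⟩ h
    exact Set.disjoint_left.1 hR hv ((low2_half hρ g _ _ _).1 h)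
  have main := hK' d t t1 t2 t3 p h0 h1 (g • x) (ρ g '' R) t4
  have a1 : ∑' w, ii (dd (π w) (ρ g u) ≤ d) * tR Γ π p (ρ g '' R) (g • x) w =
      ∑' w, ii (dd (π w) u ≤ d) * tR Γ π p R x w := by
    rw [low2_tsum g]
    refine tsum_congr fun w => ?_
    have : {v | ρ g v ∈ ρ g '' R} = R := by
      ext v
      exact (ρ g).injective.mem_set_image
    rw [tR_smul hG hπ, hπ, hρ.iso, this]
  have a2 : ∑' y, tR Γ π p (half (ρ g' u') (ρ g' q')) (g' • x') y =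
      ∑' y, tR Γ π p (half u' q') x' y := by
    rw [low2_tsum g']
    refine tsum_congr fun w => ?_
    have : {v | ρ g' v ∈ half (ρ g' u') (ρ g' q')} = half u' q' := by
      ext v
      exact low2_half hρ g' _ _ _
    rw [tR_smul hG hπ, this]
  have a3 : ∑' y, ii (π y ∈ half (ρ g q) (ρ g u)) * tR Γ π p Set.univ (g • x) y =
      ∑' y, ii (π y ∈ half q u) * tR Γ π p Set.univ x y := by
    rw [low2_tsum g]
    refine tsum_congr fun w => ?_
    rw [tR_smul hG hπ, hπ, ii_congr (low2_half hρ g _ _ _)]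
    rfl
  simp only [t] at main
  rw [a1, a2, a3] at main
  refine main.trans (mul_le_mul_left ?_ _)
  exact Finset.single_le_sum (f := K d) (fun _ _ => zero_le) ht

end Vale.Agent.P165
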