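import Vale.Agent.P165.MmB
import Vale.Agent.P165.Glue
import Vale.Agent.P165.Low2

open Classical
open scoped ENNReal

namespace Vale.Agent.P165

open Vale.Agent.P151

universe u

variable {V : Type*} {α : Type*} [DecidableEq α]
variable {Γ : SimpleGraph V} {G : Type u} [Group G] [MulAction G V]
variable {φ : G →* FreeGroup α} {π : V → FreeGroup α}

lemma LowG_one [Finite α] [Nontrivial α] (hs : Sj Γ φ π) {p₀ : ℝ} (hp₀ : 0 < p₀) (d : ℕ)
    {q u q' u' : FreeGroup α} (hq : dd q u = 1) (hq' : dd q' u' = 1) {x' : V}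
    (hx' : π x' ∈ half u' q') :
    ∃ (D : ℕ) (A : ℝ≥0∞), A ≠ ⊤ ∧ ∀ p, p₀ ≤ p → p ≤ 1 → ∀ (x : V) (R : Set (FreeGroup α)),
      R ⊆ half u q →
      (∑' w, ii (dd (π w) u ≤ d) * tR Γ π p R x w) * (∑' y, tR Γ π p (half u' q') x' y)
        ≤ A * mm π (tR Γ π p) D * ∑' y, ii (π y ∈ half q u) * tR Γ π p Set.univ x y := by
  have hG := hs.geom
  obtain ⟨g₀, hg₀⟩ := irr_left hq (show dd u' q' = 1 by rw [dd_comm, hq'])
  obtain ⟨g, rfl⟩ := hs.surj g₀
  obtain ⟨W, hW0, hW⟩ := hs.near_orb u d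
  choose Q hQ hQc using exists_path hG.conn
  have ha : ∀ w, ENNReal.ofReal (p₀ ^ (2 * (Q w (g • x')).card)) ≠ 0 := fun w => by
    simpa using pow_pos hp₀ _
  have hk : ∀ (m : φ.ker) (v : V), π ((m : G) • v) = π v := fun m v => by
    rw [hs.eqv, show φ m = 1 from m.2, one_mul]
  have hx'' : π (g • x') ∈ half q u := by rw [hs.eqv]; exact hg₀ _ hx'
  refine ⟨max (d + 1) (dd (π (g • x')) u),
    ∑ w ∈ W, (ENNReal.ofReal (p₀ ^ (2 * (Q w (g • x')).card)))⁻¹ * 9, ?_, ?_⟩
  · exact ENNReal.sum_ne_top.2 fun w _ =>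
      ENNReal.mul_ne_top (ENNReal.inv_ne_top.2 (ha w)) (by simp)
  intro p hp hp1 x R hR
  have h0 : 0 ≤ p := hp₀.le.trans hp
  set μ := mm π (tR Γ π p) (max (d + 1) (dd (π (g • x')) u)) with hμ
  set c := ∑' y, ii (π y ∈ half q u) * tR Γ π p (half q u) (g • x') y with hc
  have hc1 : ∑' y, tR Γ π p (half u' q') x' y ≤ c := by
    calc _ ≤ ∑' y, tR Γ π p (half q u) (g • x') y := by
          rw [low2_tsum g (tR Γ π p (half q u) (g • x'))]
          refine ENNReal.tsum_le_tsum fun y => ?_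
          rw [hs.tR_smul]
          exact tau_mono_wU h0 le_rfl hp1 (Low1_inE fun v hv => hg₀ (π v) hv) _ _
      _ ≤ c := by
          refine ENNReal.tsum_le_tsum fun y => ?_
          by_cases hy : π y ∈ half q u
          · rw [ii_true hy, one_mul]
          · have : tR Γ π p (half q u) (g • x') y = 0 :=
              tau_zero (S := π ⁻¹' half q u) hx'' hy
                fun a _ b hb => if_neg fun he => hb (he.2 b (by simp))
            rw [this]
            exact zero_le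
  have key : ∀ w ∈ W, (∑' m : φ.ker, tR Γ π p R x ((m : G) • w)) * c ≤
      (ENNReal.ofReal (p₀ ^ (2 * (Q w (g • x')).card)))⁻¹ * 9 * μ *
        ∑' y, ii (π y ∈ half q u) * tR Γ π p Set.univ x y := fun w hw => by
    choose P hP hPc hPw using fun m : φ.ker => path_smul hG (m : G) (hQ w (g • x'))
    have hwq : dd (π w) q ≤ max (d + 1) (dd (π (g • x')) u) := by
      have h1 := dd_tri (π w) u q
      have h2 := hW0 w hw
      rw [dd_comm u q] at h1
      omega
    have hsel := glue2 h0 hp1 (U := inE Γ (π ⁻¹' Set.univ)) (U₁ := inE Γ (π ⁻¹' R))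
      (U₂ := inE Γ (π ⁻¹' half q u)) (Low1_inE fun _ _ => trivial) (Low1_inE fun _ _ => trivial)
      (Set.disjoint_left.2 fun e h1 h2 =>
        lt_asymm (show dd _ _ < dd _ _ from hR (h1.2 _ e.out_fst_mem))
          (show dd _ _ < dd _ _ from h2.2 _ e.out_fst_mem))
      x (fun m : φ.ker => (m : G) • w) (fun m : φ.ker => (m : G) • g • x') P
      (fun m => by rw [Set.preimage_univ, inE_univ]; exact hP m) hPc
      (fun m => hPw m _ _ (hQc _ _)) {y | π y ∈ half q u} c μ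
      (fun m => by
        rw [low2_tsum (m : G)]
        refine le_of_eq (tsum_congr fun y => ?_)
        have e := hs.tR_smul p (half q u) (m : G) (g • x') y
        rw [show φ m = 1 from m.2] at e
        simp only [one_mul, Set.setOf_mem_eq] at e
        rw [← e, Set.mem_setOf_eq, hk]
        rfl)
      (fun m => le_trans (ENNReal.tsum_le_tsum fun m' =>
          tau_mono_wU h0 le_rfl hp1 (Low1_inE (S' := π ⁻¹' half u q) fun v hv => hR hv) _ _)
        (hs.orb_le_mm p (q := u) (u := q) (by rw [dd_comm, hq]) (by rw [hk]; exact hwq) hwq))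
      (fun m => hs.orb_le_mm p hq (by rw [hk]; exact le_max_right _ _) (le_max_right _ _))
    have hpp : ENNReal.ofReal (p₀ ^ (2 * (Q w (g • x')).card)) ≤
        ENNReal.ofReal (p ^ (2 * (Q w (g • x')).card)) :=
      ENNReal.ofReal_le_ofReal (pow_le_pow_left₀ hp₀.le hp _)
    have h2 := (mul_le_mul_left hpp _).trans hsel
    calc _ = (ENNReal.ofReal (p₀ ^ (2 * (Q w (g • x')).card)))⁻¹ *
          (ENNReal.ofReal (p₀ ^ (2 * (Q w (g • x')).card)) *
            ((∑' m : φ.ker, tR Γ π p R x ((m : G) • w)) * c)) := by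
          rw [← mul_assoc _ (ENNReal.ofReal _),
            ENNReal.inv_mul_cancel (ha w) ENNReal.ofReal_ne_top, one_mul]
      _ ≤ _ := by
          rw [mul_assoc _ 9, mul_assoc _ (9 * μ)]
          exact mul_le_mul_right h2 _
  have hsum : ∑' w, ii (dd (π w) u ≤ d) * tR Γ π p R x w ≤
      ∑ w ∈ W, ∑' m : φ.ker, tR Γ π p R x ((m : G) • w) := by
    calc _ ≤ ∑' y, ∑ w ∈ W, ∑' m : φ.ker, ii (y = (m : G) • w) * tR Γ π p R x y := by
          refine ENNReal.tsum_le_tsum fun y => ?_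
          by_cases hy : dd (π y) u ≤ d
          · obtain ⟨w, hw, m, hm0, hm⟩ := hW y hy
            refine le_trans ?_ (Finset.single_le_sum (f := fun w => ∑' m : φ.ker,
              ii (y = (m : G) • w) * tR Γ π p R x y) (fun _ _ => zero_le) hw)
            refine le_trans ?_ (ENNReal.le_tsum ⟨m, hm0⟩)
            rw [ii_true hy, ii_true hm]
          · rw [ii_false hy, zero_mul]
            exact zero_le
      _ = _ := by
          rw [Summable.tsum_finsetSum fun _ _ => ENNReal.summable]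
          refine Finset.sum_congr rfl fun w _ => ?_
          rw [ENNReal.tsum_comm]
          refine tsum_congr fun m => ?_
          rw [tsum_eq_single ((m : G) • w) fun y hy => by rw [ii_false hy, zero_mul],
            ii_true rfl, one_mul]
  refine (mul_le_mul' hsum hc1).trans ?_
  rw [Finset.sum_mul, Finset.sum_mul, Finset.sum_mul]
  exact Finset.sum_le_sum key

theorem Sj.low_gen [Finite α] [Nontrivial α] (hs : Sj Γ φ π) {p₀ : ℝ} (hp₀ : 0 < p₀) (d₁ d₂ : ℕ) :
    ∃ (D : ℕ) (A : ℝ≥0∞), A ≠ ⊤ ∧ ∀ p, p₀ ≤ p → p ≤ 1 →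
      Low2 π (tR Γ π p) d₁ d₂ (A * mm π (tR Γ π p) D) := by
  obtain ⟨s', hs'⟩ := hs.geom.cof
  have key : ∀ (t : (FreeGroup α × FreeGroup α) × V × FreeGroup α × FreeGroup α),
      ∃ (D : ℕ) (A : ℝ≥0∞), A ≠ ⊤ ∧ (dd t.1.1 t.1.2 = 1 → dd t.2.2.1 t.2.2.2 = 1 →
        π t.2.1 ∈ half t.2.2.2 t.2.2.1 → ∀ p, p₀ ≤ p → p ≤ 1 →
        ∀ (x : V) (R : Set (FreeGroup α)), R ⊆ half t.1.2 t.1.1 →
        (∑' w, ii (dd (π w) t.1.2 ≤ d₁) * tR Γ π p R x w) *
            (∑' y, tR Γ π p (half t.2.2.2 t.2.2.1) t.2.1 y)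
          ≤ A * mm π (tR Γ π p) D *
            ∑' y, ii (π y ∈ half t.1.1 t.1.2) * tR Γ π p Set.univ x y) := by
    intro t
    by_cases h : dd t.1.1 t.1.2 = 1 ∧ dd t.2.2.1 t.2.2.2 = 1 ∧ π t.2.1 ∈ half t.2.2.2 t.2.2.1
    · obtain ⟨D, K, hK, h'⟩ := LowG_one hs hp₀ d₁ h.1 h.2.1 h.2.2
      exact ⟨D, K, hK, fun _ _ _ => h'⟩
    · exact ⟨0, 0, ENNReal.zero_ne_top, fun a b c => absurd ⟨a, b, c⟩ h⟩
  choose D K hK hK' using key
  refine ⟨(low2_fin π {1} s' d₂).toFinset.sup D, ∑ t ∈ (low2_fin π {1} s' d₂).toFinset, K t,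
    ENNReal.sum_ne_top.2 fun t _ => hK t, fun p h0 h1 => ?_⟩
  intro r u r' u' x x' R hr hr' hR hd hx'
  obtain ⟨q, hq, e1, e0⟩ := cone_half hr
  obtain ⟨q', hq', -, e2⟩ := cone_half hr'
  obtain ⟨g, hg⟩ := hs.surj u⁻¹
  obtain ⟨g', hg'⟩ := hs' x'
  have hx'' : π x' ∈ half u' q' := by rw [← e2]; exact hx'
  have hR' : R ⊆ half u q := by rw [← e0]; exact hR.subset_compl_right
  rw [e1, e2]
  let t : (FreeGroup α × FreeGroup α) × V × FreeGroup α × FreeGroup α :=
    ((φ g * q, φ g * u), g' • x', φ g' * q', φ g' * u')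
  have t1 : dd (φ g * q) (φ g * u) = 1 := by rw [dd_mul]; exact hq
  have t2 : dd (φ g' * q') (φ g' * u') = 1 := by rw [dd_mul]; exact hq'
  have ht : t ∈ (low2_fin π {1} s' d₂).toFinset := by
    rw [Set.Finite.mem_toFinset]
    refine ⟨by simp [t, hg], t1, hg', ?_, t2⟩
    show dd (π (g' • x')) (φ g' * u') ≤ d₂
    rw [hs.eqv, dd_mul]; exact hd
  have t3 : π (g' • x') ∈ half (φ g' * u') (φ g' * q') := by
    rw [hs.eqv, mul_mem_half]; exact hx''
  have t4 : (φ g * ·) '' R ⊆ half (φ g * u) (φ g * q) := by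
    rintro _ ⟨v, hv, rfl⟩
    exact mul_mem_half.2 (hR' hv)
  have main := hK' t t1 t2 t3 p h0 h1 (g • x) ((φ g * ·) '' R) t4
  have a1 : ∑' w, ii (dd (π w) (φ g * u) ≤ d₁) * tR Γ π p ((φ g * ·) '' R) (g • x) w =
      ∑' w, ii (dd (π w) u ≤ d₁) * tR Γ π p R x w := by
    rw [low2_tsum g]
    refine tsum_congr fun w => ?_
    have : {v | φ g * v ∈ (φ g * ·) '' R} = R := by
      ext v
      exact (mul_right_injective (φ g)).mem_set_image
    rw [hs.tR_smul, hs.eqv, dd_mul, this]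
  have a2 : ∑' y, tR Γ π p (half (φ g' * u') (φ g' * q')) (g' • x') y =
      ∑' y, tR Γ π p (half u' q') x' y := by
    rw [low2_tsum g']
    refine tsum_congr fun w => ?_
    have : {v | φ g' * v ∈ half (φ g' * u') (φ g' * q')} = half u' q' := by
      ext v
      exact mul_mem_half
    rw [hs.tR_smul, this]
  have a3 : ∑' y, ii (π y ∈ half (φ g * q) (φ g * u)) * tR Γ π p Set.univ (g • x) y =
      ∑' y, ii (π y ∈ half q u) * tR Γ π p Set.univ x y := by
    rw [low2_tsum g]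
    refine tsum_congr fun w => ?_
    rw [hs.tR_smul, hs.eqv, ii_congr mul_mem_half]
    rfl
  simp only [t] at main
  rw [a1, a2, a3] at main
  refine main.trans (mul_le_mul_left (mul_le_mul' ?_ (mm_mono _ _ (Finset.le_sup ht))) _)
  exact Finset.single_le_sum (f := K) (fun _ _ => zero_le) ht

end Vale.Agent.P165
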