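import Vale.Agent.P165.WalkT
import Vale.Agent.P165.M2a
import Vale.Agent.P165.M2b

open Classical
open scoped ENNReal

namespace Vale.Agent.P165

open Vale.Agent.P151

universe u

variable {V : Type*} {α : Type*} [DecidableEq α]
variable {Γ : SimpleGraph V} {G : Type u} [Group G] [MulAction G V]
variable {ρ : G →* Equiv.Perm (FreeGroup α)} {π : V → FreeGroup α}


lemma m2aT_level (hs : Tj Γ ρ π) {s : Finset V} (hcof : ∀ v, ∃ g : G, g • v ∈ s) {p : ℝ}
    {L D j : ℕ} {k : ℝ≥0∞} (hD : D + 1 ≤ L)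
    (h2 : ∀ x, ∑' t, ii (dd (π x) t = j) * ee π (tR Γ π p) L x t ≤ k)
    {q u : FreeGroup α} {w : V} (hq : dd q u = 1) (hw : dd (π w) u ≤ D) :
    ∑' v, ii (π v ∈ half q u ∧ dd (π v) q = j) * tR Γ π p (half q u) w v ≤ s.card * k := by
  choose g hg using hcof
  let F : V × FreeGroup α × V → ℝ≥0∞ := fun y => ii (y.1 ∈ s) * (ii (dd (π y.1) y.2.1 = j) *
    (ii (dd (π y.2.2) y.2.1 ≤ L) * tR Γ π p (cone (π y.1) y.2.1)ᶜ y.1 y.2.2))
  let ι : V → V × FreeGroup α × V := fun v => (g v • v, ρ (g v) q, g v • w)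
  have hι : Function.Injective ι := by
    intro v v' h
    simp only [ι, Prod.ext_iff] at h
    have e : g v = g v' := by
      have : ((g v')⁻¹ * g v) • w = w := by rw [mul_smul, h.2.2, inv_smul_smul]
      exact (inv_mul_eq_one.1 (hs.geom.free _ _ this)).symm
    have h1 := h.1
    rw [e] at h1
    exact MulAction.injective _ h1
  have hle : ∀ v, ii (π v ∈ half q u ∧ dd (π v) q = j) * tR Γ π p (half q u) w v ≤ F (ι v) := by
    intro v
    by_cases hv : π v ∈ half q u ∧ dd (π v) q = j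
    · have hwq : dd (π w) q ≤ L := by
        have h3 := dd_tri (π w) u q
        rw [dd_comm u q] at h3
        omega
      simp only [F, ι]
      rw [ii_true hv, ii_true (hg v), hs.eqv, hs.eqv, hs.act.iso, hs.act.iso, ii_true hv.2,
        ii_true hwq,
        hs.tR_smul]
      have e : {z | ρ (g v) z ∈ (cone (ρ (g v) (π v)) (ρ (g v) q))ᶜ} = half q u := by
        rw [← m2a_cone hq hv.1]
        ext z
        refine not_congr ?_
        change dd (ρ (g v) (π v)) (ρ (g v) z) =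
          dd (ρ (g v) (π v)) (ρ (g v) q) + dd (ρ (g v) q) (ρ (g v) z) ↔
            dd (π v) z = dd (π v) q + dd q z
        rw [hs.act.iso, hs.act.iso, hs.act.iso]
      rw [e]
      simp only [one_mul]
      exact (tau_symm _ _ _).le
    · rw [ii_false hv, zero_mul]; exact zero_le
  refine (ENNReal.tsum_le_tsum hle).trans
    ((ENNReal.tsum_comp_le_tsum_of_injective hι F).trans ?_)
  rw [ENNReal.tsum_prod']
  have h3 : ∀ x, ∑' y : FreeGroup α × V, F (x, y) ≤ ii (x ∈ s) * k := by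
    intro x
    simp only [F]
    rw [ENNReal.tsum_mul_left, ENNReal.tsum_prod']
    refine mul_le_mul_right (le_trans (le_of_eq ?_) (h2 x)) _
    refine tsum_congr fun t => ?_
    simp only [ee]
    rw [ENNReal.tsum_mul_left]
  refine (ENNReal.tsum_le_tsum h3).trans ?_
  rw [ENNReal.tsum_mul_right, tsum_eq_sum (s := s) fun b hb => ii_false hb]
  refine mul_le_mul_left ?_ _
  refine (Finset.sum_le_sum fun b _ => ii_le_one _).trans ?_
  simp

/-- mass transport bound for the tree-graph sum -/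
theorem Tj.m2a (hs : Tj Γ ρ π) : ∃ c₀ : ℕ, ∀ (p : ℝ) (L D P : ℕ) (k : ℝ≥0∞), 0 ≤ p → p ≤ 1 →
    1 ≤ P → D + 1 ≤ L →
    (∀ x u, π x ≠ u → ee π (tR Γ π p) L x u ≤ k * 2⁻¹ ^ (dd (π x) u / P)) →
    (∀ x n, 1 ≤ n → ∑' v, ii (dd (π x) v = n) * ee π (tR Γ π p) L x v ≤ k) →
    ∀ (q u : FreeGroup α) (w : V), dd q u = 1 → π w ∈ half q u → dd (π w) u ≤ D →
      ∑' v, tR Γ π p (half q u) w v *
        (∑' a, ii (dd (π a) u ≤ D) * tR Γ π p (half q u) v a) ^ 2 ≤ c₀ * k ^ 3 * (2 * P) := by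
  obtain ⟨s, hcof⟩ := hs.geom.cof
  refine ⟨s.card, fun p L D P k _ _ hP hD h1 h2 q u w hq hw hwD => ?_⟩
  have hterm : ∀ v, tR Γ π p (half q u) w v *
      (∑' a, ii (dd (π a) u ≤ D) * tR Γ π p (half q u) v a) ^ 2 ≤
      ∑' j : ℕ, ii (π v ∈ half q u ∧ dd (π v) q = j) * tR Γ π p (half q u) w v *
        (k ^ 2 * 2⁻¹ ^ (j / P)) := by
    intro v
    by_cases hv : π v ∈ half q u
    · refine le_trans ?_ (ENNReal.le_tsum (dd (π v) q))
      rw [ii_true ⟨hv, rfl⟩, one_mul]
      refine mul_le_mul_right ?_ _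
      have hne : π v ≠ q := by
        intro e
        have h3 : dd (π v) u < dd (π v) q := hv
        rw [e, dd_self] at h3
        omega
      have h4 : ∑' a, ii (dd (π a) u ≤ D) * tR Γ π p (half q u) v a ≤
          k * 2⁻¹ ^ (dd (π v) q / P) := by
        refine le_trans ?_ (h1 v q hne)
        unfold ee
        rw [m2a_cone hq hv]
        refine ENNReal.tsum_le_tsum fun a => mul_le_mul_left (ii_mono fun ha => ?_) _
        have h3 := dd_tri (π a) u q
        rw [dd_comm u q] at h3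
        omega
      refine (pow_le_pow_left' h4 2).trans ?_
      rw [mul_pow]
      refine mul_le_mul_right ?_ _
      rw [pow_two]
      exact mul_le_of_le_one_left' (pow_le_one' (by simp) _)
    · have : tR Γ π p (half q u) w v = 0 :=
        tau_zero (S := π ⁻¹' half q u) hw hv fun a _ b hb => by
          unfold wU
          rw [if_neg]
          rw [mk_mem_inE]
          tauto
      rw [this, zero_mul]; exact zero_le
  refine (ENNReal.tsum_le_tsum hterm).trans ?_
  rw [ENNReal.tsum_comm, ← m2a_geom hP, ← ENNReal.tsum_mul_left]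
  refine ENNReal.tsum_le_tsum fun j => ?_
  rw [ENNReal.tsum_mul_right]
  have hl : ∑' v, ii (π v ∈ half q u ∧ dd (π v) q = j) * tR Γ π p (half q u) w v ≤
      s.card * k := by
    rcases Nat.eq_zero_or_pos j with rfl | hj
    · refine le_trans (le_of_eq (ENNReal.tsum_eq_zero.2 fun v => ?_)) zero_le
      rw [ii_false, zero_mul]
      rintro ⟨h3, h4⟩
      have h5 : dd (π v) u < dd (π v) q := h3
      omega
    · exact m2aT_level hs hcof hD (fun x => h2 x j hj) hq hwD
  refine (mul_le_mul_left hl _).trans (le_of_eq ?_)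
  ring

theorem Tj.m2b (hs : Tj Γ ρ π) {p : ℝ} (h0 : 0 ≤ p) (h1 : p ≤ 1) (R : Set (FreeGroup α))
    (u : FreeGroup α) {D : ℕ} (w : V) {w' : V} (hw' : dd (π w') u ≤ D) (F : Finset (Sym2 V))
    (T : Finset G) (hT : ∀ n ∈ T, ρ n u = u) :
    ENNReal.ofReal (∑ a ∈ T, ∑ b ∈ T, Pr F (wU p (inE Γ (π ⁻¹' R)))
      (fun ω => Conn ω w (a • w') ∧ Conn ω w (b • w'))) ≤
      2 * ∑' v, tR Γ π p R w v * (∑' a, ii (dd (π a) u ≤ D) * tR Γ π p R v a) ^ 2 := by
  have hw := wU_ok h0 h1 (inE Γ (π ⁻¹' R))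
  have inj : ∀ a ∈ T, ∀ b ∈ T, a • w' = b • w' → a = b := by
    intro a _ b _ h
    have : (b⁻¹ * a) • w' = w' := by rw [mul_smul, h, inv_smul_smul]
    exact (inv_mul_eq_one.1 (hs.geom.free _ _ this)).symm
  have row : ∀ v, ∑ a ∈ T, tR Γ π p R v (a • w') ≤
      ∑' a, ii (dd (π a) u ≤ D) * tR Γ π p R v a := by
    intro v
    refine le_trans (le_of_eq ?_) (ENNReal.sum_le_tsum (T.image (· • w')))
    rw [Finset.sum_image inj]
    refine Finset.sum_congr rfl fun a ha => ?_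
    rw [ii_true, one_mul]
    rw [hs.eqv, ← hT a ha, hs.act.iso]
    exact hw'
  rw [ENNReal.ofReal_sum_of_nonneg fun a _ => Finset.sum_nonneg fun b _ => Pr_nonneg hw _]
  have step : ∀ a ∈ T, ENNReal.ofReal (∑ b ∈ T, Pr F (wU p (inE Γ (π ⁻¹' R)))
      (fun ω => Conn ω w (a • w') ∧ Conn ω w (b • w'))) ≤ ∑ b ∈ T, 2 * ∑' v,
        tR Γ π p R w v * (tR Γ π p R v (a • w') * tR Γ π p R v (b • w')) := by
    intro a _
    rw [ENNReal.ofReal_sum_of_nonneg fun b _ => Pr_nonneg hw _]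
    exact Finset.sum_le_sum fun b _ => treeg hw F w _ _
  refine (Finset.sum_le_sum step).trans ?_
  simp only [← Finset.mul_sum]
  refine mul_le_mul_right ?_ 2
  have sw : ∑ a ∈ T, ∑ b ∈ T, ∑' v,
      tR Γ π p R w v * (tR Γ π p R v (a • w') * tR Γ π p R v (b • w')) = ∑' v, ∑ a ∈ T, ∑ b ∈ T,
      tR Γ π p R w v * (tR Γ π p R v (a • w') * tR Γ π p R v (b • w')) := by
    rw [Summable.tsum_finsetSum fun _ _ => ENNReal.summable]
    refine Finset.sum_congr rfl fun a _ => ?_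
    rw [Summable.tsum_finsetSum fun _ _ => ENNReal.summable]
  rw [sw]
  refine ENNReal.tsum_le_tsum fun v => ?_
  simp only [← Finset.mul_sum, ← Finset.sum_mul]
  rw [pow_two]
  exact mul_le_mul_right (mul_le_mul' (row v) (row v)) _

end Vale.Agent.P165
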