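import Vale.Agent.P165.Inv

open Classical
open scoped ENNReal

namespace Vale.Agent.P165

open Vale.Agent.P151

universe u

variable {V : Type*} {α : Type*} [DecidableEq α]

variable {Γ : SimpleGraph V} {G : Type u} [Group G] [MulAction G V]

open MeasureTheory ProbabilityTheory

lemma nonu_local {ω : Set (Sym2 V)} (hω : ω ⊆ Γ.edgeSet) {o y : V} (h : Conn ω o y) :
    ∃ R, y ∈ ball Γ o R ∧ Conn (ω ∩ inE Γ (ball Γ o R)) o y := by
  induction h with
  | refl => exact ⟨0, self_mem_ball o 0, Conn.refl _ _⟩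
  | @tail a b _ h2 ih =>
    obtain ⟨R, h3, h4⟩ := ih
    refine ⟨R + 1, ball_adj h3 (hω h2), Conn.tail (h4.mono (Set.inter_subset_inter_right _
      (inE_mono (ball_mono o (Nat.le_succ R))))) ⟨h2, ?_⟩⟩
    exact mk_mem_inE.2 ⟨hω h2, ball_mono o (Nat.le_succ R) h3, ball_adj h3 (hω h2)⟩

lemma nonu_conn {Δ : ℕ} (hΔ : DegLe Γ Δ) (hc : Γ.Connected) (q : unitInterval) (o y : V) :
    setBernoulli Γ.edgeSet q {ω | Conn ω o y} ≤ tau (wU (q : ℝ) Γ.edgeSet) o y := by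
  haveI := countable_of hΔ hc
  let A : ℕ → Set (Set (Sym2 V)) := fun R => {ω | Conn (ω ∩ Fb hΔ o R) o y}
  have hA : Monotone A := by
    intro R R' hR ω hω
    refine Conn.mono (Set.inter_subset_inter_right _ fun e he => ?_) hω
    exact (mem_Fb hΔ).2 (inE_mono (ball_mono o hR) ((mem_Fb hΔ).1 he))
  rw [setBernoulli_apply_eq_apply_subsets]
  refine le_trans (measure_mono (t := ⋃ R, A R) ?_) ?_
  · rintro ω ⟨h1, h2⟩
    obtain ⟨R, -, h4⟩ := nonu_local h2 h1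
    refine Set.mem_iUnion.2 ⟨R, ?_⟩
    refine Conn.mono (η := ω ∩ Fb hΔ o R) ?_ h4
    exact fun e he => ⟨he.1, (mem_Fb hΔ).2 he.2⟩
  · rw [hA.measure_iUnion]
    refine iSup_le fun R => ?_
    simp only [A]
    rw [local_measure Γ.edgeSet q (Fb_sub hΔ o R) (fun ω => Conn ω o y)]
    refine le_trans (le_of_eq ?_) (Pr_le_tau _ (Fb hΔ o R) o y)
    congr 1
    exact Ex_congr_w _ fun e he => (if_pos (Fb_sub hΔ o R he)).symm

lemma nonu_anti {Δ : ℕ} (hΔ : DegLe Γ Δ) (o : V) :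
    Antitone fun R : ℕ => {ω : Set (Sym2 V) | far Γ o R (ω ∩ Fb hΔ o (R + 1))} := by
  refine antitone_nat_of_succ_le fun R ω hω => ?_
  refine far_mono ?_ (far_local (Set.inter_subset_right.trans (Fb_sub hΔ o _))
    (far_anti (Nat.le_succ R) hω))
  exact fun e he => ⟨he.1.1, (mem_Fb hΔ).2 he.2⟩

lemma nonu_inf {Δ : ℕ} (hΔ : DegLe Γ Δ) (hc : Γ.Connected) {o : V} {ω : Set (Sym2 V)}
    (h : ∀ R, far Γ o R (ω ∩ Fb hΔ o (R + 1))) :
    {y | (SimpleGraph.fromEdgeSet ω).Reachable o y}.Infinite := by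
  intro hfin
  choose r hr using fun v => exists_ball_of_reachable (hc o v)
  obtain ⟨R, hR⟩ := (hfin.image r).bddAbove
  obtain ⟨u, hu, hcu⟩ := h R
  exact hu (ball_mono o (hR ⟨u, conn_iff_reach.1 (hcu.mono Set.inter_subset_left), rfl⟩) (hr u))

lemma nonu_two {Δ : ℕ} (hΔ : DegLe Γ Δ) (q : unitInterval) (o o' : V) (R : ℕ) :
    ENNReal.ofReal (arm hΔ o q R * arm hΔ o' q R) ≤ setBernoulli Γ.edgeSet q
      ({ω | far Γ o R (ω ∩ Fb hΔ o (R + 1))} ∩ {ω | far Γ o' R (ω ∩ Fb hΔ o' (R + 1))}) := by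
  have hw : Ok (fun _ : Sym2 V => (q : ℝ)) := fun _ => q.2
  have hF : ((Fb hΔ o (R + 1) ∪ Fb hΔ o' (R + 1) : Finset (Sym2 V)) : Set (Sym2 V)) ⊆
      Γ.edgeSet := by
    rw [Finset.coe_union]; exact Set.union_subset (Fb_sub hΔ o _) (Fb_sub hΔ o' _)
  have h1 := arm_eq hΔ o q R hF fun e he =>
    Finset.mem_coe.2 (Finset.mem_union_left _ ((mem_Fb hΔ).2 he))
  have h2 := arm_eq hΔ o' q R hF fun e he =>
    Finset.mem_coe.2 (Finset.mem_union_right _ ((mem_Fb hΔ).2 he))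
  have h3 := harris (Fb hΔ o (R + 1) ∪ Fb hΔ o' (R + 1)) hw
    (f := fun ω => ind (far Γ o R ω)) (g := fun ω => ind (far Γ o' R ω))
    (fun _ _ h => ind_mono (far_mono h)) (fun _ _ h => ind_mono (far_mono h))
  have h4 := local_measure Γ.edgeSet q hF (fun ω => far Γ o R ω ∧ far Γ o' R ω)
  rw [← h1, ← h2]
  refine le_trans (ENNReal.ofReal_le_ofReal (h3.trans (le_of_eq ?_))) (h4.symm.le.trans ?_)
  · exact Ex_congr fun ω _ => (ind_and _ _).symm
  · refine measure_mono ?_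
    rintro ω ⟨a1, a2⟩
    exact ⟨far_mono (fun e he => ⟨he.1.1, (mem_Fb hΔ).2 he.2⟩)
        (far_local (Set.inter_subset_right.trans hF) a1),
      far_mono (fun e he => ⟨he.1.1, (mem_Fb hΔ).2 he.2⟩)
        (far_local (Set.inter_subset_right.trans hF) a2)⟩

theorem not_unique (hG : Geom Γ G) (q : unitInterval)
    (h : ∀ (x : V) (ε : ℝ≥0∞), 0 < ε → ∃ g : G, tau (wU (q : ℝ) Γ.edgeSet) x (g • x) < ε) :
    ProbabilityTheory.setBernoulli Γ.edgeSet q {ω | UniqueInf ω} ≠ 1 := by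
  intro hU
  obtain ⟨Δ, hΔ⟩ := exists_deg hG
  haveI := countable_of hΔ hG.conn
  have hp : 0 < percProb Γ q := by
    refine lt_of_lt_of_le one_pos (hU.symm.le.trans (measure_mono ?_))
    rintro ω ⟨x, hx, -⟩
    exact ⟨x, hx⟩
  obtain ⟨o, θ, hθ, hθa⟩ := arm_of_perc hΔ hG.conn hp
  obtain ⟨g, hg⟩ := h o (ENNReal.ofReal (θ * θ)) (ENNReal.ofReal_pos.2 (mul_pos hθ hθ))
  let A : ℕ → Set (Set (Sym2 V)) := fun R => {ω | far Γ o R (ω ∩ Fb hΔ o (R + 1))} ∩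
    {ω | far Γ (g • o) R (ω ∩ Fb hΔ (g • o) (R + 1))}
  have hA : Antitone A := fun R R' hR =>
    Set.inter_subset_inter (nonu_anti hΔ o hR) (nonu_anti hΔ (g • o) hR)
  have hm : ∀ R, MeasurableSet (A R) := fun R => (meas_local _ _).inter (meas_local _ _)
  have h1 := hA.measure_iInter (μ := setBernoulli Γ.edgeSet q)
    (fun R => (hm R).nullMeasurableSet) ⟨0, measure_ne_top _ _⟩
  have h2 : ENNReal.ofReal (θ * θ) ≤ setBernoulli Γ.edgeSet q (⋂ R, A R) := by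
    rw [h1]
    refine le_iInf fun R => le_trans (ENNReal.ofReal_le_ofReal ?_) (nonu_two hΔ q o (g • o) R)
    rw [arm_smul hG hΔ]
    exact mul_le_mul (hθa R) (hθa R) hθ.le (hθ.le.trans (hθa R))
  have hmI : MeasurableSet (⋂ R, A R) := MeasurableSet.iInter hm
  have h3 := measure_inter_add_diff (μ := setBernoulli Γ.edgeSet q) {ω | UniqueInf ω} hmI
  have h4 := measure_add_measure_compl (μ := setBernoulli Γ.edgeSet q) hmI
  rw [measure_univ] at h4
  have h5 : setBernoulli Γ.edgeSet q ({ω | UniqueInf ω} ∩ ⋂ R, A R) ≤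
      tau (wU (q : ℝ) Γ.edgeSet) o (g • o) := by
    refine le_trans (measure_mono ?_) (nonu_conn hΔ hG.conn q o (g • o))
    rintro ω ⟨⟨x, -, hx⟩, hω⟩
    have a1 := hx o (nonu_inf hΔ hG.conn fun R => (Set.mem_iInter.1 hω R).1)
    have a2 := hx (g • o) (nonu_inf hΔ hG.conn fun R => (Set.mem_iInter.1 hω R).2)
    exact conn_iff_reach.2 (a1.symm.trans a2)
  have h6 : setBernoulli Γ.edgeSet q ({ω | UniqueInf ω} \ ⋂ R, A R) ≤
      setBernoulli Γ.edgeSet q (⋂ R, A R)ᶜ := measure_mono fun ω hω => hω.2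
  have h7 : setBernoulli Γ.edgeSet q (⋂ R, A R) + setBernoulli Γ.edgeSet q (⋂ R, A R)ᶜ ≤
      tau (wU (q : ℝ) Γ.edgeSet) o (g • o) + setBernoulli Γ.edgeSet q (⋂ R, A R)ᶜ := by
    rw [h4, ← hU, ← h3]
    exact add_le_add h5 h6
  exact absurd (h2.trans (ENNReal.le_of_add_le_add_right (measure_ne_top _ _) h7)) (not_le.2 hg)

end Vale.Agent.P165
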