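import Vale.Agent.P165.Spr
import Vale.Agent.P165.Inv

open Classical
open scoped ENNReal

namespace Vale.Agent.P165

open Vale.Agent.P151

universe u

variable {V : Type*} {α : Type*} [DecidableEq α]

variable {Γ : SimpleGraph V}

lemma sha_card {f : V → ℝ≥0∞} (S : Finset V) (h1 : ∀ y, f y ≤ 1) (h0 : ∀ y ∉ S, f y = 0) :
    ∑' y, f y ≤ S.card := by
  rw [tsum_eq_sum h0]
  simpa using Finset.sum_le_card_nsmul S f 1 fun y _ => h1 y

lemma sha_step {p : ℝ} (h0 : 0 ≤ p) (h1 : p ≤ 1) (F : Finset (Sym2 V)) {x : V} {S : Finset V}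
    (hx : x ∈ S) : ∑' y, tau (wU p (Γ.edgeSet ∩ F)) x y ≤
      S.card + phi Γ p x S * ⨆ b, ∑' y, tau (wU p (Γ.edgeSet ∩ F)) b y := by
  have hz : ∀ y ∉ S, tau (wU p (inE Γ S ∩ F)) x y = 0 := fun y hy =>
    tau_zero (S := (S : Set V)) hx hy fun a _ b hb => if_neg fun h => hb (h.1.2 b (by simp))
  have hs := sprinkle (w := wU p (inE Γ S ∩ F)) (η := wU p ((Γ.edgeSet \ inE Γ S) ∩ F))
    (w' := wU p (Γ.edgeSet ∩ F)) (wU_ok h0 h1 _) (wU_ok h0 h1 _) (fun e => by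
      by_cases e1 : e ∈ inE Γ S
      · by_cases e2 : e ∈ F <;> simp [wU, e1, e1.1, e2]
      · by_cases e2 : e ∈ F <;> by_cases e3 : e ∈ Γ.edgeSet <;> simp [wU, e1, e2, e3]) x
  refine (ENNReal.tsum_le_tsum hs).trans ?_
  rw [ENNReal.tsum_add]
  refine add_le_add (sha_card S (fun y => tau_le_one (wU_ok h0 h1 _) x y) hz) ?_
  rw [ENNReal.tsum_comm, phi, ← ENNReal.tsum_mul_right]
  refine ENNReal.tsum_le_tsum fun a => ?_
  rw [ENNReal.tsum_comm, ← ENNReal.tsum_mul_right]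
  refine ENNReal.tsum_le_tsum fun b => ?_
  rw [ENNReal.tsum_mul_left, ENNReal.tsum_mul_left, ← mul_assoc]
  refine mul_le_mul' ?_ (le_iSup (fun b => ∑' y, tau (wU p (Γ.edgeSet ∩ F)) b y) b)
  by_cases ha : a ∈ S
  · by_cases he : s(a, b) ∈ (Γ.edgeSet \ inE Γ S) ∩ F
    · have hb : b ∉ S := fun hb => he.1.2 ⟨he.1.1, by simpa using ⟨ha, hb⟩⟩
      rw [ii_true ⟨he.1.1, ha, hb⟩, one_mul, mul_comm, wU, if_pos he]
      exact mul_le_mul' le_rfl (tau_mono_wU h0 le_rfl h1 Set.inter_subset_left x a)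
    · rw [wU, if_neg he]
      simp
  · rw [hz a ha, zero_mul]
    exact zero_le

theorem chi_fin_of_phi {p : ℝ} (h0 : 0 ≤ p) (h1 : p ≤ 1) {n : ℕ} {c : ℝ≥0∞} (hc : c < 1)
    (h : ∀ x, ∃ S : Finset V, x ∈ S ∧ S.card ≤ n ∧ phi Γ p x S ≤ c) : chi Γ p ≠ ⊤ := by
  have key : ∀ F : Finset (Sym2 V),
      ⨆ b, ∑' y, tau (wU p (Γ.edgeSet ∩ F)) b y ≤ n / (1 - c) := by
    intro F
    obtain ⟨W, hW⟩ := tau_fin_supp p Γ.edgeSet F
    have hfin : ⨆ b, ∑' y, tau (wU p (Γ.edgeSet ∩ F)) b y ≤ ((W.card + 1 : ℕ) : ℝ≥0∞) :=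
      iSup_le fun b => (sha_card (insert b W) (fun y => tau_le_one (wU_ok h0 h1 _) b y)
        fun y hy => hW b y (fun e => hy (e ▸ Finset.mem_insert_self _ _))
          (Or.inr fun e => hy (Finset.mem_insert_of_mem e))).trans
        (Nat.cast_le.2 (Finset.card_insert_le _ _))
    have hle : ⨆ b, ∑' y, tau (wU p (Γ.edgeSet ∩ F)) b y ≤
        n + c * ⨆ b, ∑' y, tau (wU p (Γ.edgeSet ∩ F)) b y := iSup_le fun x => by
      obtain ⟨S, hx, hS, hp⟩ := h x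
      exact (sha_step h0 h1 F hx).trans (add_le_add (Nat.cast_le.2 hS) (mul_le_mul' hp le_rfl))
    have hne := ne_top_of_le_ne_top (ENNReal.natCast_ne_top _) hfin
    generalize ⨆ b, ∑' y, tau (wU p (Γ.edgeSet ∩ F)) b y = M at hle hne
    rw [ENNReal.le_div_iff_mul_le (Or.inl (tsub_pos_of_lt hc).ne')
      (Or.inl (ENNReal.sub_ne_top ENNReal.one_ne_top)), mul_comm,
      ENNReal.sub_mul fun _ _ => hne, one_mul]
    exact tsub_le_iff_right.2 hle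
  refine ne_top_of_le_ne_top
    (ENNReal.div_ne_top (ENNReal.natCast_ne_top n) (tsub_pos_of_lt hc).ne') (iSup_le fun x => ?_)
  rw [tsum_tau_eq_iSup h0 h1]
  exact iSup_le fun F => (le_iSup (fun b => ∑' y, tau (wU p (Γ.edgeSet ∩ F)) b y) x).trans (key F)

theorem exists_phi {G : Type u} [Group G] [MulAction G V] (hG : Geom Γ G) {p : ℝ} (h0 : 0 ≤ p)
    (h1 : p ≤ 1) (h : chi Γ p = ⊤) : ∃ o, ∀ S : Finset V, o ∈ S → 1 ≤ phi Γ p o S := by
  by_contra hno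
  push Not at hno
  choose S hS1 hS2 using hno
  obtain ⟨s, hs⟩ := hG.cof
  refine chi_fin_of_phi h0 h1 (n := s.sup fun o => (S o).card) (c := s.sup fun o => phi Γ p o (S o))
    ((Finset.sup_lt_iff (by simp)).2 fun o _ => hS2 o) (fun x => ?_) h
  obtain ⟨g, hg⟩ := hs x
  have e := phi_smul hG p g⁻¹ (g • x) (S (g • x))
  rw [inv_smul_smul] at e
  refine ⟨(S (g • x)).image (g⁻¹ • ·), Finset.mem_image.2 ⟨g • x, hS1 _, inv_smul_smul g x⟩,
    Finset.card_image_le.trans (Finset.le_sup (f := fun o => (S o).card) hg), ?_⟩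
  rw [e]
  exact Finset.le_sup (f := fun o => phi Γ p o (S o)) hg

theorem chi_small {Δ : ℕ} (hΔ : DegLe Γ Δ) {p : ℝ} (h0 : 0 ≤ p) (h1 : p ≤ 1) (h : p * Δ < 1) :
    chi Γ p ≠ ⊤ := by
  refine chi_fin_of_phi h0 h1 (n := 1) (c := ENNReal.ofReal (p * Δ))
    (ENNReal.ofReal_lt_one.2 h) fun x => ⟨{x}, by simp, by simp, ?_⟩
  rw [phi, tsum_eq_single x fun a ha => by simp [ii, ha], ENNReal.ofReal_mul h0,
    ENNReal.ofReal_natCast]
  refine le_trans ?_ (mul_le_mul' le_rfl (deg_tsum hΔ x))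
  rw [← ENNReal.tsum_mul_left]
  refine ENNReal.tsum_le_tsum fun b => ?_
  rw [tau_self, mul_one, mul_comm]
  exact mul_le_mul' le_rfl (ii_mono fun h => h.1)

lemma chi_mono {p q : ℝ} (h0 : 0 ≤ p) (hpq : p ≤ q) (h1 : q ≤ 1) : chi Γ p ≤ chi Γ q :=
  iSup_mono fun x => ENNReal.tsum_le_tsum fun y => tau_mono_wU h0 hpq h1 subset_rfl x y

end Vale.Agent.P165
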