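import Vale.Agent.P165.Tau

open Classical
open scoped ENNReal

namespace Vale.Agent.P165

open Vale.Agent.P151

universe u

variable {V : Type*} {α : Type*} [DecidableEq α]

variable {Γ : SimpleGraph V}

/-- Russo's formula -/
lemma russo {E : Type*} (F : Finset E) (f : Set E → ℝ) (q : ℝ) :
    ∃ D, HasDerivAt (fun s => Ex F (fun _ => s) f) D q ∧
      (1 - q) * D = ∑ e ∈ F, Ex F (fun _ => q) (fun ω => f (insert e ω) - f ω) := by
  induction F using Finset.induction_on generalizing f with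
  | empty =>
    refine ⟨0, ?_, by simp⟩
    have : (fun s : ℝ => Ex (∅ : Finset E) (fun _ => s) f) = fun _ => f ∅ := by
      funext s; simp
    rw [this]
    exact hasDerivAt_const _ _
  | insert a F ha ih =>
    obtain ⟨A, hA, hA'⟩ := ih (fun ω => f (insert a ω))
    obtain ⟨B, hB, hB'⟩ := ih f
    refine ⟨(1 * Ex F (fun _ => q) (fun ω => f (insert a ω)) + q * A) +
      ((0 - 1) * Ex F (fun _ => q) f + (1 - q) * B), ?_, ?_⟩
    · have : (fun s : ℝ => Ex (insert a F) (fun _ => s) f) = fun s =>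
          s * Ex F (fun _ => s) (fun ω => f (insert a ω)) + (1 - s) * Ex F (fun _ => s) f := by
        funext s; rw [Ex_insert ha]
      rw [this]
      exact ((hasDerivAt_id q).mul hA).add (((hasDerivAt_const q 1).sub (hasDerivAt_id q)).mul hB)
    · rw [Finset.sum_insert ha, Ex_insert ha]
      have h1 : ∀ e ∈ F, Ex (insert a F) (fun _ => q) (fun ω => f (insert e ω) - f ω) =
          q * Ex F (fun _ => q) (fun ω => f (insert a (insert e ω)) - f (insert a ω)) +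
            (1 - q) * Ex F (fun _ => q) (fun ω => f (insert e ω) - f ω) := by
        intro e _
        rw [Ex_insert ha]
        simp only [Set.insert_comm e a]
      rw [Finset.sum_congr rfl h1, Finset.sum_add_distrib, ← Finset.mul_sum, ← Finset.mul_sum,
        ← hA', ← hB']
      simp only [Set.insert_eq_of_mem (Set.mem_insert a _), Ex_sub]
      ring

lemma ShB_far {o : V} {R : ℕ} {ω : Set (Sym2 V)} :
    far Γ o R ω ↔ o ∈ cl (ball Γ o R)ᶜ ω :=
  ⟨fun ⟨u, hu, hc⟩ => ⟨u, hu, hc.symm⟩, fun ⟨u, hu, hc⟩ => ⟨u, hu, hc.symm⟩⟩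

lemma ShB_piv {o : V} {R : ℕ} {F : Finset (Sym2 V)} {T : Finset (V × V)}
    (hT : ∀ x ∈ T, s(x.1, x.2) ∈ F) (ω : Set (Sym2 V)) :
    ind (o ∉ cl (ball Γ o R)ᶜ ω) * ∑ x ∈ T, ind (x.1 ∉ cl (ball Γ o R)ᶜ ω ∧
      x.2 ∈ cl (ball Γ o R)ᶜ ω ∧ Conn (del (cl (ball Γ o R)ᶜ ω) ω) o x.1)
      ≤ ∑ e ∈ F, (ind (far Γ o R (insert e ω)) - ind (far Γ o R ω)) := by
  have hn : ∀ e, 0 ≤ ind (far Γ o R (insert e ω)) - ind (far Γ o R ω) := fun e =>
    sub_nonneg.2 (ind_mono (far_mono (Set.subset_insert e ω)))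
  by_cases ho : o ∈ cl (ball Γ o R)ᶜ ω
  · rw [ind_false (not_not.2 ho), zero_mul]
    exact Finset.sum_nonneg fun e _ => hn e
  rw [ind_true ho, one_mul]
  set W := cl (ball Γ o R)ᶜ ω with hW
  set T' := T.filter (fun x => x.1 ∉ W ∧ x.2 ∈ W ∧ Conn (del W ω) o x.1) with hT'
  have h1 : ∑ x ∈ T, ind (x.1 ∉ W ∧ x.2 ∈ W ∧ Conn (del W ω) o x.1) =
      ∑ x ∈ T', (ind (far Γ o R (insert s(x.1, x.2) ω)) - ind (far Γ o R ω)) := by
    rw [hT', Finset.sum_filter]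
    refine Finset.sum_congr rfl fun x _ => ?_
    split_ifs with h
    · have h2 : far Γ o R (insert s(x.1, x.2) ω) := by
        refine ShB_far.2 (cl_conn (cl_mono subset_rfl (Set.subset_insert _ ω) h.2.1) ?_)
        exact ((h.2.2.mono ((del_subset W ω).trans (Set.subset_insert _ ω))).tail
          (Set.mem_insert _ _)).symm
      rw [ind_true h, ind_true h2, ind_false (fun h3 => ho (ShB_far.1 h3)), sub_zero]
    · exact ind_false h
  have hinj : Set.InjOn (fun x : V × V => s(x.1, x.2)) T' := by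
    intro x hx y hy hxy
    have hx' := (Finset.mem_filter.1 hx).2
    have hy' := (Finset.mem_filter.1 hy).2
    rcases Sym2.eq_iff.1 hxy with h | h
    · exact Prod.ext h.1 h.2
    · exact absurd (h.1 ▸ hy'.2.1) hx'.1
  rw [h1, ← Finset.sum_image (f := fun e => ind (far Γ o R (insert e ω)) - ind (far Γ o R ω)) hinj]
  refine Finset.sum_le_sum_of_subset_of_nonneg ?_ fun e _ _ => hn e
  intro e he
  obtain ⟨x, hx, rfl⟩ := Finset.mem_image.1 he
  exact hT x (Finset.mem_filter.1 hx).1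

lemma ShB_one {p' q : ℝ} (h0 : 0 ≤ p') (hq : p' ≤ q) (h1 : q ≤ 1) {o : V}
    (h : ∀ S : Finset V, o ∈ S → 1 ≤ phi Γ p' o S) {F : Finset (Sym2 V)} {T : Finset (V × V)}
    {B : Finset V} (hF : inE Γ (B : Set V) ⊆ F) (hT : ∀ a ∈ B, ∀ b, Γ.Adj a b → (a, b) ∈ T)
    {W : Set V} (hW : ∀ v ∉ W, v ∈ B) (ho : o ∉ W) :
    1 ≤ Ex F (fun _ => q) (fun η => ∑ x ∈ T, ind (x.1 ∉ W ∧ x.2 ∈ W ∧ Conn (del W η) o x.1)) := by
  have hok : Ok (fun _ : Sym2 V => q) := fun _ => ⟨h0.trans hq, h1⟩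
  set S := B.filter (· ∉ W) with hS
  have hmem : ∀ v, v ∈ S ↔ v ∉ W := fun v => by
    rw [hS, Finset.mem_filter]; exact ⟨fun h => h.2, fun h => ⟨hW v h, h⟩⟩
  have hSF : inE Γ (S : Set V) ⊆ F :=
    (inE_mono (Finset.coe_subset.2 (Finset.filter_subset _ _))).trans hF
  have h2 := h S ((hmem o).2 ho)
  rw [Ex_sum, ← ENNReal.one_le_ofReal,
    ENNReal.ofReal_sum_of_nonneg (fun x _ => Ex_nonneg hok fun _ _ => ind_nonneg _)]
  refine h2.trans ?_
  unfold phi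
  rw [← ENNReal.tsum_prod, tsum_eq_sum (s := T)]
  · refine Finset.sum_le_sum fun x _ => ?_
    by_cases hx : Γ.Adj x.1 x.2 ∧ x.1 ∈ S ∧ x.2 ∉ S
    · rw [ii_true hx, one_mul]
      have e1 : ENNReal.ofReal p' ≤ 1 := ENNReal.ofReal_le_one.2 (hq.trans h1)
      refine (mul_le_of_le_one_left' e1).trans ((tau_mono_wU h0 hq h1 subset_rfl o x.1).trans ?_)
      rw [tau_eq_Pr (wU_ok (h0.trans hq) h1 _) (F := F) (fun e he => if_neg fun h' => he (hSF h'))]
      refine ENNReal.ofReal_le_ofReal ?_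
      unfold Pr
      have e2 : wU q (Set.univ : Set (Sym2 V)) = fun _ => q := by
        funext e; simp [wU]
      rw [Ex_wU (Set.subset_univ _), e2]
      refine Ex_mono hok fun ω _ => ind_mono fun hc => ⟨(hmem _).1 hx.2.1,
        not_not.1 fun h' => hx.2.2 ((hmem _).2 h'), hc.mono ?_⟩
      rintro e ⟨he1, he2⟩
      exact ⟨he1, fun ⟨v, hv, hve⟩ => (hmem v).1 (he2.2 v hve) hv⟩
    · rw [ii_false hx, zero_mul]
      exact zero_le
  · intro x hx
    rw [ii_false fun h' => hx (hT _ (Finset.mem_filter.1 h'.2.1).1 _ h'.1), zero_mul]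

lemma ShB_der {Δ : ℕ} (hΔ : DegLe Γ Δ) {p' q : ℝ} (h0 : 0 ≤ p') (hq : p' ≤ q) (h1 : q < 1)
    {o : V} (h : ∀ S : Finset V, o ∈ S → 1 ≤ phi Γ p' o S) (R : ℕ) :
    ∃ D, HasDerivAt (fun s => arm hΔ o s R) D q ∧ 1 - arm hΔ o q R ≤ D := by
  have hok : Ok (fun _ : Sym2 V => q) := fun _ => ⟨h0.trans hq, h1.le⟩
  obtain ⟨D, hD, hD'⟩ := russo (Fb hΔ o (R + 1)) (fun ω => ind (far Γ o R ω)) q
  refine ⟨D, hD, ?_⟩
  set B := (ball_finite hΔ o R).toFinset with hB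
  set T := (B ×ˢ (ball_finite hΔ o (R + 1)).toFinset).filter (fun x => Γ.Adj x.1 x.2) with hT
  have hBm : ∀ v, v ∈ B ↔ v ∈ ball Γ o R := fun v => Set.Finite.mem_toFinset _
  have hT1 : ∀ x ∈ T, s(x.1, x.2) ∈ Fb hΔ o (R + 1) := by
    intro x hx
    obtain ⟨hx1, hx2⟩ := Finset.mem_filter.1 hx
    have hx3 := (hBm _).1 (Finset.mem_product.1 hx1).1
    exact (mem_Fb hΔ).2 (mk_mem_inE.2 ⟨hx2, ball_mono o (Nat.le_succ R) hx3, ball_adj hx3 hx2⟩)
  have hT2 : ∀ a ∈ B, ∀ b, Γ.Adj a b → (a, b) ∈ T := fun a ha b hab =>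
    Finset.mem_filter.2 ⟨Finset.mem_product.2
      ⟨ha, (Set.Finite.mem_toFinset _).2 (ball_adj ((hBm a).1 ha) hab)⟩, hab⟩
  have hF : inE Γ (B : Set V) ⊆ Fb hΔ o (R + 1) := fun e he =>
    (mem_Fb hΔ).2 (inE_mono (fun v hv => ball_mono o (Nat.le_succ R) ((hBm v).1 hv)) he)
  have key : 1 - arm hΔ o q R ≤ (1 - q) * D := by
    rw [hD', ← Ex_sum]
    refine le_trans ?_ (Ex_mono hok fun ω _ => ShB_piv (Γ := Γ) (o := o) (R := R) hT1 ω)
    rw [markov0 (Fb hΔ o (R + 1)) (fun _ => q) (ball Γ o R)ᶜ (fun W η => ind (o ∉ W) *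
      ∑ x ∈ T, ind (x.1 ∉ W ∧ x.2 ∈ W ∧ Conn η o x.1))]
    unfold arm
    rw [← Pr_not]
    refine Ex_mono hok fun ω _ => ?_
    rw [Ex_const_mul, ind_congr (not_congr ShB_far)]
    by_cases ho : o ∈ cl (ball Γ o R)ᶜ ω
    · rw [ind_false (not_not.2 ho), zero_mul]
    · rw [ind_true ho, one_mul]
      exact ShB_one h0 hq h1.le h hF hT2
        (fun v hv => (hBm v).2 (not_not.1 fun h' => hv (self_mem_cl h' ω))) ho
  have h2 : arm hΔ o q R ≤ 1 := Pr_le_one hok _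
  have h3 : 0 ≤ D := by
    by_contra hc
    have := mul_neg_of_pos_of_neg (sub_pos.2 h1) (not_le.1 hc)
    linarith
  have := mul_nonneg (h0.trans hq) h3
  linarith

theorem arm_of_phi {Δ : ℕ} (hΔ : DegLe Γ Δ) {p' p : ℝ} (h0 : 0 ≤ p') (hp : p' < p) (h1 : p ≤ 1)
    {o : V} (h : ∀ S : Finset V, o ∈ S → 1 ≤ phi Γ p' o S) :
    ∃ θ > 0, ∀ R, θ ≤ arm hΔ o p R := by
  set r := (p' + p) / 2 with hr
  have hr1 : p' < r := by linarith
  have hr2 : r < p := by linarith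
  refine ⟨1 - Real.exp (p' - r), sub_pos.2 (Real.exp_lt_one_iff.2 (by linarith)), fun R => ?_⟩
  have hd : ∀ q ∈ Set.Icc p' r, ∃ D ≤ 0,
      HasDerivAt (fun s => (1 - arm hΔ o s R) * Real.exp s) D q := by
    intro q hq
    obtain ⟨D, hD, hD'⟩ := ShB_der hΔ h0 hq.1 (by linarith [hq.2]) h R
    refine ⟨_, ?_, ((hasDerivAt_const q 1).sub hD).mul (Real.hasDerivAt_exp q)⟩
    have := Real.exp_pos q
    simp only [Pi.sub_apply]
    nlinarith
  have ha : AntitoneOn (fun s => (1 - arm hΔ o s R) * Real.exp s) (Set.Icc p' r) := by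
    refine antitoneOn_of_deriv_nonpos (convex_Icc _ _) (fun q hq => ?_) (fun q hq => ?_)
      (fun q hq => ?_)
    · obtain ⟨D, _, hD⟩ := hd q hq
      exact hD.continuousAt.continuousWithinAt
    · obtain ⟨D, _, hD⟩ := hd q (interior_subset hq)
      exact hD.differentiableAt.differentiableWithinAt
    · obtain ⟨D, hD0, hD⟩ := hd q (interior_subset hq)
      rw [hD.deriv]
      exact hD0
  have h2 := ha ⟨le_rfl, hr1.le⟩ ⟨hr1.le, le_rfl⟩ hr1.le
  have h3 : 0 ≤ arm hΔ o p' R := Pr_nonneg (fun _ => ⟨h0, by linarith⟩) _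
  have h4 : arm hΔ o r R ≤ arm hΔ o p R :=
    Ex_mono_w _ (fun _ => ⟨by linarith, by linarith⟩) (fun _ => ⟨by linarith, h1⟩)
      (fun _ _ => hr2.le) (fun ω η hh => ind_mono (far_mono hh))
  have h5 := Real.exp_pos p'
  have h6 := Real.exp_pos r
  have h7 : 1 - arm hΔ o r R ≤ Real.exp (p' - r) := by
    rw [Real.exp_sub, le_div_iff₀ h6]
    simp only at h2
    nlinarith
  linarith

end Vale.Agent.P165
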