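import Vale.Agent.P165.Loops

open Classical
open scoped ENNReal

namespace Vale.Agent.P165

open Vale.Agent.P151

universe u

variable {V : Type*} {α : Type*} [DecidableEq α]

lemma tilt_fib (π : V → FreeGroup α) (F : FreeGroup α → ℝ≥0∞) (g : V → ℝ≥0∞) :
    ∑' y, F (π y) * g y = ∑' v, F v * ∑' y, ii (π y = v) * g y := by
  simp only [← ENNReal.tsum_mul_left]
  rw [ENNReal.tsum_comm]
  refine tsum_congr fun y => ?_
  rw [tsum_eq_single (π y) fun v hv => by rw [ii_false (Ne.symm hv), zero_mul, mul_zero],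
    ii_true rfl, one_mul]

lemma tilt_pow {θ : ℝ≥0∞} (h0 : θ ≠ 0) (h1 : θ ≠ ⊤) {a D m j : ℕ} (h : a + j = D + m) :
    θ ^ a = θ ^ D * (θ ^ m * θ⁻¹ ^ j) := by
  rw [← mul_assoc, ← pow_add, ← h, pow_add, mul_assoc, ← mul_pow, ENNReal.mul_inv_cancel h0 h1,
    one_pow, mul_one]

lemma tilt_sum {θ σ C : ℝ≥0∞} (h0 : θ ≠ 0) (h1 : θ ≠ ⊤) (r t : FreeGroup α)
    (e : FreeGroup α → ℝ≥0∞)
    (he : ∀ u n, 1 ≤ n → ∑' v, ii (v ∈ cone r u ∧ dd r v = n) * e v ≤ C * σ ^ dd r u) :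
    ∑' v, θ ^ dd v t * (ii (v ≠ r) * e v) ≤
      C * (1 - θ)⁻¹ * (1 - σ * θ⁻¹)⁻¹ * θ ^ dd r t := by
  choose! P P1 P2 using fun j (hj : j ≤ dd r t) => exists_pre r t hj
  have k1 : ∀ v, θ ^ dd v t * (ii (v ≠ r) * e v) ≤ ∑' j : ℕ, ∑' m : ℕ,
      θ ^ dd r t * (θ ^ m * θ⁻¹ ^ j) * (ii (j ≤ dd r t ∧ 1 ≤ j + m) *
        (ii (v ∈ cone r (P j) ∧ dd r v = j + m) * e v)) := fun v => by
    by_cases hv : v = r
    · rw [ii_false (not_not.2 hv), zero_mul, mul_zero]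
      exact zero_le
    obtain ⟨u, u1, u2, u3⟩ := tripod r v t
    have a1 : dd r v = dd r u + dd u v := u1
    have a2 : dd r t = dd r u + dd u t := u2
    have a3 : dd r v ≠ 0 := fun h => hv (dd_eq_zero.1 h).symm
    have a4 : P (dd r u) = u := cone_uniq (P2 _ (by omega)) u2 (P1 _ (by omega))
    refine le_trans ?_ ((ENNReal.le_tsum (dd u v)).trans (ENNReal.le_tsum (f := fun j : ℕ =>
      ∑' m : ℕ, θ ^ dd r t * (θ ^ m * θ⁻¹ ^ j) * (ii (j ≤ dd r t ∧ 1 ≤ j + m) *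
        (ii (v ∈ cone r (P j) ∧ dd r v = j + m) * e v))) (dd r u)))
    rw [ii_true hv, ii_true ⟨by omega, by omega⟩, ii_true ⟨by rw [a4]; exact u1, a1⟩,
      tilt_pow h0 h1 (show dd v t + dd r u = dd r t + dd u v by omega), one_mul, one_mul]
  have k2 : ∀ j m : ℕ, ∑' v, θ ^ dd r t * (θ ^ m * θ⁻¹ ^ j) * (ii (j ≤ dd r t ∧ 1 ≤ j + m) *
      (ii (v ∈ cone r (P j) ∧ dd r v = j + m) * e v)) ≤
      C * θ ^ dd r t * (σ * θ⁻¹) ^ j * θ ^ m := fun j m => by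
    rw [ENNReal.tsum_mul_left, ENNReal.tsum_mul_left]
    by_cases h : j ≤ dd r t ∧ 1 ≤ j + m
    · have := he (P j) (j + m) h.2
      rw [P1 j h.1] at this
      rw [ii_true h, one_mul]
      refine (mul_le_mul_right this _).trans (le_of_eq ?_)
      rw [mul_pow]
      ring
    · rw [ii_false h, zero_mul, mul_zero]
      exact zero_le
  refine (ENNReal.tsum_le_tsum k1).trans ?_
  rw [ENNReal.tsum_comm]
  refine (ENNReal.tsum_le_tsum (g := fun j : ℕ =>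
    C * θ ^ dd r t * (1 - θ)⁻¹ * (σ * θ⁻¹) ^ j) fun j => ?_).trans (le_of_eq ?_)
  · rw [ENNReal.tsum_comm]
    refine (ENNReal.tsum_le_tsum (k2 j)).trans (le_of_eq ?_)
    rw [ENNReal.tsum_mul_left, ENNReal.tsum_geometric]
    ring
  · rw [ENNReal.tsum_mul_left, ENNReal.tsum_geometric]
    ring

/-- bounded tilted susceptibility -/
theorem tilt [Nontrivial α] [Finite α] (Γ : SimpleGraph V) (π : V → FreeGroup α) (L Δ : ℕ)
    (K : ℕ → ℝ≥0∞) (hK : ∀ d, K d ≠ ⊤) : ∃ C θ : ℝ≥0∞, C ≠ ⊤ ∧ θ ≠ 0 ∧ θ < 1 ∧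
      ∀ τ : Set (FreeGroup α) → V → V → ℝ≥0∞, Ker Γ π τ L Δ K →
        ∀ x t, ∑' y, θ ^ dd (π y) t * τ Set.univ x y ≤ C * θ ^ dd (π x) t := by
  obtain ⟨C, σ, c0, -, s1, hd⟩ := dec Γ π L Δ K hK
  obtain ⟨M, m0, hM⟩ := loops Γ π L Δ K hK
  obtain ⟨θ, t1, t2⟩ := exists_between s1
  have t0 : θ ≠ 0 := (zero_le.trans_lt t1).ne'
  have t3 : θ ≠ ⊤ := (t2.trans ENNReal.one_lt_top).ne
  have t4 : σ * θ⁻¹ < 1 := ENNReal.div_lt_of_lt_mul (by rwa [one_mul])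
  refine ⟨M + Δ * M * (C * (1 - θ)⁻¹ * (1 - σ * θ⁻¹)⁻¹), θ, ?_, t0, t2, fun τ h x t => ?_⟩
  · have a1 : (1 - θ)⁻¹ ≠ ⊤ := ENNReal.inv_ne_top.2 (tsub_pos_of_lt t2).ne'
    have a2 : (1 - σ * θ⁻¹)⁻¹ ≠ ⊤ := ENNReal.inv_ne_top.2 (tsub_pos_of_lt t4).ne'
    finiteness
  have k : ∀ v, ∑' y, ii (π y = v) * τ Set.univ x y ≤
      ii (v = π x) * M + Δ * M * (ii (v ≠ π x) * ee π τ L x v) := fun v => by
    have k0 : ∀ b, dd v (π b) ≤ L → ∑' y, ii (π y = v) * τ Set.univ b y ≤ M := fun b hb =>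
      le_trans (ENNReal.tsum_le_tsum fun y => mul_le_mul_left (ii_mono fun e => by
        rwa [e, dd_comm]) _) (hM τ h b)
    by_cases hv : v = π x
    · rw [ii_true hv, one_mul]
      exact (k0 x (by rw [hv, dd_self]; exact Nat.zero_le _)).trans le_self_add
    · have a := h.cross (Ne.symm hv) (Set.subset_univ _) (fun y => ii (π y = v))
        fun b _ _ hb => k0 b hb
      have z : ∑' y, ii (π y = v) * τ (cone (π x) v)ᶜ x y = 0 := by
        refine ENNReal.tsum_eq_zero.2 fun y => ?_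
        by_cases hy : π y = v
        · rw [h.supp _ x y (root_not_mem_cone (Ne.symm hv))
            (not_not.2 (hy ▸ self_mem_cone _ _)), mul_zero]
        · rw [ii_false hy, zero_mul]
      rw [z, zero_add] at a
      rw [ii_true hv, one_mul]
      exact (a.trans_eq (by ring)).trans le_add_self
  rw [tilt_fib π (fun v => θ ^ dd v t)]
  refine (ENNReal.tsum_le_tsum fun v => mul_le_mul_right (k v) _).trans ?_
  simp only [mul_add]
  rw [ENNReal.tsum_add, add_mul]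
  refine add_le_add (le_of_eq ?_) ?_
  · rw [tsum_eq_single (π x) fun v hv => by rw [ii_false hv, zero_mul, mul_zero],
      ii_true rfl, one_mul, mul_comm]
  · simp only [mul_left_comm _ ((Δ : ℝ≥0∞) * M)]
    rw [ENNReal.tsum_mul_left, mul_assoc ((Δ : ℝ≥0∞) * M)]
    exact mul_le_mul_right (tilt_sum t0 t3 (π x) t _ ((hd τ h).2 x)) _

end Vale.Agent.P165
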