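import Vale.Agent.P165.KerP
import Vale.Agent.P165.Tilt
import Vale.Agent.P165.ShA
import Vale.Agent.P165.ShB
import Vale.Agent.P165.Decay
import Vale.Agent.P165.NonU

open Classical
open scoped ENNReal

namespace Vale.Agent.P165

open Vale.Agent.P151

universe u

variable {V : Type*} {α : Type*} [DecidableEq α]

lemma far_translate [Nontrivial α] {G : Type u} [Group G] {ρ : G →* Equiv.Perm (FreeGroup α)}
    (hρ : TreeAction ρ) (r : FreeGroup α) (n : ℕ) : ∃ g : G, n ≤ dd r (ρ g r) := by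
  obtain ⟨s, hs⟩ := hρ.cof
  obtain ⟨v, -, hv⟩ := exists_far r r (n + s.sup (dd r))
  obtain ⟨g, hg⟩ := hs v
  refine ⟨g⁻¹, ?_⟩
  have h1 := dd_tri r (ρ g⁻¹ r) v
  have h2 : dd (ρ g⁻¹ r) v = dd r (ρ g v) := by
    rw [← hρ.iso g]; simp
  have h3 : dd r (ρ g v) ≤ s.sup (dd r) := Finset.le_sup (f := dd r) hg
  rw [dd_self] at hv
  omega

lemma small_pow {C θ ε : ℝ≥0∞} (hC : C ≠ ⊤) (hθ : θ < 1) (hε : 0 < ε) :
    ∃ n : ℕ, ∀ m, n ≤ m → C * θ ^ m < ε := by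
  have h := ENNReal.Tendsto.const_mul (a := C) (ENNReal.tendsto_pow_atTop_nhds_zero_of_lt_one hθ)
    (Or.inr hC)
  rw [mul_zero] at h
  exact Filter.eventually_atTop.1 (h.eventually (gt_mem_nhds hε))

theorem main {Γ : SimpleGraph V} {G : Type u} [Group G] [MulAction G V] (hG : Geom Γ G)
    (hT : TreeOfFree G) : pc Γ < pu Γ := by
  obtain ⟨α, _, _, _, ρ, hρ⟩ := hT
  obtain ⟨κ, hκ⟩ := exists_coord hG.free
  let π : V → FreeGroup α := fun v => ρ (κ v) 1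
  have hπ : ∀ g v, π (g • v) = ρ g (π v) := fun g v => by simp [π, hκ]
  obtain ⟨Δ₀, hΔ₀⟩ := exists_deg hG
  let T : Set ℝ := {p | 0 ≤ p ∧ p ≤ 1 ∧ chi Γ p ≠ ⊤}
  have hb : BddAbove T := ⟨1, fun p hp => hp.2.1⟩
  have hs : 1 / ((Δ₀ : ℝ) + 1) ∈ T := by
    have h1 : (0 : ℝ) < Δ₀ + 1 := by positivity
    have h2 : 1 / ((Δ₀ : ℝ) + 1) ≤ 1 := by rw [div_le_one h1]; linarith [Nat.cast_nonneg (α := ℝ) Δ₀]
    refine ⟨by positivity, h2, chi_small hΔ₀ (by positivity) h2 ?_⟩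
    rw [div_mul_eq_mul_div, div_lt_one h1]; linarith
  set t := sSup T with ht
  have ht0 : 0 < t := lt_of_lt_of_le (by positivity) (le_csSup hb hs)
  have ht1 : t ≤ 1 := csSup_le ⟨_, hs⟩ fun p hp => hp.2.1
  obtain ⟨L, Δ, K, hK, hker⟩ := ker_of hG hρ hπ (p₀ := t / 2) (by linarith)
  obtain ⟨C, θ, hC, hθ0, hθ1, htilt⟩ := tilt Γ π L Δ K hK
  have near : ∀ a < t, ∃ p ∈ T, a < p ∧ t / 2 ≤ p := fun a ha => by
    obtain ⟨p, hp, h⟩ := exists_lt_of_lt_csSup ⟨_, hs⟩ (max_lt ha (show t / 2 < t by linarith))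
    exact ⟨p, hp, (le_max_left _ _).trans_lt h, ((le_max_right _ _).trans_lt h).le⟩
  have bound : ∀ p ∈ T, t / 2 ≤ p → ∀ x s, ∑' y, θ ^ dd (π y) s * tau (wU p Γ.edgeSet) x y
      ≤ C * θ ^ dd (π x) s := fun p hp h x s => by
    have := htilt _ (hker p h hp.2.1 hp.2.2) x s
    simpa only [tR, Set.preimage_univ, inE_univ] using this
  obtain ⟨p₁, hp₁, -, hp₁'⟩ := near 0 ht0
  have k₁ := hker p₁ hp₁' hp₁.2.1 hp₁.2.2
  obtain ⟨η, hη0, hη1, hdec⟩ := decay k₁.deg k₁.lip hC hθ0 hθ1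
  have nonu : ∀ q : unitInterval, ∀ p ∈ T, t / 2 ≤ p → (q : ℝ) ≤ p + η * (1 - p) →
      ProbabilityTheory.setBernoulli Γ.edgeSet q {ω | UniqueInf ω} ≠ 1 := by
    intro q p hp h1 h2
    refine not_unique hG q fun x ε hε => ?_
    obtain ⟨n, hn⟩ := small_pow (C := 2 * C) (ENNReal.mul_ne_top (by simp) hC) hθ1 hε
    obtain ⟨g, hg⟩ := far_translate hρ (π x) n
    refine ⟨g, (hdec p q hp.1 hp.2.1 q.2.1 h2 (bound p hp h1) x (g • x)).trans_lt ?_⟩
    rw [hπ]; exact hn _ hg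
  have ht2 : t < 1 := by
    obtain ⟨x⟩ := hG.conn.nonempty
    obtain ⟨n, hn⟩ := small_pow (C := 2 * C) (ENNReal.mul_ne_top (by simp) hC) hθ1
      (ε := ENNReal.ofReal (1 / 2)) (by simp)
    obtain ⟨g, hg⟩ := far_translate hρ (π x) n
    obtain ⟨P, hP, hP'⟩ := exists_path hG.conn x (g • x)
    by_contra hcon
    have e : t = 1 := le_antisymm ht1 (not_lt.1 hcon)
    have c1 : ContinuousAt (fun s : ℝ => s ^ P.card) 1 := (continuous_pow _).continuousAt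
    have c2 := c1.eventually (lt_mem_nhds (show (1 / 2 : ℝ) < 1 ^ P.card by norm_num))
    obtain ⟨δ, hδ, c3⟩ := Metric.eventually_nhds_iff.1 c2
    obtain ⟨p, hp, h1, h2⟩ := near (t - δ) (by linarith)
    have c4 : (1 / 2 : ℝ) < p ^ P.card := c3 (by
      rw [Real.dist_eq, abs_lt]; constructor <;> linarith [hp.2.1])
    have c5 := (hdec p p hp.1 hp.2.1 hp.1 (by nlinarith [hp.2.1]) (bound p hp h2) x (g • x))
    rw [hπ] at c5
    have c6 := (pow_le_tau hp.1 hp.2.1 hP hP').trans_lt (c5.trans_lt (hn _ hg))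
    rw [ENNReal.ofReal_lt_ofReal_iff (by norm_num)] at c6
    linarith
  have up : (pc Γ : ℝ) ≤ t := by
    refine le_of_forall_gt_imp_ge_of_dense fun a ha => ?_
    by_cases ha1 : 1 ≤ a
    · exact (pc Γ).2.2.trans ha1
    have h1 : chi Γ ((t + a) / 2) = ⊤ := by
      by_contra hcon
      have := le_csSup hb (show (t + a) / 2 ∈ T from ⟨by linarith, by linarith, hcon⟩)
      linarith
    obtain ⟨o, ho⟩ := exists_phi hG (by linarith) (by linarith) h1
    obtain ⟨θ', h2, h3⟩ := arm_of_phi hΔ₀ (p := a) (by linarith) (by linarith) (by linarith) ho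
    have h4 := perc_of_arm hΔ₀ hG.conn (p := ⟨a, by linarith, by linarith⟩) h2 h3
    have h5 : pc Γ ≤ ⟨a, by linarith, by linarith⟩ := sInf_le h4
    exact h5
  have hη2 : 0 < η * (1 - t) := mul_pos hη0 (by linarith)
  have low : t + η * (1 - t) / 2 ≤ (pu Γ : ℝ) := by
    have hm : t + η * (1 - t) / 2 ∈ unitInterval := ⟨by linarith, by nlinarith⟩
    have : (⟨_, hm⟩ : unitInterval) ≤ pu Γ := by
      refine le_sInf fun q hq => ?_
      by_contra hcon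
      have h1 : (q : ℝ) < t + η * (1 - t) / 2 := not_le.1 hcon
      obtain ⟨p, hp, h2, h3⟩ := near (t - η * (1 - t) / 2) (by linarith)
      have h4 : p ≤ t := le_csSup hb hp
      exact nonu q p hp h3 (by nlinarith) hq
    exact this
  have : (pc Γ : ℝ) < pu Γ := by linarith
  exact this

end Vale.Agent.P165
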