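import Vale.Agent.P165.Main
import Vale.Agent.P165.Key
import Vale.Agent.P165.Har

open Classical
open scoped ENNReal

namespace Vale.Agent.P165

open Vale.Agent.P151

universe u

variable {V : Type*} {α : Type*} [DecidableEq α]

theorem main_of [Finite α] [Nontrivial α] {Γ : SimpleGraph V} {G : Type u} [Group G]
    [MulAction G V] (hG : Geom Γ G) (π : V → FreeGroup α)
    (hfar : ∀ (x : V) (n : ℕ), ∃ g : G, n ≤ dd (π x) (π (g • x)))
    (hk : ∀ p₀ : ℝ, 0 < p₀ → ∃ (L Δ : ℕ) (K : ℕ → ℝ≥0∞), (∀ d, K d ≠ ⊤) ∧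
      ∀ p, p₀ ≤ p → p ≤ 1 → chi Γ p ≠ ⊤ → Ker Γ π (tR Γ π p) L Δ K) : pc Γ < pu Γ := by
  obtain ⟨Δ₀, hΔ₀⟩ := exists_deg hG
  let T : Set ℝ := {p | 0 ≤ p ∧ p ≤ 1 ∧ chi Γ p ≠ ⊤}
  have hb : BddAbove T := ⟨1, fun p hp => hp.2.1⟩
  have hs : 1 / ((Δ₀ : ℝ) + 1) ∈ T := by
    have h1 : (0 : ℝ) < Δ₀ + 1 := by positivity
    have h2 : 1 / ((Δ₀ : ℝ) + 1) ≤ 1 := by rw [div_le_one h1]; linarith [Nat.cast_nonneg (α := ℝ) Δ₀]
    refine ⟨by positivity, h2, chi_small hΔ₀ (by positivity) h2 ?_⟩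
    rw [div_mul_eq_mul_div, div_lt_one h1]; linarith
  set t := sSup T with ht
  have ht0 : 0 < t := lt_of_lt_of_le (by positivity) (le_csSup hb hs)
  have ht1 : t ≤ 1 := csSup_le ⟨_, hs⟩ fun p hp => hp.2.1
  obtain ⟨L, Δ, K, hK, hker⟩ := hk (t / 2) (by linarith)
  obtain ⟨C, θ, hC, hθ0, hθ1, htilt⟩ := tilt Γ π L Δ K hK
  have near : ∀ a < t, ∃ p ∈ T, a < p ∧ t / 2 ≤ p := fun a ha => by
    obtain ⟨p, hp, h⟩ := exists_lt_of_lt_csSup ⟨_, hs⟩ (max_lt ha (show t / 2 < t by linarith))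
    exact ⟨p, hp, (le_max_left _ _).trans_lt h, ((le_max_right _ _).trans_lt h).le⟩
  have bound : ∀ p ∈ T, t / 2 ≤ p → ∀ x s, ∑' y, θ ^ dd (π y) s * tau (wU p Γ.edgeSet) x y
      ≤ C * θ ^ dd (π x) s := fun p hp h x s => by
    have := htilt _ (hker p h hp.2.1 hp.2.2) x s
    simpa only [tR, Set.preimage_univ, inE_univ] using this
  obtain ⟨p₁, hp₁, -, hp₁'⟩ := near 0 ht0
  have k₁ := hker p₁ hp₁' hp₁.2.1 hp₁.2.2
  obtain ⟨η, hη0, hη1, hdec⟩ := decay k₁.deg k₁.lip hC hθ0 hθ1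
  have nonu : ∀ q : unitInterval, ∀ p ∈ T, t / 2 ≤ p → (q : ℝ) ≤ p + η * (1 - p) →
      ProbabilityTheory.setBernoulli Γ.edgeSet q {ω | UniqueInf ω} ≠ 1 := by
    intro q p hp h1 h2
    refine not_unique hG q fun x ε hε => ?_
    obtain ⟨n, hn⟩ := small_pow (C := 2 * C) (ENNReal.mul_ne_top (by simp) hC) hθ1 hε
    obtain ⟨g, hg⟩ := hfar x n
    refine ⟨g, (hdec p q hp.1 hp.2.1 q.2.1 h2 (bound p hp h1) x (g • x)).trans_lt ?_⟩
    exact hn _ hg
  have ht2 : t < 1 := by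
    obtain ⟨x⟩ := hG.conn.nonempty
    obtain ⟨n, hn⟩ := small_pow (C := 2 * C) (ENNReal.mul_ne_top (by simp) hC) hθ1
      (ε := ENNReal.ofReal (1 / 2)) (by simp)
    obtain ⟨g, hg⟩ := hfar x n
    obtain ⟨P, hP, hP'⟩ := exists_path hG.conn x (g • x)
    by_contra hcon
    have e : t = 1 := le_antisymm ht1 (not_lt.1 hcon)
    have c1 : ContinuousAt (fun s : ℝ => s ^ P.card) 1 := (continuous_pow _).continuousAt
    have c2 := c1.eventually (lt_mem_nhds (show (1 / 2 : ℝ) < 1 ^ P.card by norm_num))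
    obtain ⟨δ, hδ, c3⟩ := Metric.eventually_nhds_iff.1 c2
    obtain ⟨p, hp, h1, h2⟩ := near (t - δ) (by linarith)
    have c4 : (1 / 2 : ℝ) < p ^ P.card := c3 (by
      rw [Real.dist_eq, abs_lt]; constructor <;> linarith [hp.2.1])
    have c5 := (hdec p p hp.1 hp.2.1 hp.1 (by nlinarith [hp.2.1]) (bound p hp h2) x (g • x))
    have c6 := (pow_le_tau hp.1 hp.2.1 hP hP').trans_lt (c5.trans_lt (hn _ hg))
    rw [ENNReal.ofReal_lt_ofReal_iff (by norm_num)] at c6
    linarith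
  have up : (pc Γ : ℝ) ≤ t := by
    refine le_of_forall_gt_imp_ge_of_dense fun a ha => ?_
    by_cases ha1 : 1 ≤ a
    · exact (pc Γ).2.2.trans ha1
    have h1 : chi Γ ((t + a) / 2) = ⊤ := by
      by_contra hcon
      have := le_csSup hb (show (t + a) / 2 ∈ T from ⟨by linarith, by linarith, hcon⟩)
      linarith
    obtain ⟨o, ho⟩ := exists_phi hG (by linarith) (by linarith) h1
    obtain ⟨θ', h2, h3⟩ := arm_of_phi hΔ₀ (p := a) (by linarith) (by linarith) (by linarith) ho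
    have h4 := perc_of_arm hΔ₀ hG.conn (p := ⟨a, by linarith, by linarith⟩) h2 h3
    have h5 : pc Γ ≤ ⟨a, by linarith, by linarith⟩ := sInf_le h4
    exact h5
  have hη2 : 0 < η * (1 - t) := mul_pos hη0 (by linarith)
  have low : t + η * (1 - t) / 2 ≤ (pu Γ : ℝ) := by
    have hm : t + η * (1 - t) / 2 ∈ unitInterval := ⟨by linarith, by nlinarith⟩
    have : (⟨_, hm⟩ : unitInterval) ≤ pu Γ := by
      refine le_sInf fun q hq => ?_
      by_contra hcon
      have h1 : (q : ℝ) < t + η * (1 - t) / 2 := not_le.1 hcon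
      obtain ⟨p, hp, h2, h3⟩ := near (t - η * (1 - t) / 2) (by linarith)
      have h4 : p ≤ t := le_csSup hb hp
      exact nonu q p hp h3 (by nlinarith) hq
    exact this
  have : (pc Γ : ℝ) < pu Γ := by linarith
  exact this

theorem main2 [Finite α] [Nontrivial α] {Γ : SimpleGraph V} {G : Type u} [Group G]
    [MulAction G V] (hG : Geom Γ G) (φ : G →* FreeGroup α) (hφ : Function.Surjective φ) :
    pc Γ < pu Γ := by
  obtain ⟨κ, hκ⟩ := exists_coord hG.free
  have hs : Sj Γ φ (fun v => φ (κ v)) := ⟨hG, hφ, fun g v => by rw [hκ, map_mul]⟩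
  refine main_of hG (fun v => φ (κ v)) (fun x n => ?_) fun p₀ hp₀ => ?_
  · obtain ⟨v, -, hv⟩ := exists_far (φ (κ x)) (φ (κ x)) n
    obtain ⟨g, hg⟩ := hφ (v * (φ (κ x))⁻¹)
    refine ⟨g, ?_⟩
    rw [dd_self, zero_add] at hv
    rw [hκ, map_mul, hg, inv_mul_cancel_right, hv]
  · obtain ⟨D₀, hH⟩ := hs.har hp₀
    obtain ⟨B, hB, hkey⟩ := hs.key hp₀ hH
    obtain ⟨L, Δ, C, -, hC, hker⟩ := hs.ker2 hp₀ hH 0
    exact ⟨L, Δ, fun d => C d * B, fun d => ENNReal.mul_ne_top (hC d) hB, fun p h0 h1 hχ =>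
      (hker p h0 h1 hχ).monoK fun d => mul_le_mul_right (hkey p h0 h1 hχ) _⟩

theorem cayley_geom {H : Type u} [Group H] (S : Finset H)
    (hS : Subgroup.closure (S : Set H) = ⊤) (K : Subgroup H) (hK : K.FiniteIndex) :
    Geom (SimpleGraph.mulCayley (S : Set H)) K := by
  refine ⟨?_, ?_, ?_, ?_, ?_⟩
  · have key : ∀ x : H, (SimpleGraph.mulCayley (S : Set H)).Reachable 1 x := by
      intro x
      have hx : x ∈ Subgroup.closure (S : Set H) := hS ▸ Subgroup.mem_top x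
      have one : ∀ x, ∀ y ∈ (S : Set H),
          (SimpleGraph.mulCayley (S : Set H)).Reachable x (x * y) := by
        intro x y hy
        by_cases h : x = x * y
        · rw [← h]
        · exact SimpleGraph.Adj.reachable
            ((SimpleGraph.mulCayley_adj' _ _ _).2 ⟨h, y, hy, Or.inl rfl⟩)
      induction hx using Subgroup.closure_induction_right with
      | one => rfl
      | mul_right x _ y hy ih => exact ih.trans (one x y hy)
      | mul_inv_cancel x _ y hy ih =>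
        refine ih.trans ?_
        simpa using (one (x * y⁻¹) y hy).symm
    exact ⟨fun a b => (key a).symm.trans (key b)⟩
  · intro v
    refine ((S.finite_toSet.image (v * ·)).union (S.finite_toSet.image (v * ·⁻¹))).subset
      fun y hy => ?_
    obtain ⟨-, g, hg, h | h⟩ := (SimpleGraph.mulCayley_adj' _ _ _).1 hy
    · exact Or.inl ⟨g, hg, h⟩
    · exact Or.inr ⟨g, hg, by simp [h]⟩
  · intro g x y
    exact SimpleGraph.mulCayley_adj_mul_iff_right
  · intro g x h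
    have h' : (g : H) * x = x := h
    exact Subtype.ext (by simpa using h')
  · haveI : Finite (Quotient (QuotientGroup.rightRel K)) :=
      Finite.of_equiv _ (QuotientGroup.quotientRightRelEquivQuotientLeftRel K).symm
    let rep : H → H := fun h => (Quotient.mk (QuotientGroup.rightRel K) h).out
    have hrep : ∀ h, h * (rep h)⁻¹ ∈ K := fun h =>
      QuotientGroup.rightRel_apply.1 (Quotient.mk_out (s := QuotientGroup.rightRel K) h)
    refine ⟨(Set.finite_range (fun q : Quotient (QuotientGroup.rightRel K) => q.out)).toFinset,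
      fun v => ⟨(⟨v * (rep v)⁻¹, hrep v⟩ : K)⁻¹, ?_⟩⟩
    rw [Set.Finite.mem_toFinset]
    refine ⟨Quotient.mk _ v, ?_⟩
    change rep v = (v * (rep v)⁻¹)⁻¹ * v
    simp

end Vale.Agent.P165
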