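import Vale.Agent.P165.Main2
import Vale.Agent.P165.KeyT
import Vale.Agent.P165.HarT

open Classical
open scoped ENNReal

namespace Vale.Agent.P165

open Vale.Agent.P151

universe u

variable {V : Type*} {α : Type*} [DecidableEq α]

lemma far_translate3 [Nontrivial α] {G : Type u} [Group G] {ρ : G →* Equiv.Perm (FreeGroup α)}
    (hρ : TreeAct ρ) (r : FreeGroup α) (n : ℕ) : ∃ g : G, n ≤ dd r (ρ g r) := by
  obtain ⟨s, hs⟩ := hρ.cof
  obtain ⟨v, -, hv⟩ := exists_far r r (n + s.sup (dd r))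
  obtain ⟨g, hg⟩ := hs v
  refine ⟨g⁻¹, ?_⟩
  have h1 := dd_tri r (ρ g⁻¹ r) v
  have h2 : dd (ρ g⁻¹ r) v = dd r (ρ g v) := by
    rw [← hρ.iso g]; simp
  have h3 : dd r (ρ g v) ≤ s.sup (dd r) := Finset.le_sup (f := dd r) hg
  rw [dd_self] at hv
  omega

theorem main3 {Γ : SimpleGraph V} {G : Type u} [Group G] [MulAction G V] (hG : Geom Γ G)
    (hT : ActsOnTree G) : pc Γ < pu Γ := by
  obtain ⟨α, _, _, _, ρ, hρ⟩ := hT
  obtain ⟨κ, hκ⟩ := exists_coord hG.free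
  have hs : Tj Γ ρ (fun v => ρ (κ v) 1) := ⟨hG, hρ, fun g v => by simp [hκ]⟩
  refine main_of hG (fun v => ρ (κ v) 1) (fun x n => ?_) fun p₀ hp₀ => ?_
  · obtain ⟨g, hg⟩ := far_translate3 hρ (ρ (κ x) 1) n
    exact ⟨g, by rwa [hκ, map_mul, Equiv.Perm.mul_apply]⟩
  · obtain ⟨D₀, hH⟩ := hs.har hp₀
    obtain ⟨B, hB, hkey⟩ := hs.key hp₀ hH
    obtain ⟨L, Δ, C, -, hC, hker⟩ := hs.ker2 hp₀ hH 0
    exact ⟨L, Δ, fun d => C d * B, fun d => ENNReal.mul_ne_top (hC d) hB, fun p h0 h1 hχ =>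
      (hker p h0 h1 hχ).monoK fun d => mul_le_mul_right (hkey p h0 h1 hχ) _⟩

theorem acts_free : ActsOnTree (FreeGroup (Fin 2)) := by
  refine ⟨Fin 2, inferInstance, inferInstance, inferInstance,
    MulAction.toPermHom (FreeGroup (Fin 2)) (FreeGroup (Fin 2)), fun g u v => dd_mul g u v,
    ⟨{1}, fun v => ⟨v⁻¹, by simp⟩⟩, fun s t s' t' a b => irr_left a b⟩

theorem acts_of_surj {G : Type u} {Q : Type*} [Group G] [Group Q] (φ : G →* Q)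
    (hφ : Function.Surjective φ) (h : ActsOnTree Q) : ActsOnTree G := by
  obtain ⟨α, h1, h2, h3, ρ, hρ⟩ := h
  refine ⟨α, h1, h2, h3, ρ.comp φ, fun g u v => hρ.iso _ u v, ?_, fun s t s' t' a b => ?_⟩
  · obtain ⟨s, hs⟩ := hρ.cof
    refine ⟨s, fun v => ?_⟩
    obtain ⟨g, hg⟩ := hs v
    obtain ⟨g, rfl⟩ := hφ g
    exact ⟨g, hg⟩
  · obtain ⟨g, hg⟩ := hρ.irr s t s' t' a b
    obtain ⟨g, rfl⟩ := hφ g
    exact ⟨g, hg⟩

end Vale.Agent.P165
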