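import Vale.Agent.P165.TreeX

open Classical
open scoped ENNReal

namespace Vale.Agent.P165

open Vale.Agent.P151

universe u

variable {V : Type*} {α : Type*} [DecidableEq α]
variable {G : Type u} [Group G] {ρ : G →* Equiv.Perm (FreeGroup α)}


theorem TreeAct.many [Finite α] [Nontrivial α] (hρ : TreeAct ρ) {q u a : FreeGroup α}
    (hq : dd q u = 1) (ha : a ∈ cone u q) (ha' : dd u a = 2) (t : FreeGroup α) :
    ∃ n₁ : ℕ, ∀ ℓ k : ℕ, dd u t + 1 ≤ ℓ → ∃ J : Finset G, 2 ^ k ≤ J.card ∧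
      (∀ g ∈ J, Ori ρ q u a t (ℓ + k) (ℓ + k + n₁) g) ∧
      ∀ g ∈ J, ∀ g' ∈ J, ρ g q = ρ g' q → g = g' := by
  have hqu : dd u q = 1 := by rw [dd_comm, hq]
  obtain ⟨a₁, m₁, d₁, hna⟩ := branch u q a
  have hua : u ≠ a₁ := fun e => by rw [← e, dd_self] at d₁; omega
  have e1 : dd u a₁ = dd u q + dd q a₁ := m₁
  have e2 : dd u a = dd u q + dd q a := ha
  have hnq : q ∉ cone u a₁ := fun h => by
    have : dd u q = dd u a₁ + dd a₁ q := h
    omega
  have haa : dd a a₁ = 2 := by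
    obtain ⟨m, -, -, h3⟩ := tripod u a a₁
    have h4 := dd_tri a q a₁
    have h5 := dd_comm a q
    have h6 : dd a a₁ ≠ 0 := fun h => hna (dd_eq_zero.1 h ▸ self_mem_cone u a)
    omega
  obtain ⟨b, hb1, -, hb2⟩ := cone_half hua
  obtain ⟨n₀, hn₀⟩ := hρ.irr_bdd (s' := a₁) (t' := b) (by rw [dd_comm, hb1])
  refine ⟨n₀ + dd b q, fun ℓ k hℓ => ?_⟩
  obtain ⟨t', ht', dt'⟩ := exists_far u t (ℓ - dd u t)
  obtain ⟨Y, hY, hY'⟩ := spread u t' k
  have hg : ∀ y : FreeGroup α, ∃ g : G, u ≠ y →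
      (∀ v, v ∉ cone u a₁ → ρ g v ∈ cone u y) ∧ dd y (ρ g b) ≤ n₀ := by
    intro y
    by_cases hy : u = y
    · exact ⟨1, fun h => absurd hy h⟩
    obtain ⟨y', k1, k2, -⟩ := cone_half hy
    obtain ⟨g, g1, g2⟩ := hn₀ y' y k1
    refine ⟨g, fun _ => ⟨fun v hv => ?_, g2⟩⟩
    rw [k2]
    refine g1 v ?_
    rw [← hb2]
    exact hv
  choose g hg using hg
  have huy : ∀ y ∈ Y, u ≠ y := fun y hy e => by
    have := (hY' y hy).2
    rw [← e, dd_self] at this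
    omega
  have hinj : ∀ y ∈ Y, ∀ y' ∈ Y, ρ (g y) q = ρ (g y') q → y = y' := fun y hy y' hy' e =>
    cone_uniq ((hg y (huy y hy)).1 q hnq) (e ▸ (hg y' (huy y' hy')).1 q hnq)
      ((hY' y hy).2.trans (hY' y' hy').2.symm)
  refine ⟨Y.image g, ?_, fun g' hg' => ?_, fun g₁ h₁ g₂ h₂ e => ?_⟩
  · rw [Finset.card_image_of_injOn]
    · exact hY
    · exact fun y hy y' hy' e => hinj y hy y' hy' (by rw [e])
  · obtain ⟨y, hy, rfl⟩ := Finset.mem_image.1 hg'
    obtain ⟨k1, k2⟩ := hg y (huy y hy)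
    obtain ⟨k3, k4⟩ := hY' y hy
    have k5 : dd u (ρ (g y) q) = dd u y + dd y (ρ (g y) q) := k1 q hnq
    have k6 := dd_tri y (ρ (g y) b) (ρ (g y) q)
    rw [hρ.iso] at k6
    obtain ⟨x, hx⟩ := (ρ (g y)).surjective u
    have hxa : x ∈ cone u a₁ := by
      by_contra h
      exact root_not_mem_cone (huy y hy) (hx ▸ k1 x h)
    have l1 : dd u x = dd u a₁ + dd a₁ x := hxa
    have l2 := cone_cut hnq hxa
    have l3 := cone_cut hna hxa
    have l4 := dd_comm x u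
    have l5 := dd_comm x q
    have l6 := dd_comm x a
    have l7 : u ∈ cone x q := geo_mem.2 (by omega)
    have l8 : a ∈ cone x q := geo_mem.2 (by omega)
    have l9 := (hρ.cone_smul (g := g y)).2 l7
    have l10 := (hρ.cone_smul (g := g y)).2 l8
    rw [hx] at l9 l10
    exact ⟨cone_trans ht' (cone_trans k3 (k1 q hnq)), by omega, by omega, l9, l10⟩
  · obtain ⟨y, hy, rfl⟩ := Finset.mem_image.1 h₁
    obtain ⟨y', hy', rfl⟩ := Finset.mem_image.1 h₂
    rw [hinj y hy y' hy' e]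

end Vale.Agent.P165
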