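import Vale.Agent.P165.Walk

open Classical
open scoped ENNReal

namespace Vale.Agent.P165

open Vale.Agent.P151

universe u

variable {V : Type*} {α : Type*} [DecidableEq α]
variable {Γ : SimpleGraph V} {G : Type u} [Group G] [MulAction G V]
variable {φ : G →* FreeGroup α} {π : V → FreeGroup α}

lemma mmb_le (π : V → FreeGroup α) (τ : Set (FreeGroup α) → V → V → ℝ≥0∞) {D : ℕ}
    {q u : FreeGroup α} {w : V} (h1 : dd q u = 1) (h2 : dd (π w) u ≤ D) :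
    ∑' w', ii (dd (π w') u ≤ D) * τ (half q u) w w' ≤ mm π τ D :=
  le_iSup_of_le q (le_iSup_of_le u (le_iSup_of_le w (le_iSup_of_le ⟨h1, h2⟩ le_rfl)))

lemma mmb_ge (π : V → FreeGroup α) (τ : Set (FreeGroup α) → V → V → ℝ≥0∞) {D : ℕ} {M : ℝ≥0∞}
    (h : ∀ q u w, dd q u = 1 → dd (π w) u ≤ D →
      ∑' w', ii (dd (π w') u ≤ D) * τ (half q u) w w' ≤ M) : mm π τ D ≤ M :=
  iSup_le fun q => iSup_le fun u => iSup_le fun w => iSup_le fun k => h q u w k.1 k.2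

lemma mm_mono (π : V → FreeGroup α) (τ : Set (FreeGroup α) → V → V → ℝ≥0∞) {D D' : ℕ}
    (h : D ≤ D') : mm π τ D ≤ mm π τ D' :=
  mmb_ge π τ fun _ _ _ h1 h2 => le_trans (ENNReal.tsum_le_tsum fun _ =>
    mul_le_mul_left (ii_mono fun k => k.trans h) _) (mmb_le π τ h1 (h2.trans h))

lemma one_le_mm [Nontrivial α] (x : V) (π : V → FreeGroup α) (Γ : SimpleGraph V) (p : ℝ) (D : ℕ) :
    1 ≤ mm π (tR Γ π p) D := by
  obtain ⟨q, -, hq⟩ := exists_far (π x) (π x) 1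
  rw [dd_self, zero_add, dd_comm] at hq
  have h0 : dd (π x) (π x) ≤ D := by rw [dd_self]; omega
  refine le_trans ?_ ((ENNReal.le_tsum x).trans (mmb_le π _ hq h0))
  rw [ii_true h0, one_mul, tR, tau_self]

lemma mm_le_chi (π : V → FreeGroup α) (Γ : SimpleGraph V) {p : ℝ} (h0 : 0 ≤ p) (h1 : p ≤ 1)
    (D : ℕ) : mm π (tR Γ π p) D ≤ chi Γ p := by
  refine mmb_ge π _ fun q u w _ _ => le_trans (ENNReal.tsum_le_tsum fun y => ?_)
    (le_iSup (fun x => ∑' y, tau (wU p Γ.edgeSet) x y) w)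
  exact (mul_le_of_le_one_left' (ii_le_one _)).trans
    (tau_mono_wU h0 le_rfl h1 (fun e he => he.1) _ _)

lemma mmb_ker (hs : Sj Γ φ π) {n : G} (hn : n ∈ φ.ker) (y : V) : π (n • y) = π y := by
  rw [hs.eqv, MonoidHom.mem_ker.1 hn, one_mul]

lemma Sj.orb_le_mm (hs : Sj Γ φ π) (p : ℝ) {q u : FreeGroup α} (hq : dd q u = 1) {D : ℕ} {x y : V}
    (hx : dd (π x) u ≤ D) (hy : dd (π y) u ≤ D) :
    ∑' n : φ.ker, tR Γ π p (half q u) x ((n : G) • y) ≤ mm π (tR Γ π p) D := by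
  refine le_trans ?_ (mmb_le π _ hq hx)
  have hi : Function.Injective fun n : φ.ker => (n : G) • y := fun a b h => by
    have := hs.geom.free ((b : G)⁻¹ * a) y (by rw [mul_smul, inv_smul_eq_iff]; exact h)
    exact Subtype.ext (inv_mul_eq_one.1 this).symm
  refine le_trans (ENNReal.tsum_le_tsum fun n => ?_) (ENNReal.tsum_comp_le_tsum_of_injective hi
    fun w' => ii (dd (π w') u ≤ D) * tR Γ π p (half q u) x w')
  rw [ii_true (by rwa [mmb_ker hs n.2]), one_mul]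

lemma mmb_out {p : ℝ} {R : Set (FreeGroup α)} {w : V} (hw : π w ∉ R) (f : V → Prop) :
    ∑' v, ii (f v) * tR Γ π p R w v ≤ 1 := by
  rw [tsum_eq_single w fun v hv => ?_]
  · rw [tR, tau_self, mul_one]
    exact ii_le_one _
  · rw [tR, tau_zero (S := {w}) rfl hv fun a ha b _ => if_neg fun k =>
      hw (ha ▸ k.2 a (Sym2.mem_mk_left a b)), mul_zero]

lemma mmb_in {W : Finset V} (N : Subgroup G) (f : V → Prop) (t : V → ℝ≥0∞)
    (h : ∀ w, f w → ∃ w₀ ∈ W, ∃ n ∈ N, w = n • w₀) :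
    ∑' v, ii (f v) * t v ≤ ∑ w ∈ W, ∑' n : N, t ((n : G) • w) := by
  have k : ∀ v, ii (f v) * t v ≤ ∑ w ∈ W, ∑' n : N, if v = (n : G) • w then t ((n : G) • w)
      else 0 := fun v => by
    by_cases hv : f v
    · obtain ⟨w, hw, n, hn, e⟩ := h v hv
      refine le_trans ?_ (Finset.single_le_sum (fun _ _ => zero_le) hw)
      refine le_trans ?_ (ENNReal.le_tsum ⟨n, hn⟩)
      rw [ii_true hv, one_mul, if_pos e, ← e]
    · rw [ii_false hv, zero_mul]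
      exact zero_le
  refine (ENNReal.tsum_le_tsum k).trans ?_
  rw [Summable.tsum_finsetSum fun _ _ => ENNReal.summable]
  refine Finset.sum_le_sum fun w _ => ?_
  rw [ENNReal.tsum_comm]
  simp only [tsum_ite_eq, le_refl]

/-- the supremum is attained up to a constant on one of finitely many pairs of orbits -/
theorem Sj.best [Finite α] (hs : Sj Γ φ π) (D : ℕ) :
    ∃ (c₁ : ℕ) (Cs : Finset (FreeGroup α × V × V)),
      (∀ c ∈ Cs, dd c.1 1 = 1 ∧ π c.2.1 ∈ half c.1 1 ∧ dd (π c.2.1) 1 ≤ D ∧ dd (π c.2.2) 1 ≤ D) ∧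
      ∀ p, 0 ≤ p → p ≤ 1 → mm π (tR Γ π p) D ≤ c₁ ∨ ∃ c ∈ Cs, mm π (tR Γ π p) D ≤
        c₁ * ∑' n : φ.ker, tR Γ π p (half c.1 1) c.2.1 ((n : G) • c.2.2) := by
  obtain ⟨W, hW1, hW2⟩ := hs.near_orb 1 D
  obtain ⟨Cs, hCs⟩ : ∃ Cs : Finset (FreeGroup α × V × V), ∀ c, c ∈ Cs ↔
      dd c.1 1 = 1 ∧ π c.2.1 ∈ half c.1 1 ∧ c.2.1 ∈ W ∧ c.2.2 ∈ W := by
    refine ⟨((ball_fin (1 : FreeGroup α) 1).toFinset ×ˢ W ×ˢ W).filter fun c =>
      dd c.1 1 = 1 ∧ π c.2.1 ∈ half c.1 1, fun c => ?_⟩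
    simp only [Finset.mem_filter, Finset.mem_product, Set.Finite.mem_toFinset, Set.mem_ofPred_eq]
    exact ⟨fun k => ⟨k.2.1, k.2.2, k.1.2⟩,
      fun k => ⟨⟨by rw [dd_comm]; exact k.1.le, k.2.2⟩, k.1, k.2.1⟩⟩
  refine ⟨W.card + 1, Cs, fun c hc => ?_, fun p _ _ => ?_⟩
  · obtain ⟨a, b, c, d⟩ := (hCs c).1 hc
    exact ⟨a, b, hW1 _ c, hW1 _ d⟩
  have key : ∀ M : ℝ≥0∞, (∀ c ∈ Cs, ∑' n : φ.ker,
      tR Γ π p (half c.1 1) c.2.1 ((n : G) • c.2.2) ≤ M) →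
      mm π (tR Γ π p) D ≤ max 1 (W.card * M) := by
    refine fun M hM => mmb_ge π _ fun q u w h1 h2 => ?_
    obtain ⟨g, rfl⟩ := hs.surj u
    obtain ⟨q, rfl⟩ : ∃ q', q = φ g * q' := ⟨(φ g)⁻¹ * q, by simp⟩
    obtain ⟨w, rfl⟩ : ∃ w', w = g • w' := ⟨g⁻¹ • w, by simp⟩
    have e1 : ∀ v, dd (φ g * v) (φ g) = dd v 1 := fun v => by rw [← dd_mul (φ g) v, mul_one]
    rw [hs.eqv, e1] at h2
    rw [e1] at h1
    obtain ⟨w, hw, n, hn, rfl⟩ := hW2 w h2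
    have e2 : φ (g * n) = φ g := by rw [map_mul, MonoidHom.mem_ker.1 hn, mul_one]
    have e3 : {v | φ g * v ∈ half (φ g * q) (φ g)} = half q 1 := by
      ext v
      rw [← mul_mem_half (g := φ g), mul_one]
      rfl
    rw [← mul_smul, ← (MulAction.toPerm (g * n)).tsum_eq]
    simp only [MulAction.toPerm_apply, hs.tR_smul, hs.eqv, e2, e1, e3]
    by_cases hh : π w ∈ half q 1
    · refine le_max_of_le_right ((mmb_in φ.ker _ _ hW2).trans ?_)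
      rw [← nsmul_eq_mul]
      exact Finset.sum_le_card_nsmul _ _ _ fun w' hw' =>
        hM (q, w, w') ((hCs _).2 ⟨h1, hh, hw, hw'⟩)
    · exact le_max_of_le_left (mmb_out hh _)
  have h1 : (1 : ℝ≥0∞) ≤ (W.card + 1 : ℕ) := by exact_mod_cast Nat.le_add_left _ _
  rcases Cs.eq_empty_or_nonempty with h | h
  · left
    have := key 0 (by simp [h])
    rw [mul_zero, max_eq_left zero_le] at this
    exact this.trans h1
  · obtain ⟨c, hc, hm⟩ := Cs.exists_max_image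
      (fun c => ∑' n : φ.ker, tR Γ π p (half c.1 1) c.2.1 ((n : G) • c.2.2)) h
    rcases le_max_iff.1 (key _ hm) with k | k
    · exact Or.inl (k.trans h1)
    · exact Or.inr ⟨c, hc, k.trans (mul_le_mul_left (by exact_mod_cast Nat.le_succ _) _)⟩

end Vale.Agent.P165
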