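import Vale.Agent.P165.WalkT
import Vale.Agent.P165.MmB

open Classical
open scoped ENNReal

namespace Vale.Agent.P165

open Vale.Agent.P151

universe u

variable {V : Type*} {α : Type*} [DecidableEq α]
variable {Γ : SimpleGraph V} {G : Type u} [Group G] [MulAction G V]
variable {ρ : G →* Equiv.Perm (FreeGroup α)} {π : V → FreeGroup α}


lemma Tj.orb_le_mm (hs : Tj Γ ρ π) (p : ℝ) {q u : FreeGroup α} (hq : dd q u = 1)
    {N : Subgroup G} (hN : ∀ n ∈ N, ρ n u = u) {D : ℕ} {x y : V}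
    (hx : dd (π x) u ≤ D) (hy : dd (π y) u ≤ D) :
    ∑' n : N, tR Γ π p (half q u) x ((n : G) • y) ≤ mm π (tR Γ π p) D := by
  refine le_trans ?_ (mmb_le π _ hq hx)
  have hi : Function.Injective fun n : N => (n : G) • y := fun a b h => by
    have := hs.geom.free ((b : G)⁻¹ * a) y (by rw [mul_smul, inv_smul_eq_iff]; exact h)
    exact Subtype.ext (inv_mul_eq_one.1 this).symm
  refine le_trans (ENNReal.tsum_le_tsum fun n => ?_) (ENNReal.tsum_comp_le_tsum_of_injective hi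
    fun w' => ii (dd (π w') u ≤ D) * tR Γ π p (half q u) x w')
  have h : dd (π ((n : G) • y)) u ≤ D := by
    have := hs.act.iso n (π y) u
    rw [hN n n.2] at this
    rwa [hs.eqv, this]
  rw [ii_true h, one_mul]

theorem Tj.best [Finite α] (hs : Tj Γ ρ π) (D : ℕ)
    (cf : FreeGroup α → FreeGroup α → V → List (FreeGroup α)) :
    ∃ (c₁ : ℕ) (Cs : Finset ((FreeGroup α × FreeGroup α) × V × V)),
      (∀ c ∈ Cs, dd c.1.1 c.1.2 = 1 ∧ π c.2.1 ∈ half c.1.1 c.1.2 ∧ dd (π c.2.1) c.1.2 ≤ D ∧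
        dd (π c.2.2) c.1.2 ≤ D) ∧
      ∀ p, 0 ≤ p → p ≤ 1 → mm π (tR Γ π p) D ≤ c₁ ∨ ∃ c ∈ Cs, mm π (tR Γ π p) D ≤
        c₁ * ∑' n : fx ρ (c.1.2 :: c.1.1 :: cf c.1.1 c.1.2 c.2.1),
          tR Γ π p (half c.1.1 c.1.2) c.2.1 ((n : G) • c.2.2) := by
  obtain ⟨Es, hE1, hE2⟩ := hs.act.edge_orb
  choose W hW1 hW2 using fun e : FreeGroup α × FreeGroup α => hs.near_orb e.2 [e.1] D
  choose U hU1 hU2 using fun (e : FreeGroup α × FreeGroup α) (w : V) =>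
    hs.near_orb e.2 (e.1 :: cf e.1 e.2 w) D
  obtain ⟨Cs, hCs⟩ : ∃ Cs : Finset ((FreeGroup α × FreeGroup α) × V × V), ∀ c, c ∈ Cs ↔
      c.1 ∈ Es ∧ π c.2.1 ∈ half c.1.1 c.1.2 ∧ c.2.1 ∈ W c.1 ∧ c.2.2 ∈ U c.1 c.2.1 := by
    refine ⟨(Es.biUnion fun e => (W e).biUnion fun w => (U e w).image fun w' => (e, w, w')).filter
      fun c => π c.2.1 ∈ half c.1.1 c.1.2, fun c => ?_⟩
    simp only [Finset.mem_filter, Finset.mem_biUnion, Finset.mem_image]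
    constructor
    · rintro ⟨⟨e, he, w, hw, w', hw', rfl⟩, k⟩
      exact ⟨he, k, hw, hw'⟩
    · exact fun k => ⟨⟨c.1, k.1, c.2.1, k.2.2.1, c.2.2, k.2.2.2, rfl⟩, k.2.1⟩
  obtain ⟨K, hK⟩ : ∃ K : ℕ, ∀ e ∈ Es, ∀ w ∈ W e, (U e w).card ≤ K :=
    ⟨Es.sup fun e => (W e).sup fun w => (U e w).card, fun e he w hw =>
      (Finset.le_sup (f := fun w => (U e w).card) hw).trans
        (Finset.le_sup (f := fun e => (W e).sup fun w => (U e w).card) he)⟩
  refine ⟨K + 1, Cs, fun c hc => ?_, fun p _ _ => ?_⟩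
  · obtain ⟨a, b, c, d⟩ := (hCs c).1 hc
    exact ⟨hE1 _ a, b, hW1 _ _ c, hU1 _ _ _ d⟩
  have key : ∀ M : ℝ≥0∞, (∀ c ∈ Cs, ∑' n : fx ρ (c.1.2 :: c.1.1 :: cf c.1.1 c.1.2 c.2.1),
      tR Γ π p (half c.1.1 c.1.2) c.2.1 ((n : G) • c.2.2) ≤ M) →
      mm π (tR Γ π p) D ≤ max 1 (K * M) := by
    refine fun M hM => mmb_ge π _ fun q u w h1 h2 => ?_
    obtain ⟨e, he, g, rfl, rfl⟩ := hE2 q u h1
    obtain ⟨w, rfl⟩ : ∃ w', w = g • w' := ⟨g⁻¹ • w, by simp⟩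
    rw [hs.eqv, hs.act.iso] at h2
    obtain ⟨w, hw, n, hn, rfl⟩ := hW2 e w h2
    have e1 : ρ g e.1 = ρ (g * n) e.1 := by
      rw [map_mul, Equiv.Perm.mul_apply, hn e.1 (by simp)]
    have e2 : ρ g e.2 = ρ (g * n) e.2 := by
      rw [map_mul, Equiv.Perm.mul_apply, hn e.2 (by simp)]
    rw [e1, e2, ← mul_smul]
    generalize g * n = h
    have e3 : {v | ρ h v ∈ half (ρ h e.1) (ρ h e.2)} = half e.1 e.2 :=
      Set.ext fun v => hs.act.half_smul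
    rw [← (MulAction.toPerm h).tsum_eq]
    simp only [MulAction.toPerm_apply, hs.tR_smul, hs.eqv, hs.act.iso, e3]
    by_cases hh : π w ∈ half e.1 e.2
    · refine le_max_of_le_right ((mmb_in _ _ _ (hU2 e w)).trans ?_)
      refine (Finset.sum_le_card_nsmul _ _ _ fun w' hw' =>
        hM (e, w, w') ((hCs _).2 ⟨he, hh, hw, hw'⟩)).trans ?_
      rw [nsmul_eq_mul]
      exact mul_le_mul_left (by exact_mod_cast hK e he w hw) _
    · exact le_max_of_le_left (mmb_out hh _)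
  have h1 : (1 : ℝ≥0∞) ≤ (K + 1 : ℕ) := by exact_mod_cast Nat.le_add_left _ _
  rcases Cs.eq_empty_or_nonempty with h | h
  · left
    have := key 0 (by simp [h])
    rw [mul_zero, max_eq_left zero_le] at this
    exact this.trans h1
  · obtain ⟨c, hc, hm⟩ := Cs.exists_max_image
      (fun c => ∑' n : fx ρ (c.1.2 :: c.1.1 :: cf c.1.1 c.1.2 c.2.1),
        tR Γ π p (half c.1.1 c.1.2) c.2.1 ((n : G) • c.2.2)) h
    rcases le_max_iff.1 (key _ hm) with k | k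
    · exact Or.inl (k.trans h1)
    · exact Or.inr ⟨c, hc, k.trans (mul_le_mul_left (by exact_mod_cast Nat.le_succ _) _)⟩

end Vale.Agent.P165
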