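import Vale.Agent.P165.PairT
import Vale.Agent.P165.Rec1

open Classical
open scoped ENNReal

namespace Vale.Agent.P165

open Vale.Agent.P151

universe u

variable {V : Type*} {α : Type*} [DecidableEq α]
variable {Γ : SimpleGraph V} {G : Type u} [Group G] [MulAction G V]


lemma r1t_sB (c : Cg V G) (hc : c.Fine Γ) {k : G} (hk : k ∈ c.N) : sh k c.B = c.B :=
  Set.ext fun v => hc.invB _ (c.N.inv_mem hk) v

lemma r1t_chain (hG : Geom Γ G) (c : Cg V G) (hc : c.Fine Γ) {f : G} (hf : f ∈ c.I)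
    {S S' : Finset G} {n : G} (hn : n ∈ S) (hnN : n ∈ c.N) (hS' : ∀ m ∈ S', m ∈ c.N)
    {ω η : Set (Sym2 V)} (a1 : tr n c.Q2 ⊆ ω) (a2 : tr n (c.Pa f) ⊆ ω) (a3 : tr n (c.Pb f) ⊆ ω)
    (a4 : ∀ m ∈ S', Conn (ω ∩ inE Γ (sh (n * f) c.A)) ((n * f) • c.w) ((n * f * m) • c.w') ∧
      tr (n * f * m) c.Q1 ⊆ ω) {y : V} (hη : r1ev c.toCf Γ (n * f) S' y η) :
    c.toCf.ev Γ S y (mix (inE Γ (sh (n * f) c.B))ᶜ ω η) := by
  obtain ⟨m, hm, b1, b2⟩ := hη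
  have hmN := hS' m hm
  have sB : ∀ k ∈ c.N, sh k c.B = c.B := fun k hk => r1t_sB c hc hk
  have s3 : sh (n * f * m) c.B = sh (n * f) c.B := by rw [sh_mul, sB m hmN]
  have sub : ∀ X : Set V, sh f X ⊆ c.B → sh (n * f) X ⊆ c.B := by
    intro X hX v hv
    rw [sh_mul] at hv
    exact (hc.invB _ (c.N.inv_mem hnN) v).1 (hX hv)
  have out : ∀ P : Finset (Sym2 V), Disjoint (P : Set (Sym2 V)) (inE Γ (sh f c.B)) →
      tr n P ⊆ ω → tr n P ⊆ mix (inE Γ (sh (n * f) c.B))ᶜ ω η := by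
    intro P hP hω e he
    have := (tr_disj hG n).2 hP
    rw [← sh_mul] at this
    exact Or.inl ⟨hω he, Set.disjoint_left.1 this he⟩
  have inB : ∀ P : Finset (Sym2 V), (P : Set (Sym2 V)) ⊆ inE Γ c.B → tr n P ⊆ inE Γ c.B := by
    intro P hP
    have := (tr_sub hG n).2 hP
    rwa [sB n hnN] at this
  have uB : inE Γ (sh (n * f) c.B) ⊆ inE Γ c.B := inE_mono (sub _ (hc.subB f hf))
  refine ⟨n, hn, out _ (hc.q2d f hf) a1, ?_⟩
  have c1 : Conn (mix (inE Γ (sh (n * f) c.B))ᶜ ω η ∩ inE Γ c.B) (n • c.z) ((n * f) • c.w) := by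
    rw [mul_smul]
    exact r1_conn2 n (hc.pc f hf) _
      (Set.subset_inter (out _ (hc.paB f hf) a2) (inB _ (hc.pa f hf)))
      (Set.subset_inter (out _ (hc.pbB f hf) a3) (inB _ (hc.pb f hf)))
  have c2 : Conn (mix (inE Γ (sh (n * f) c.B))ᶜ ω η ∩ inE Γ c.B) ((n * f) • c.w)
      ((n * f * m) • c.w') := by
    refine (a4 m hm).1.mono ?_
    rintro e ⟨he1, he2⟩
    refine ⟨Or.inl ⟨he1, fun he3 => ?_⟩, inE_mono (sub _ (hc.subA f hf)) he2⟩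
    have hv : e.out.1 ∈ e := Sym2.out_fst_mem e
    exact Set.disjoint_left.1 hc.dis (he2.2 _ hv) (he3.2 _ hv)
  have c3 : Conn (mix (inE Γ (sh (n * f) c.B))ᶜ ω η ∩ inE Γ c.B) ((n * f * m) • c.w')
      ((n * f * m) • c.z) := by
    refine r1_conn2 (n * f * m) hc.qc _ (Set.subset_inter ?_ ?_) ?_
    · intro e he
      have := (tr_disj hG (n * f * m)).2 hc.q1d
      rw [s3] at this
      exact Or.inl ⟨(a4 m hm).2 he, Set.disjoint_left.1 this he⟩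
    · rw [mul_assoc, tr_mul]
      have h2 := hc.q1s f hf m hmN
      rw [tr_eq_image] at h2
      exact inB _ h2
    · have := (tr_sub hG (n * f * m)).2 hc.q2
      rw [s3] at this
      intro e he
      exact ⟨Or.inr ⟨b1 he, fun h => h (this he)⟩, uB (this he)⟩
  have c4 : Conn (mix (inE Γ (sh (n * f) c.B))ᶜ ω η ∩ inE Γ c.B) ((n * f * m) • c.z) y := by
    refine b2.mono ?_
    rintro e ⟨he1, he2⟩
    exact ⟨Or.inr ⟨he1, fun h => h he2⟩, uB he2⟩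
  exact ((c1.trans c2).trans c3).trans c4

theorem rec_one2 (hG : Geom Γ G) (c : Cg V G) (hc : c.Fine Γ) {p : ℝ} (h0 : 0 ≤ p) (h1 : p ≤ 1)
    {M : ℕ} {E : ℝ} {f : G} (hf : f ∈ c.I) {S : Finset G} (hS : ∀ n ∈ S, n ∈ c.N)
    {g₀ : G} (hg : ∀ n ∈ S, g₀⁻¹ * (n * c.s n f) ∈ c.N)
    (F : Finset (Sym2 V)) {ψ : ℝ≥0∞} (hψ : ∀ S', c.good Γ p M E S' → ψ ≤ c.toCf.psi Γ p S') :
    ENNReal.ofReal (Pr F (wU p Γ.edgeSet) (c.Suc Γ p M E f S)) * ψ ≤ ∑' y, ii (y ∈ sh g₀ c.B) *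
      ⨆ F' : Finset (Sym2 V), ENNReal.ofReal (Pr F' (wU p Γ.edgeSet) (c.toCf.ev Γ S y)) := by
  have hw := wU_ok h0 h1 Γ.edgeSet
  refine ENNReal.mul_le_of_forall_lt fun a' ha b' hb => ?_
  have H : ∀ ω0 : Finset (Sym2 V), ∃ Y : Finset V, (∀ y ∈ Y, y ∈ sh g₀ c.B) ∧
      ∀ᶠ F' : Finset (Sym2 V) in Filter.atTop, c.Suc Γ p M E f S ω0 →
        ∀ ω : Set (Sym2 V), (ω0 : Set (Sym2 V)) ⊆ ω → b'.toReal ≤ ∑ y ∈ Y,
          Pr F' (wU p Γ.edgeSet) (fun η => c.toCf.ev Γ S y (mix (inE Γ (sh g₀ c.B))ᶜ ω η)) := by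
    intro ω0
    by_cases hs : c.Suc Γ p M E f S ω0
    · obtain ⟨n, hn, a1, a2, a3, S', hg', a4⟩ := hs
      obtain ⟨Y, hY, hev⟩ := r1_approx hG c.toCf h0 h1 (n * c.s n f) S' (hb.trans_le (hψ S' hg'))
      have e0 : sh (n * c.s n f) c.B = sh g₀ c.B := by
        rw [← mul_inv_cancel_left g₀ (n * c.s n f), sh_mul, r1t_sB c hc (hg n hn)]
      refine ⟨Y, fun y hy => e0 ▸ hY y hy, ?_⟩
      filter_upwards [hev] with F' hF' _ ω hω
      refine hF'.trans (Finset.sum_le_sum fun y _ => Pr_mono hw fun η _ hη => ?_)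
      rw [← e0]
      exact r1t_chain hG c hc (hc.perm n (hS n hn) f hf).1 hn (hS n hn) hg'.1 (a1.trans hω)
        (a2.trans hω) (a3.trans hω)
        (fun m hm => ⟨(a4 m hm).1.mono (Set.inter_subset_inter_left _ hω),
          (a4 m hm).2.trans hω⟩) hη
    · exact ⟨∅, by simp, Filter.Eventually.of_forall fun _ h => absurd h hs⟩
  choose Y hY hev using H
  have ev1 := (Filter.eventually_all_finset F.powerset).2 fun ω0 _ => hev ω0
  obtain ⟨F', f1, f2⟩ := (ev1.and (Filter.eventually_ge_atTop F)).exists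
  let Yf : Finset V := F.powerset.biUnion Y
  have key : ∀ ω : Set (Sym2 V), ind (c.Suc Γ p M E f S (ω ∩ F)) * b'.toReal ≤ ∑ y ∈ Yf,
      Pr F' (wU p Γ.edgeSet) (fun η => c.toCf.ev Γ S y (mix (inE Γ (sh g₀ c.B))ᶜ ω η)) := by
    intro ω
    by_cases hs : c.Suc Γ p M E f S (ω ∩ F)
    · rw [ind_true hs, one_mul]
      have e0 : ((F.filter (· ∈ ω) : Finset (Sym2 V)) : Set (Sym2 V)) = ω ∩ F := by
        ext e; simp [and_comm]
      have hm : F.filter (· ∈ ω) ∈ F.powerset := Finset.mem_powerset.2 (Finset.filter_subset _ _)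
      refine (f1 _ hm (e0 ▸ hs) ω (e0 ▸ Set.inter_subset_left)).trans ?_
      exact Finset.sum_le_sum_of_subset_of_nonneg (Finset.subset_biUnion_of_mem Y hm)
        fun _ _ _ => Pr_nonneg hw _
    · rw [ind_false hs, zero_mul]
      exact Finset.sum_nonneg fun _ _ => Pr_nonneg hw _
  have k2 := Ex_mono (F := F') hw (fun ω _ => key ω)
  rw [Ex_mul_const, Ex_sum] at k2
  have k3 : ∀ y ∈ Yf, Ex F' (wU p Γ.edgeSet) (fun ω => Pr F' (wU p Γ.edgeSet)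
      (fun η => c.toCf.ev Γ S y (mix (inE Γ (sh g₀ c.B))ᶜ ω η)))
      = Pr F' (wU p Γ.edgeSet) (c.toCf.ev Γ S y) := fun y _ =>
    (resample_fixed F' (wU p Γ.edgeSet) (inE Γ (sh g₀ c.B))ᶜ (fun ω => ind (c.toCf.ev Γ S y ω))).symm
  have k4 : Ex F' (wU p Γ.edgeSet) (fun ω => ind (c.Suc Γ p M E f S (ω ∩ F)))
      = Pr F (wU p Γ.edgeSet) (c.Suc Γ p M E f S) :=
    Ex_restrict' (F := F') (F' := F) _ (U := (F : Set (Sym2 V)))
      (fun e => ⟨fun he => ⟨f2 he, he⟩, fun he => he.2⟩) (fun ω => ind (c.Suc Γ p M E f S ω))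
  rw [Finset.sum_congr rfl k3, k4] at k2
  have m2 := ENNReal.ofReal_le_ofReal k2
  rw [ENNReal.ofReal_mul (Pr_nonneg hw _), ENNReal.ofReal_toReal hb.ne_top,
    ENNReal.ofReal_sum_of_nonneg (s := Yf) (fun _ _ => Pr_nonneg hw _)] at m2
  refine le_trans (by gcongr) (m2.trans ?_)
  refine le_trans (Finset.sum_le_sum fun y hy => ?_) (ENNReal.sum_le_tsum Yf)
  obtain ⟨ω0, -, hy⟩ := Finset.mem_biUnion.1 hy
  rw [ii_true (hY ω0 y hy), one_mul]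
  exact le_iSup (fun F' : Finset (Sym2 V) =>
    ENNReal.ofReal (Pr F' (wU p Γ.edgeSet) (c.toCf.ev Γ S y))) F'

end Vale.Agent.P165
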