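import Vale.Agent.P165.Def5
import Vale.Agent.P165.KapQ

open Classical
open scoped ENNReal

namespace Vale.Agent.P165

open Vale.Agent.P151

universe u

variable {V : Type*} {α : Type*} [DecidableEq α]
variable {G : Type u} [Group G] {ρ : G →* Equiv.Perm (FreeGroup α)}


lemma TreeAct.half_smul (hρ : TreeAct ρ) {g : G} {s t v : FreeGroup α} :
    ρ g v ∈ half (ρ g s) (ρ g t) ↔ v ∈ half s t := by
  change dd (ρ g v) (ρ g t) < dd (ρ g v) (ρ g s) ↔ dd v t < dd v s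
  rw [hρ.iso, hρ.iso]

lemma TreeAct.cone_smul (hρ : TreeAct ρ) {g : G} {s t v : FreeGroup α} :
    ρ g v ∈ cone (ρ g s) (ρ g t) ↔ v ∈ cone s t := by
  change dd (ρ g s) (ρ g v) = dd (ρ g s) (ρ g t) + dd (ρ g t) (ρ g v) ↔ dd s v = dd s t + dd t v
  rw [hρ.iso, hρ.iso, hρ.iso]

lemma TreeAct.edge_orb [Finite α] (hρ : TreeAct ρ) : ∃ Es : Finset (FreeGroup α × FreeGroup α),
    (∀ e ∈ Es, dd e.1 e.2 = 1) ∧
      ∀ q u, dd q u = 1 → ∃ e ∈ Es, ∃ g : G, q = ρ g e.1 ∧ u = ρ g e.2 := by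
  obtain ⟨s, hs⟩ := hρ.cof
  have h1 : (⋃ x ∈ (s : Set (FreeGroup α)), {v | dd x v ≤ 1}).Finite :=
    s.finite_toSet.biUnion fun x _ => ball_fin x 1
  have h2 : {e : FreeGroup α × FreeGroup α | e.1 ∈ s ∧ dd e.1 e.2 = 1}.Finite := by
    refine (s.finite_toSet.prod h1).subset ?_
    rintro ⟨a, b⟩ ⟨ha, hb⟩
    exact ⟨ha, Set.mem_biUnion ha (le_of_eq hb)⟩
  refine ⟨h2.toFinset, fun e he => (h2.mem_toFinset.1 he).2, fun q u hq => ?_⟩
  obtain ⟨g, hg⟩ := hs q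
  refine ⟨(ρ g q, ρ g u), h2.mem_toFinset.2 ⟨hg, (hρ.iso g q u).trans hq⟩, g⁻¹, ?_, ?_⟩ <;> simp

lemma TreeAct.fx_cos [Finite α] (hρ : TreeAct ρ) (u : FreeGroup α) (l : List (FreeGroup α)) :
    ∃ R : Finset G, ∀ ν : G, ρ ν u = u → ∃ γ ∈ R, γ⁻¹ * ν ∈ fx ρ l := by
  let F : G → ({t // t ∈ l} → FreeGroup α) := fun ν t => ρ ν t.1
  have hl : Finite {t // t ∈ l} := l.finite_toSet.to_subtype
  have hf : (F '' {ν | ρ ν u = u}).Finite := by
    refine (Set.Finite.pi' (fun t : {t // t ∈ l} => ball_fin u (dd u t.1))).subset ?_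
    rintro _ ⟨ν, hν, rfl⟩ t
    have hν' : ρ ν u = u := hν
    change dd u (ρ ν t.1) ≤ dd u t.1
    rw [← hρ.iso ν u t.1, hν']
  obtain ⟨R, -, hRf, hRe⟩ := Set.Finite.exists_subset_finite_image_eq hf subset_rfl
  refine ⟨hRf.toFinset, fun ν hν => ?_⟩
  have hm : F ν ∈ F '' R := hRe ▸ ⟨ν, hν, rfl⟩
  obtain ⟨γ, hγ, e⟩ := hm
  refine ⟨γ, hRf.mem_toFinset.2 hγ, fun t ht => ?_⟩
  have e' : ρ γ t = ρ ν t := congrFun e ⟨t, ht⟩
  rw [map_mul, map_inv, Equiv.Perm.mul_apply, Equiv.Perm.inv_eq_iff_eq, e']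

lemma ball_exp [Finite α] : ∃ Dg : ℕ, 1 ≤ Dg ∧ ∀ (r : FreeGroup α) (n : ℕ),
    (ball_fin r n).toFinset.card ≤ Dg ^ n := by
  have h1 : ∀ r : FreeGroup α,
      (ball_fin r 1).toFinset.card ≤ (ball_fin (1 : FreeGroup α) 1).toFinset.card := fun r => by
    refine Finset.card_le_card_of_injOn (fun v => r⁻¹ * v) (fun v hv => ?_)
      (fun a _ b _ h => mul_left_cancel h)
    have hv' : dd r v ≤ 1 := by simpa using hv
    have : dd 1 (r⁻¹ * v) ≤ 1 := by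
      rw [← dd_mul r]; simpa using hv'
    simpa using this
  refine ⟨(ball_fin (1 : FreeGroup α) 1).toFinset.card, Finset.card_pos.2 ⟨1, by simp [dd_self]⟩,
    fun r n => ?_⟩
  induction n with
  | zero =>
    rw [pow_zero]
    refine Finset.card_le_one.2 fun a ha b hb => ?_
    have ha' : dd r a = 0 := by simpa using ha
    have hb' : dd r b = 0 := by simpa using hb
    rw [← dd_eq_zero.1 ha', ← dd_eq_zero.1 hb']
  | succ n ih =>
    have hs : (ball_fin r (n + 1)).toFinset ⊆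
        (ball_fin r n).toFinset.biUnion fun x => (ball_fin x 1).toFinset := by
      intro v hv
      have hv' : dd r v ≤ n + 1 := by simpa using hv
      obtain ⟨x, hx, hc⟩ := exists_pre r v (j := dd r v - 1) (by omega)
      have hc' : dd r v = dd r x + dd x v := hc
      refine Finset.mem_biUnion.2 ⟨x, ?_, ?_⟩
      · have : dd r x ≤ n := by omega
        simpa using this
      · have : dd x v ≤ 1 := by omega
        simpa using this
    refine (Finset.card_le_card hs).trans ((Finset.card_biUnion_le_card_mul _ _ _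
      fun x _ => h1 x).trans ?_)
    rw [pow_succ]
    exact Nat.mul_le_mul_right _ ih

lemma TreeAct.irr_bdd [Finite α] (hρ : TreeAct ρ) {s' t' : FreeGroup α} (h' : dd s' t' = 1) :
    ∃ n : ℕ, ∀ s t : FreeGroup α, dd s t = 1 →
      ∃ g : G, (∀ v ∈ half s' t', ρ g v ∈ half s t) ∧ dd t (ρ g t') ≤ n := by
  obtain ⟨Es, hE, hE'⟩ := hρ.edge_orb
  have h1 : ∀ e : FreeGroup α × FreeGroup α, ∃ g : G, dd e.1 e.2 = 1 →
      ∀ v ∈ half s' t', ρ g v ∈ half e.1 e.2 := by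
    intro e
    by_cases he : dd e.1 e.2 = 1
    · obtain ⟨g, hg⟩ := hρ.irr _ _ _ _ he h'
      exact ⟨g, fun _ => hg⟩
    · exact ⟨1, fun h => absurd h he⟩
  choose k hk using h1
  refine ⟨Es.sup fun e => dd e.2 (ρ (k e) t'), fun s t hst => ?_⟩
  obtain ⟨e, he, g, rfl, rfl⟩ := hE' s t hst
  refine ⟨g * k e, fun v hv => ?_, ?_⟩
  · rw [map_mul, Equiv.Perm.mul_apply]
    exact hρ.half_smul.2 (hk e (hE e he) v hv)
  · rw [map_mul, Equiv.Perm.mul_apply, hρ.iso]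
    exact Finset.le_sup (f := fun e => dd e.2 (ρ (k e) t')) he

end Vale.Agent.P165
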